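import Vale.Agent.P366W.Fv
import Mathlib.Analysis.Calculus.ImplicitContDiff

/-!
# P366W: a surface with small tilt is a graph
-/

open MeasureTheory Metric Filter Topology Set
open scoped ContDiff ENNReal RealInnerProductSpace
open Vale.Agent.P366.Stmt Vale.Agent.P366Y

noncomputable section

namespace Vale.Agent.P366W

variable {N m : ℕ}

theorem pos_of_cross {f f' : ℝ → ℝ} (hf : ∀ t, HasDerivAt f (f' t) t) (h0 : f 0 = 0)
    (h : ∀ t ∈ Icc (0 : ℝ) 1, f t = 0 → 0 < f' t) : 0 < f 1 := by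
  have h1 := image_le_of_deriv_right_lt_deriv_boundary (f := fun _ => (0 : ℝ)) (f' := fun _ => 0)
    (a := 0) (b := 1) continuousOn_const (fun x _ => hasDerivWithinAt_const _ _ _) h0.ge hf
    fun x hx h2 => h x (Ico_subset_Icc_self hx) h2.symm
  refine lt_of_le_of_ne (h1 ⟨zero_le_one, le_rfl⟩) fun h2 => ?_
  have h3 := ((hf 1).tendsto_slope.mono_left (nhdsLT_le_nhdsNE 1)).eventually
    (lt_mem_nhds (h 1 ⟨zero_le_one, le_rfl⟩ h2.symm))
  obtain ⟨t, h4, h5⟩ := (h3.and (Ioo_mem_nhdsLT zero_lt_one)).exists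
  rw [slope_def_field, ← h2, sub_zero] at h4
  exact absurd h4 (not_lt.2 (div_nonpos_of_nonneg_of_nonpos (h1 (Ioo_subset_Icc_self h5))
    (sub_neg.2 h5.2).le))

namespace Surf

variable {S : Surf N}

theorem Ok.line (h : S.Ok) (p z : E N) (t : ℝ) :
    HasDerivAt (fun t : ℝ => S.Φ (p + t • z)) (S.W (p + t • z) * ⟪S.n (p + t • z), z⟫) t := by
  have h8 : HasDerivAt (fun s : ℝ => p + s • z) z t := by
    simpa using ((hasDerivAt_id t).smul_const z).const_add p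
  rw [← h.fderiv_eq]
  exact (h.dΦ _).hasFDerivAt.comp_hasDerivAt t h8

theorem Ok.cone_pos (h : S.Ok) {D : Set (E N)} (hD : Convex ℝ D) {p z : E N} (hp : p ∈ D)
    (hz : p + z ∈ D) (h0 : S.Φ p = 0) (hn : ∀ q ∈ D, S.Φ q = 0 → 0 < ⟪S.n q, z⟫) :
    0 < S.Φ (p + z) := by
  simpa using pos_of_cross (h.line p z) (by simpa using h0) fun t ht h1 =>
    mul_pos (h.W_pos _) (hn _ (hD.add_smul_mem hp hz ht) h1)

theorem Ok.cone_neg (h : S.Ok) {D : Set (E N)} (hD : Convex ℝ D) {p z : E N} (hp : p ∈ D)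
    (hz : p + z ∈ D) (h0 : S.Φ p = 0) (hn : ∀ q ∈ D, S.Φ q = 0 → ⟪S.n q, z⟫ < 0) :
    S.Φ (p + z) < 0 := by
  simpa using pos_of_cross (fun t => (h.line p z t).neg) (by simpa using h0) fun t ht h1 =>
    neg_pos.2 (mul_neg_of_pos_of_neg (h.W_pos _)
      (hn _ (hD.add_smul_mem hp hz ht) (by simpa using h1)))

end Surf

variable {S : Surf (m + 1)} {p e : E (m + 1)} {L : E m →ₗᵢ[ℝ] E (m + 1)} {σ r : ℝ}

theorem Fr.norm_le (h : Fr e L) (y : E m) (s : ℝ) : ‖L y + s • e‖ ≤ ‖y‖ + |s| := by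
  refine (norm_add_le _ _).trans ?_
  rw [norm_smul, h.one, L.norm_map, Real.norm_eq_abs, mul_one]

theorem Fr.tilt (h : Fr e L) {v : E (m + 1)} (hv : ‖v - e‖ ≤ σ) (y : E m) (s : ℝ) :
    |⟪v, L y + s • e⟫ - s| ≤ σ * (‖y‖ + |s|) := by
  have h1 := abs_real_inner_le_norm (v - e) (L y + s • e)
  rw [inner_sub_left, h.e_pt] at h1
  exact h1.trans (mul_le_mul hv (h.norm_le y s) (norm_nonneg _) ((norm_nonneg _).trans hv))

/-- small tilt on the ball of radius `r` -/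
def Tl (S : Surf (m + 1)) (p e : E (m + 1)) (r σ : ℝ) : Prop :=
  ∀ q ∈ ball p r, S.Φ q = 0 → ‖S.n q - e‖ ≤ σ

theorem Tl.up (ht : Tl S p e r σ) (hS : S.Ok) (h : Fr e L) (hσ : σ ≤ 1 / 2) {q : E (m + 1)}
    (hq : q ∈ ball p r) (h0 : S.Φ q = 0) {y : E m} {s : ℝ} (hz : q + (L y + s • e) ∈ ball p r)
    (hs : 2 * σ * ‖y‖ < s) : 0 < S.Φ (q + (L y + s • e)) := by
  refine hS.cone_pos (convex_ball p r) hq hz h0 fun x hx h1 => ?_
  have h2 := (abs_le.1 (h.tilt (ht x hx h1) y s)).1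
  have h3 : 0 ≤ σ := (norm_nonneg _).trans (ht x hx h1)
  have h4 : 0 < s := lt_of_le_of_lt (by positivity) hs
  rw [abs_of_pos h4] at h2
  nlinarith

theorem Tl.down (ht : Tl S p e r σ) (hS : S.Ok) (h : Fr e L) (hσ : σ ≤ 1 / 2) {q : E (m + 1)}
    (hq : q ∈ ball p r) (h0 : S.Φ q = 0) {y : E m} {s : ℝ} (hz : q + (L y + s • e) ∈ ball p r)
    (hs : s < -(2 * σ * ‖y‖)) : S.Φ (q + (L y + s • e)) < 0 := by
  refine hS.cone_neg (convex_ball p r) hq hz h0 fun x hx h1 => ?_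
  have h2 := (abs_le.1 (h.tilt (ht x hx h1) y s)).2
  have h3 : 0 ≤ σ := (norm_nonneg _).trans (ht x hx h1)
  have h4 : s < 0 := lt_of_lt_of_le hs (neg_nonpos.2 (by positivity))
  rw [abs_of_neg h4] at h2
  nlinarith

theorem Fr.mem_ball (h : Fr e L) {y : E m} {s c : ℝ} (hy : ‖y‖ < c) (hs : |s| ≤ c) :
    p + L y + s • e ∈ ball p (2 * c) := by
  rw [mem_ball_iff_norm, add_assoc, add_sub_cancel_left]
  linarith [h.norm_le y s]

/-- points of the surface near the tangent plane -/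
theorem Tl.cross (ht : Tl S p e (2 * r) σ) (hS : S.Ok) (h : Fr e L) (hσ : σ ≤ 1 / 4)
    (h0 : S.Φ p = 0) {y : E m} (hy : ‖y‖ < r) :
    ∃ s, |s| ≤ 2 * σ * ‖y‖ ∧ S.Φ (p + L y + s • e) = 0 := by
  have hr : 0 < r := (norm_nonneg _).trans_lt hy
  have hp : p ∈ ball p (2 * r) := mem_ball_self (by linarith)
  have h3 : 0 ≤ σ := (norm_nonneg _).trans (ht p hp h0)
  have h4 : 2 * σ * ‖y‖ < r := by nlinarith [norm_nonneg y]
  have hc : Continuous fun s : ℝ => S.Φ (p + L y + s • e) := hS.smΦ.continuous.comp (by fun_prop)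
  have h1 := ht.up hS h (by linarith) hp h0 (y := y) (s := r)
    (add_assoc p _ _ ▸ h.mem_ball hy (abs_of_pos hr).le) h4
  have h2 := ht.down hS h (by linarith) hp h0 (y := y) (s := -r)
    (add_assoc p _ _ ▸ h.mem_ball hy (by rw [abs_neg, abs_of_pos hr])) (by linarith)
  rw [← add_assoc] at h1 h2
  obtain ⟨s, hs, h5⟩ := intermediate_value_Icc (show -r ≤ r by linarith) hc.continuousOn
    ⟨h2.le, h1.le⟩
  have hm : p + (L y + s • e) ∈ ball p (2 * r) := add_assoc p _ _ ▸ h.mem_ball hy (abs_le.2 hs)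
  simp only [add_assoc] at h5
  refine ⟨s, abs_le.2 ⟨not_lt.1 fun h6 => ?_, not_lt.1 fun h6 => ?_⟩, by rwa [add_assoc]⟩
  · exact (ht.down hS h (by linarith) hp h0 hm h6).ne h5
  · exact (ht.up hS h (by linarith) hp h0 hm h6).ne' h5

theorem Tl.graph (ht : Tl S p e (2 * r) σ) (hS : S.Ok) (h : Fr e L) (hσ : σ ≤ 1 / 4)
    (h0 : S.Φ p = 0) : ∃ w : E m → ℝ, Gr S p e L r w ∧
      (∀ y, ‖y‖ < r → |w y| ≤ 2 * σ * ‖y‖ ∧ ContDiffAt ℝ ∞ w y) ∧
      ∀ y y', ‖y‖ < r → ‖y'‖ < r → |w y - w y'| ≤ 2 * σ * ‖y - y'‖ := by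
  choose! w hw1 hw2 using fun y (hy : ‖y‖ < r) => ht.cross hS h hσ h0 hy
  have hw3 : ∀ y, ‖y‖ < r → |w y| < r := fun y hy => by
    have hr : 0 < r := (norm_nonneg _).trans_lt hy
    nlinarith [hw1 y hy, norm_nonneg y]
  have key : ∀ y y' s, ‖y‖ < r → ‖y'‖ < r → |s| < r →
      (2 * σ * ‖y - y'‖ < s - w y' → 0 < S.Φ (p + L y + s • e)) ∧
      (s - w y' < -(2 * σ * ‖y - y'‖) → S.Φ (p + L y + s • e) < 0) := fun y y' s h1 h2 h3 => by
    have e1 : p + L y + s • e = p + L y' + w y' • e + (L (y - y') + (s - w y') • e) := by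
      rw [map_sub, sub_smul]; abel
    have hm := h.mem_ball (p := p) h1 h3.le
    rw [e1] at hm ⊢
    exact ⟨ht.up hS h (by linarith) (h.mem_ball h2 (hw3 _ h2).le) (hw2 _ h2) hm,
      ht.down hS h (by linarith) (h.mem_ball h2 (hw3 _ h2).le) (hw2 _ h2) hm⟩
  have hG : Gr S p e L r w := fun y s h1 h2 => by
    have h3 := key y y s h1 h1 h2
    simp only [sub_self, norm_zero, mul_zero, neg_zero, sub_pos, sub_neg] at h3
    rcases lt_trichotomy s (w y) with h4 | rfl | h4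
    · exact ⟨iff_of_true (h3.2 h4) h4, iff_of_false (h3.2 h4).ne h4.ne⟩
    · exact ⟨iff_of_false (hw2 y h1).not_lt (lt_irrefl _), iff_of_true (hw2 y h1) rfl⟩
    · exact ⟨iff_of_false (h3.1 h4).not_gt h4.not_gt, iff_of_false (h3.1 h4).ne' h4.ne'⟩
  have hL : ∀ y y', ‖y‖ < r → ‖y'‖ < r → |w y - w y'| ≤ 2 * σ * ‖y - y'‖ := fun y y' h1 h2 =>
    abs_le.2 ⟨not_lt.1 fun h6 => ((key y y' _ h1 h2 (hw3 y h1)).2 h6).ne (hw2 y h1),
      not_lt.1 fun h6 => ((key y y' _ h1 h2 (hw3 y h1)).1 h6).ne' (hw2 y h1)⟩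
  refine ⟨w, hG, fun y hy => ⟨hw1 y hy, ?_⟩, hL⟩
  have hF : ContDiffAt ℝ ∞ (fun z : E m × ℝ => S.Φ (p + L z.1 + z.2 • e)) (y, w y) :=
    (hS.smΦ.comp ((contDiff_const.add (L.contDiff.comp contDiff_fst)).add
      (contDiff_snd.smul contDiff_const))).contDiffAt
  have hd : HasFDerivAt (fun z : E m × ℝ => p + L z.1 + z.2 • e)
      (L.toContinuousLinearMap ∘L .fst ℝ _ _ + (ContinuousLinearMap.snd ℝ _ _).smulRight e)
      (y, w y) := ((L.toContinuousLinearMap.hasFDerivAt.comp _ hasFDerivAt_fst).const_add p).add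
        (hasFDerivAt_snd.smul_const e)
  have hi : (fderiv ℝ (fun z : E m × ℝ => S.Φ (p + L z.1 + z.2 • e)) (y, w y) ∘L
      .inr ℝ (E m) ℝ).IsInvertible := by
    have h1 := (abs_le.1 (h.tilt (ht _ (h.mem_ball hy (hw3 _ hy).le) (hw2 y hy)) 0 1)).1
    have h2 := hS.W_pos (p + L y + w y • e)
    simp only [map_zero, one_smul, zero_add, norm_zero, abs_one, mul_one] at h1
    refine ⟨ContinuousLinearEquiv.unitsEquivAut ℝ (Units.mk0 (S.W (p + L y + w y • e) *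
      ⟪S.n (p + L y + w y • e), e⟫) (mul_pos h2 (by linarith)).ne'), ?_⟩
    erw [((hS.dΦ _).hasFDerivAt.comp _ hd).fderiv]
    ext
    simp [hS.fderiv_eq]
  have hev : ∀ᶠ z in 𝓝 y, ‖z‖ < r := continuous_norm.continuousAt.eventually (gt_mem_nhds hy)
  have hc : Tendsto (fun z => (z, w z)) (𝓝 y) (𝓝 (y, w y)) := by
    refine tendsto_id.prodMk_nhds (tendsto_iff_norm_sub_tendsto_zero.2 ?_)
    refine squeeze_zero' (Eventually.of_forall fun _ => norm_nonneg _)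
      (hev.mono fun z hz => hL z y hz hy) ?_
    have : Continuous fun z : E m => 2 * σ * ‖z - y‖ := by fun_prop
    simpa using this.tendsto y
  refine (hF.contDiffAt_implicitFunction (by simp) hi).congr_of_eventuallyEq ?_
  filter_upwards [hc.eventually (hF.eventually_apply_eq_iff_implicitFunction (by simp) hi), hev]
    with z h1 h2
  exact (h1.1 (by simp only [hw2 z h2, hw2 y hy])).symm

end Vale.Agent.P366W
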