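import Vale.Agent.P366W.Basic
import Mathlib.Analysis.Calculus.LineDeriv.IntegrationByParts
import Mathlib.MeasureTheory.Measure.Haar.InnerProductSpace

/-!
# P366W: frames and the divergence theorem below a graph
-/

open MeasureTheory Metric Filter Topology Set
open scoped ContDiff ENNReal RealInnerProductSpace
open Vale.Agent.P366.Stmt Vale.Agent.P366Y

noncomputable section

namespace Vale.Agent.P366W

variable {N m : ℕ} {e : E (m + 1)} {L : E m →ₗᵢ[ℝ] E (m + 1)}

/-- the orthogonal projection to the coordinates of the hyperplane -/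
abbrev adj (L : E m →ₗᵢ[ℝ] E (m + 1)) : E (m + 1) →L[ℝ] E m :=
  ContinuousLinearMap.adjoint L.toContinuousLinearMap

theorem inner_adj (L : E m →ₗᵢ[ℝ] E (m + 1)) (y : E m) (x : E (m + 1)) :
    ⟪y, adj L x⟫ = ⟪L y, x⟫ := ContinuousLinearMap.adjoint_inner_right _ _ _

theorem adj_L (L : E m →ₗᵢ[ℝ] E (m + 1)) (y : E m) : adj L (L y) = y := by
  refine ext_inner_left ℝ fun z => ?_
  rw [inner_adj, L.inner_map_map]

theorem Fr.adj_e (h : Fr e L) : adj L e = 0 := by
  refine ext_inner_left ℝ fun z => ?_
  rw [inner_adj, real_inner_comm, h.ort, inner_zero_right]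

theorem Fr.ee (h : Fr e L) : ⟪e, e⟫ = 1 := by rw [real_inner_self_eq_norm_sq, h.one]; norm_num

theorem Fr.ort' (h : Fr e L) (y : E m) : ⟪L y, e⟫ = 0 := by rw [real_inner_comm, h.ort]

theorem Fr.norm_sq (h : Fr e L) (y : E m) (s : ℝ) : ‖L y + s • e‖ ^ 2 = ‖y‖ ^ 2 + s ^ 2 := by
  rw [norm_add_sq_real, inner_smul_right, h.ort', norm_smul, h.one, L.norm_map]
  simp

theorem Fr.adj_pt (h : Fr e L) (y : E m) (s : ℝ) : adj L (L y + s • e) = y := by
  simp [adj_L, h.adj_e]

theorem Fr.e_pt (h : Fr e L) (y : E m) (s : ℝ) : ⟪e, L y + s • e⟫ = s := by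
  simp [inner_add_right, inner_smul_right, h.ort, h.one]

/-- the isometry of a frame -/
def Fr.iso (h : Fr e L) : WithLp 2 (E m × ℝ) ≃ₗᵢ[ℝ] E (m + 1) :=
  LinearIsometry.toLinearIsometryEquiv
    { toFun := fun z => L z.fst + z.snd • e
      map_add' := fun z z' => by simp [add_smul]; abel
      map_smul' := fun c z => by simp [smul_smul]
      norm_map' := fun z => by
        rw [← sq_eq_sq₀ (norm_nonneg _) (norm_nonneg _), WithLp.prod_norm_sq_eq_of_L2]
        simpa using h.norm_sq z.fst z.snd }
    (by simp [(WithLp.linearEquiv 2 ℝ (E m × ℝ)).finrank_eq])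

theorem Fr.iso_apply (h : Fr e L) (z : WithLp 2 (E m × ℝ)) : h.iso z = L z.fst + z.snd • e := rfl

theorem Fr.dec (h : Fr e L) (x : E (m + 1)) : L (adj L x) + ⟪e, x⟫ • e = x := by
  obtain ⟨z, rfl⟩ := h.iso.surjective x
  rw [h.iso_apply, h.adj_pt, h.e_pt]

theorem Fr.norm_adj (h : Fr e L) (x : E (m + 1)) : ‖adj L x‖ ≤ ‖x‖ := by
  have := h.norm_sq (adj L x) ⟪e, x⟫
  rw [h.dec] at this
  exact abs_le_of_sq_le_sq' (by nlinarith [sq_nonneg ⟪e, x⟫]) (norm_nonneg _) |>.2

theorem Fr.trc (h : Fr e L) (M : E (m + 1) →L[ℝ] E (m + 1)) :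
    trc M = ∑ i, ⟪L (EuclideanSpace.single i 1), M (L (EuclideanSpace.single i 1))⟫ + ⟪e, M e⟫ := by
  have h1 : M = (M ∘L L.toContinuousLinearMap) ∘L adj L + (innerSL ℝ e).smulRight (M e) := by
    ext1 x
    conv_lhs => rw [← h.dec x]
    simp
  conv_lhs => rw [h1]
  rw [trc_add, trc_smulRight, trc_eq_trace]
  congr 1
  rw [ContinuousLinearMap.toLinearMap_comp, LinearMap.trace_comp_comm',
    LinearMap.trace_eq_sum_inner _ (EuclideanSpace.basisFun (Fin m) ℝ)]
  refine Finset.sum_congr rfl fun i _ => ?_
  simp [inner_adj]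

theorem Fr.mp0 (h : Fr e L) :
    MeasurePreserving (fun z : E m × ℝ => L z.1 + z.2 • e) (volume.prod volume) volume :=
  h.iso.measurePreserving.comp (WithLp.volume_preserving_toLp (E m) ℝ)

theorem Fr.mp (h : Fr e L) (p : E (m + 1)) {w : E m → ℝ} (hw : Measurable w) :
    MeasurePreserving (fun z : E m × ℝ => p + L z.1 + (w z.1 + z.2) • e)
      (volume.prod volume) volume := by
  have h1 : MeasurePreserving (fun z : E m × ℝ => (id z.1, w z.1 + z.2))
      (volume.prod volume) (volume.prod volume) :=
    (MeasurePreserving.id volume).skew_product (g := fun y s => w y + s) (by fun_prop)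
      (Eventually.of_forall fun y => map_add_left_eq_self volume (w y))
  have h2 := ((measurePreserving_add_left volume p).comp h.mp0).comp h1
  convert h2 using 1
  funext z
  simp [add_assoc]

/-- the shear as a homeomorphism -/
def Fr.sh (h : Fr e L) (p : E (m + 1)) {w : E m → ℝ} (hw : Continuous w) :
    E m × ℝ ≃ₜ E (m + 1) where
  toFun := fun z => p + L z.1 + (w z.1 + z.2) • e
  invFun := fun x => (adj L (x - p), ⟪e, x - p⟫ - w (adj L (x - p)))
  left_inv := fun z => by
    simp only [add_assoc, add_sub_cancel_left, h.adj_pt, h.e_pt]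
  right_inv := fun x => by
    simp only [add_sub_cancel, add_assoc, h.dec]
  continuous_toFun := by fun_prop
  continuous_invFun := by fun_prop

theorem integral_fderiv_zero {f : E N → ℝ} (hf : ContDiff ℝ 1 f) (hc : HasCompactSupport f)
    (v : E N) : ∫ x, fderiv ℝ f x v = 0 := by
  have hi : Integrable fun x => fderiv ℝ f x v :=
    ((hf.continuous_fderiv one_ne_zero).clm_apply continuous_const).integrable_of_hasCompactSupport
      (hc.fderiv_apply ℝ v)
  have := integral_mul_fderiv_eq_neg_fderiv_mul_of_integrable (μ := volume) (f := fun _ => (1 : ℝ))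
    (g := f) (v := v) (by simp) (by simpa using hi)
    (by simpa using hf.continuous.integrable_of_hasCompactSupport hc) (by simp)
    (fun x _ => hf.differentiable one_ne_zero x)
  simpa using this

theorem integral_dvg_zero {Y : E N → E N} (hY : ContDiff ℝ 1 Y) (hc : HasCompactSupport Y) :
    ∫ x, dvg Y x = 0 := by
  have h1 : ∀ i : Fin N, ∀ x, fderiv ℝ Y x (EuclideanSpace.single i 1) i =
      fderiv ℝ (fun y => (EuclideanSpace.proj i : E N →L[ℝ] ℝ) (Y y)) x
        (EuclideanSpace.single i 1) := fun i x => by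
    erw [((EuclideanSpace.proj i : E N →L[ℝ] ℝ).hasFDerivAt.comp x
      (hY.differentiable one_ne_zero x).hasFDerivAt).fderiv]
    simp
  have h2 : ∀ i : Fin N, ContDiff ℝ 1 fun y => (EuclideanSpace.proj i : E N →L[ℝ] ℝ) (Y y) :=
    fun i => (ContinuousLinearMap.contDiff _).comp hY
  have h3 : ∀ i : Fin N, HasCompactSupport fun y => (EuclideanSpace.proj i : E N →L[ℝ] ℝ) (Y y) :=
    fun i => hc.comp_left (map_zero _)
  simp only [dvg, h1]
  rw [integral_finsetSum _ fun i _ => ?_]
  · exact Finset.sum_eq_zero fun i _ => integral_fderiv_zero (h2 i) (h3 i) _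
  · exact (((h2 i).continuous_fderiv one_ne_zero).clm_apply
      continuous_const).integrable_of_hasCompactSupport ((h3 i).fderiv_apply ℝ _)

theorem gdiv : GDIV := by
  intro m p e L w Y h hw hY hc
  have hwc := hw.continuous
  set Ψ := h.sh p hwc with hΨ
  have hΨa : ∀ z, Ψ z = p + L z.1 + (w z.1 + z.2) • e := fun z => rfl
  have hmp : MeasurePreserving Ψ (volume.prod volume) volume := h.mp p hwc.measurable
  have hset : Ψ ⁻¹' {x | ∃ y s, s < w y ∧ x = p + L y + s • e} = univ ×ˢ Iio 0 := by
    ext z
    simp only [mem_preimage, mem_ofPred_eq, mem_prod, mem_univ, true_and, mem_Iio]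
    constructor
    · rintro ⟨y, s, hs, hz⟩
      have : Ψ z = Ψ (y, s - w y) := by rw [hz, hΨa]; simp
      rw [Ψ.injective this]
      simpa using hs
    · intro hz
      exact ⟨z.1, w z.1 + z.2, by linarith, rfl⟩
  rw [← hmp.setIntegral_preimage_emb Ψ.measurableEmbedding, hset, ← Measure.prod_restrict,
    Measure.restrict_univ]
  have hD := hY.continuous_fderiv one_ne_zero
  have hg : Continuous (gradient w) := (contDiff_gradient (k := 0) (by simpa using hw)).continuous
  have hcD : HasCompactSupport fun z => fderiv ℝ Y (Ψ z) := (hc.fderiv ℝ).comp_homeomorph Ψ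
  set f : Fin m → E m × ℝ → ℝ := fun i z => ⟪L (EuclideanSpace.single i 1), fderiv ℝ Y (Ψ z)
    (L (EuclideanSpace.single i 1) + gradient w z.1 i • e)⟫ with hf
  set g : E m × ℝ → ℝ := fun z => ⟪e - L (gradient w z.1), fderiv ℝ Y (Ψ z) e⟫ with hgd
  have hfi : ∀ i, Integrable (f i) (volume.prod volume) := fun i => by
    refine Continuous.integrable_of_hasCompactSupport (by rw [hf]; fun_prop) (hcD.mono ?_)
    intro z hz h0
    exact hz (by simp [hf, h0])
  have hgi : Integrable g (volume.prod volume) := by
    refine Continuous.integrable_of_hasCompactSupport (by rw [hgd]; fun_prop) (hcD.mono ?_)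
    intro z hz h0
    exact hz (by simp [hgd, h0])
  have hsum : ∀ z, dvg Y (Ψ z) = ∑ i, f i z + g z := fun z => by
    rw [dvg_eq, h.trc]
    simp only [hf, hgd, map_add, map_smul, inner_add_right, inner_smul_right, inner_sub_left,
      Finset.sum_add_distrib]
    have : ⟪L (gradient w z.1), fderiv ℝ Y (Ψ z) e⟫ =
        ∑ i, gradient w z.1 i * ⟪L (EuclideanSpace.single i 1), fderiv ℝ Y (Ψ z) e⟫ := by
      conv_lhs => rw [← sum_single (gradient w z.1)]
      simp [sum_inner, inner_smul_left]
    rw [this]; ring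
  have hle : (volume : Measure (E m)).prod ((volume : Measure ℝ).restrict (Iio 0)) ≤
      volume.prod volume := Measure.prod_mono le_rfl Measure.restrict_le_self
  simp only [hsum]
  rw [integral_add (integrable_finsetSum _ fun i _ => (hfi i).mono_measure hle)
    (hgi.mono_measure hle), integral_finsetSum _ fun i _ => (hfi i).mono_measure hle,
    Finset.sum_eq_zero fun i _ => ?_, zero_add, integral_prod _ (hgi.mono_measure hle)]
  · refine integral_congr_ae (Eventually.of_forall fun y => ?_)
    have hk : ContDiff ℝ 1 fun s : ℝ => ⟪e - L (gradient w y), Y (p + L y + (w y + s) • e)⟫ :=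
      contDiff_const.inner ℝ (hY.comp (by fun_prop))
    have hkc : HasCompactSupport fun s : ℝ =>
        ⟪e - L (gradient w y), Y (p + L y + (w y + s) • e)⟫ := by
      refine HasCompactSupport.intro ((hc.comp_homeomorph Ψ).isCompact.image continuous_snd)
        fun s hs => ?_
      have : (Y ∘ Ψ) (y, s) = 0 := image_eq_zero_of_notMem_tsupport fun h' => hs ⟨_, h', rfl⟩
      rw [show Y (p + L y + (w y + s) • e) = 0 from this, inner_zero_right]
    have h3 := hkc.integral_Iic_deriv_eq hk 0
    rw [add_zero, integral_Iic_eq_integral_Iio] at h3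
    simp only
    rw [← h3]
    refine integral_congr_ae (Eventually.of_forall fun s => ?_)
    have h4 : HasDerivAt (fun s : ℝ => p + L y + (w y + s) • e) e s := by
      simpa using (((hasDerivAt_id s).const_add (w y)).smul_const e).const_add (p + L y)
    have h5 := (hasDerivAt_const s (e - L (gradient w y))).inner ℝ
      ((hY.differentiable one_ne_zero _).hasFDerivAt.comp_hasDerivAt s h4)
    simp only
    erw [h5.deriv]
    simp [hgd, hΨa]
  · rw [integral_prod_symm _ ((hfi i).mono_measure hle)]
    refine integral_eq_zero_of_ae (Eventually.of_forall fun s => ?_)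
    have hk : ContDiff ℝ 1 fun y : E m =>
        ⟪L (EuclideanSpace.single i 1), Y (p + L y + (w y + s) • e)⟫ :=
      contDiff_const.inner ℝ (hY.comp ((contDiff_const.add L.contDiff).add
        ((hw.add contDiff_const).smul contDiff_const)))
    have hkc : HasCompactSupport fun y : E m =>
        ⟪L (EuclideanSpace.single i 1), Y (p + L y + (w y + s) • e)⟫ := by
      refine HasCompactSupport.intro ((hc.comp_homeomorph Ψ).isCompact.image continuous_fst)
        fun y hy => ?_
      have : (Y ∘ Ψ) (y, s) = 0 := image_eq_zero_of_notMem_tsupport fun h' => hy ⟨_, h', rfl⟩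
      rw [show Y (p + L y + (w y + s) • e) = 0 from this, inner_zero_right]
    have h3 := integral_fderiv_zero hk hkc (EuclideanSpace.single i 1)
    simp only [Pi.zero_apply]
    rw [← h3]
    refine integral_congr_ae (Eventually.of_forall fun y => ?_)
    have h4 : HasFDerivAt (fun y : E m => p + L y + (w y + s) • e)
        (L.toContinuousLinearMap + (fderiv ℝ w y).smulRight e) y :=
      (L.toContinuousLinearMap.hasFDerivAt.const_add p).add
        (((hw.differentiable one_ne_zero y).hasFDerivAt.add_const s).smul_const e)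
    have h5 := (innerSL ℝ (L (EuclideanSpace.single i 1))).hasFDerivAt.comp y
      ((hY.differentiable one_ne_zero _).hasFDerivAt.comp y h4)
    have h6 : fderiv ℝ w y (EuclideanSpace.single i 1) = gradient w y i := by
      rw [← inner_grad, EuclideanSpace.inner_single_right]; simp
    simp only
    rw [show (fun y : E m => ⟪L (EuclideanSpace.single i 1), Y (p + L y + (w y + s) • e)⟫) =
      (innerSL ℝ (L (EuclideanSpace.single i 1))) ∘ Y ∘ fun y : E m => p + L y + (w y + s) • e
      from rfl, h5.fderiv]
    simp [hf, hΨa, h6, inner_add_right, inner_smul_right]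

end Vale.Agent.P366W
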