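import Vale.Agent.P366W.Basic

/-!
# P366W: families with uniform bounds of the derivatives
-/

open Metric Filter Topology Set
open scoped ContDiff

noncomputable section

namespace Vale.Agent.P366W

variable {ι X Y V V' W : Type} [NormedAddCommGroup X] [NormedSpace ℝ X] [NormedAddCommGroup Y]
  [NormedSpace ℝ Y] [NormedAddCommGroup V] [NormedSpace ℝ V] [NormedAddCommGroup V']
  [NormedSpace ℝ V'] [NormedAddCommGroup W] [NormedSpace ℝ W] {α : ℝ} {l : Filter ι} {x : X}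
  {f g : ι → X → V} {k : ℕ}

theorem ev_nh {Z : Type} [TopologicalSpace Z] {x : Z} {P : ι → Z → Prop}
    (h : ∀ᶠ p in l ×ˢ 𝓝 x, P p.1 p.2) : ∀ᶠ p in l ×ˢ 𝓝 x, ∀ᶠ y in 𝓝 p.2, P p.1 y := by
  obtain ⟨pa, ha, pb, hb, H⟩ := eventually_prod_iff.1 h
  exact eventually_prod_iff.2 ⟨pa, ha, _, hb.eventually_nhds, fun h1 _ h2 =>
    h2.mono fun _ h3 => H h1 h3⟩

theorem ev_ball {Z : Type} [PseudoMetricSpace Z] {x : Z} {P : ι → Z → Prop}
    (h : ∀ᶠ p in l ×ˢ 𝓝 x, P p.1 p.2) : ∃ r > (0 : ℝ), ∀ᶠ i in l, ∀ y ∈ ball x r, P i y := by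
  obtain ⟨pa, ha, pb, hb, H⟩ := eventually_prod_iff.1 h
  obtain ⟨r, r0, hr⟩ := Metric.eventually_nhds_iff_ball.1 hb
  exact ⟨r, r0, ha.mono fun i hi y hy => H hi (hr y hy)⟩

theorem ev_of_ball {Z : Type} [TopologicalSpace Z] {x : Z} {P : ι → Z → Prop} {s : Set Z}
    (hs : s ∈ 𝓝 x) (h : ∀ᶠ i in l, ∀ y ∈ s, P i y) : ∀ᶠ p in l ×ˢ 𝓝 x, P p.1 p.2 :=
  eventually_prod_iff.2 ⟨_, h, (· ∈ s), hs, fun h1 _ h2 => h1 _ h2⟩

theorem ev_ball2 {Z : Type} [PseudoMetricSpace Z] {x : Z} {P : ι → Z → Z → Prop}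
    (h : ∀ᶠ p in l ×ˢ (𝓝 x ×ˢ 𝓝 x), P p.1 p.2.1 p.2.2) :
    ∃ r > (0 : ℝ), ∀ᶠ i in l, ∀ y ∈ ball x r, ∀ z ∈ ball x r, P i y z := by
  rw [← nhds_prod_eq] at h
  obtain ⟨r, r0, hr⟩ := ev_ball (P := fun i (q : Z × Z) => P i q.1 q.2) h
  exact ⟨r, r0, hr.mono fun i hi y hy z hz => hi (y, z) (ball_prod_same x x r ▸ ⟨hy, hz⟩)⟩

theorem ev_of_ball2 {Z : Type} [TopologicalSpace Z] {x : Z} {P : ι → Z → Z → Prop} {s : Set Z}
    (hs : s ∈ 𝓝 x) (h : ∀ᶠ i in l, ∀ y ∈ s, ∀ z ∈ s, P i y z) :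
    ∀ᶠ p in l ×ˢ (𝓝 x ×ˢ 𝓝 x), P p.1 p.2.1 p.2.2 :=
  eventually_prod_iff.2 ⟨_, h, (· ∈ s ×ˢ s), prod_mem_prod hs hs, fun h1 _ h2 => h1 _ h2.1 _ h2.2⟩

theorem td1 {Z : Type} {F : Filter Z} :
    Tendsto (fun p : ι × Z × Z => (p.1, p.2.1)) (l ×ˢ (F ×ˢ F)) (l ×ˢ F) :=
  tendsto_fst.prodMk (tendsto_fst.comp tendsto_snd)

theorem td2 {Z : Type} {F : Filter Z} :
    Tendsto (fun p : ι × Z × Z => (p.1, p.2.2)) (l ×ˢ (F ×ˢ F)) (l ×ˢ F) :=
  tendsto_fst.prodMk (tendsto_snd.comp tendsto_snd)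

theorem td3 {Z : Type} {F : Filter Z} :
    Tendsto (fun p : ι × Z × Z => (p.1, p.2.2, p.2.1)) (l ×ˢ (F ×ˢ F)) (l ×ˢ (F ×ˢ F)) :=
  tendsto_fst.prodMk ((tendsto_snd.comp tendsto_snd).prodMk (tendsto_fst.comp tendsto_snd))

theorem td0 {Z : Type} [TopologicalSpace Z] {x : Z} :
    Tendsto (fun p : ι × Z => (p.1, p.2, p.2)) (l ×ˢ 𝓝 x) (l ×ˢ (𝓝 x ×ˢ 𝓝 x)) :=
  tendsto_fst.prodMk (tendsto_snd.prodMk tendsto_snd)

/-- the functions are smooth near `x` -/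
def SM (l : Filter ι) (x : X) (f : ι → X → V) : Prop :=
  ∀ᶠ p in l ×ˢ 𝓝 x, ContDiffAt ℝ ∞ (f p.1) p.2

/-- uniform bounds of all derivatives near `x` -/
def UB (l : Filter ι) (x : X) (f : ι → X → V) : Prop :=
  SM l x f ∧ ∀ m : ℕ, ∃ A, ∀ᶠ p in l ×ˢ 𝓝 x, ‖iteratedFDeriv ℝ m (f p.1) p.2‖ ≤ A

/-- uniform Hölder bounds near `x` -/
def L0 (α : ℝ) (l : Filter ι) (x : X) (f : ι → X → V) : Prop :=
  SM l x f ∧ ∃ A ≥ (0 : ℝ), ∀ᶠ p in l ×ˢ (𝓝 x ×ˢ 𝓝 x), ‖f p.1 p.2.1‖ ≤ A ∧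
    ‖f p.1 p.2.1 - f p.1 p.2.2‖ ≤ A * ‖p.2.1 - p.2.2‖ ^ α

/-- uniform Hölder bounds of the derivatives of order at most `k` near `x` -/
def LH (α : ℝ) (l : Filter ι) (x : X) : ℕ → ∀ {V : Type} [NormedAddCommGroup V]
    [NormedSpace ℝ V], (ι → X → V) → Prop
  | 0, _, _, _, f => L0 α l x f
  | k + 1, _, _, _, f => L0 α l x f ∧ LH α l x k fun i => fderiv ℝ (f i)

theorem SM.fderiv (h : SM l x f) : SM l x fun i => fderiv ℝ (f i) :=
  h.mono fun _ hp => hp.fderiv_right (m := ∞) le_rfl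

theorem SM.diff (h : SM l x f) : ∀ᶠ p in l ×ˢ 𝓝 x, DifferentiableAt ℝ (f p.1) p.2 :=
  h.mono fun _ hp => hp.differentiableAt (by simp)

theorem SM.congr (h : SM l x f) (e : ∀ᶠ p in l ×ˢ 𝓝 x, g p.1 p.2 = f p.1 p.2) : SM l x g :=
  (h.and (ev_nh (P := fun i y => g i y = f i y) e)).mono fun _ k => k.1.congr_of_eventuallyEq k.2

theorem L0.congr (h : L0 α l x f) (e : ∀ᶠ p in l ×ˢ 𝓝 x, g p.1 p.2 = f p.1 p.2) : L0 α l x g := by
  obtain ⟨h1, A, A0, h2⟩ := h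
  refine ⟨h1.congr e, A, A0, ?_⟩
  filter_upwards [h2, td1.eventually e, td2.eventually e] with p a b c
  rwa [b, c]

theorem L0.bd (h : L0 α l x f) : ∃ A ≥ (0 : ℝ), ∀ᶠ p in l ×ˢ 𝓝 x, ‖f p.1 p.2‖ ≤ A :=
  let ⟨A, A0, h2⟩ := h.2; ⟨A, A0, (td0.eventually h2).mono fun _ a => a.1⟩

theorem L0.add (hf : L0 α l x f) (hg : L0 α l x g) : L0 α l x fun i y => f i y + g i y := by
  obtain ⟨h1, A, A0, h2⟩ := hf
  obtain ⟨k1, B, B0, k2⟩ := hg
  refine ⟨(h1.and k1).mono fun _ a => a.1.add a.2, A + B, by positivity, ?_⟩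
  filter_upwards [h2, k2] with p a b
  refine ⟨norm_add_le_of_le a.1 b.1, ?_⟩
  rw [add_sub_add_comm, add_mul]
  exact norm_add_le_of_le a.2 b.2

theorem L0.bil (b : V →L[ℝ] V' →L[ℝ] W) {g : ι → X → V'} (hf : L0 α l x f) (hg : L0 α l x g) :
    L0 α l x fun i y => b (f i y) (g i y) := by
  obtain ⟨h1, A, A0, h2⟩ := hf
  obtain ⟨k1, B, B0, k2⟩ := hg
  refine ⟨(h1.and k1).mono fun _ a => (b.contDiff.contDiffAt.comp _ a.1).clm_apply a.2,
    2 * (‖b‖ * A * B), by positivity, ?_⟩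
  filter_upwards [h2, k2, td3.eventually k2] with p a c d
  have h0 : 0 ≤ ‖b‖ * A * B := by positivity
  refine ⟨(b.le_opNorm₂ _ _).trans (le_trans (b := ‖b‖ * A * B) (by gcongr; exacts [a.1, c.1])
    (by linarith)), ?_⟩
  have e : b (f p.1 p.2.1) (g p.1 p.2.1) - b (f p.1 p.2.2) (g p.1 p.2.2) =
      b (f p.1 p.2.1) (g p.1 p.2.1 - g p.1 p.2.2) + b (f p.1 p.2.1 - f p.1 p.2.2) (g p.1 p.2.2) := by
    simp only [map_sub, sub_apply]; abel
  rw [e]
  refine (norm_add_le_of_le (b.le_opNorm₂ _ _) (b.le_opNorm₂ _ _)).trans ?_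
  have a1 : ‖b‖ * ‖f p.1 p.2.1‖ * ‖g p.1 p.2.1 - g p.1 p.2.2‖ ≤
      ‖b‖ * A * (B * ‖p.2.1 - p.2.2‖ ^ α) := by gcongr; exacts [a.1, c.2]
  have a2 : ‖b‖ * ‖f p.1 p.2.1 - f p.1 p.2.2‖ * ‖g p.1 p.2.2‖ ≤
      ‖b‖ * (A * ‖p.2.1 - p.2.2‖ ^ α) * B := by gcongr; exacts [a.2, d.1]
  linarith

theorem l0_const {c : ι → V} {A : ℝ} (h : ∀ᶠ i in l, ‖c i‖ ≤ A) : L0 α l x fun i _ => c i :=
  ⟨.of_forall fun _ => contDiffAt_const, |A|, abs_nonneg _, (tendsto_fst.eventually h).mono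
    fun p a => ⟨a.trans (le_abs_self _), by rw [sub_self, norm_zero]; positivity⟩⟩

theorem L0.lin (T : V →L[ℝ] W) (hf : L0 α l x f) : L0 α l x fun i y => T (f i y) := by
  simpa using (l0_const (c := fun _ => T) (.of_forall fun _ => le_rfl)).bil
    (ContinuousLinearMap.id ℝ (V →L[ℝ] W)) hf

theorem L0.of_bd (h1 : α ≤ 1) (hf : SM l x f) {A B : ℝ}
    (hA : ∀ᶠ p in l ×ˢ 𝓝 x, ‖f p.1 p.2‖ ≤ A) (hB : ∀ᶠ p in l ×ˢ 𝓝 x, ‖fderiv ℝ (f p.1) p.2‖ ≤ B) :
    L0 α l x f := by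
  obtain ⟨r, r0, hr⟩ := ev_ball (P := fun i y => DifferentiableAt ℝ (f i) y ∧ ‖f i y‖ ≤ A ∧
    ‖fderiv ℝ (f i) y‖ ≤ B) (hf.diff.and (hA.and hB))
  refine ⟨hf, |A| + |B|, by positivity, ev_of_ball2 (P := fun i y z => ‖f i y‖ ≤ |A| + |B| ∧
    ‖f i y - f i z‖ ≤ (|A| + |B|) * ‖y - z‖ ^ α) (ball_mem_nhds x (lt_min r0 one_half_pos))
    (hr.mono fun i hi y hy z hz => ?_)⟩
  have s := ball_subset_ball (x := x) (min_le_left r (1 / 2))
  refine ⟨by linarith [(hi y (s hy)).2.1, le_abs_self A, abs_nonneg B], ?_⟩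
  refine ((convex_ball x r).norm_image_sub_le_of_norm_fderiv_le (fun z hz => (hi z hz).1)
    (fun z hz => (hi z hz).2.2) (s hz) (s hy)).trans (mul_le_mul (by
      linarith [le_abs_self B, abs_nonneg A]) (Real.self_le_rpow_of_le_one (norm_nonneg _) ?_ h1)
      (norm_nonneg _) (by positivity))
  rw [← dist_eq_norm]
  linarith [dist_triangle_right y z x, mem_ball.1 hy, mem_ball.1 hz, min_le_right r (1 / 2)]

theorem LH.l0 : ∀ {k : ℕ}, LH α l x k f → L0 α l x f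
  | 0, h => h
  | _ + 1, h => h.1

theorem LH.sm (h : LH α l x k f) : SM l x f := h.l0.1

theorem LH.pred (h : LH α l x (k + 1) f) : LH α l x k f := by
  induction k generalizing V with
  | zero => exact h.1
  | succ k ih => exact ⟨h.1, ih h.2⟩

theorem LH.mono {m : ℕ} (h : LH α l x k f) (hk : m ≤ k) : LH α l x m f := by
  induction k, hk using Nat.le_induction with
  | base => exact h
  | succ k _ ih => exact ih h.pred

theorem LH.congr (h : LH α l x k f) (e : ∀ᶠ p in l ×ˢ 𝓝 x, g p.1 p.2 = f p.1 p.2) :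
    LH α l x k g := by
  induction k generalizing V with
  | zero => exact L0.congr h e
  | succ k ih =>
    exact ⟨h.1.congr e, ih h.2 ((ev_nh (P := fun i y => g i y = f i y) e).mono fun _ a =>
      EventuallyEq.fderiv_eq a)⟩

theorem lh_const {c : ι → V} {A : ℝ} (h : ∀ᶠ i in l, ‖c i‖ ≤ A) :
    LH α l x k fun i _ => c i := by
  induction k generalizing V A with
  | zero => exact l0_const h
  | succ k ih =>
    exact ⟨l0_const h, (ih (c := fun _ => 0) (.of_forall fun _ => le_rfl)).congr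
      (.of_forall fun _ => by simp)⟩

theorem LH.add (hf : LH α l x k f) (hg : LH α l x k g) : LH α l x k fun i y => f i y + g i y := by
  induction k generalizing V with
  | zero => exact L0.add hf hg
  | succ k ih =>
    exact ⟨hf.1.add hg.1, (ih hf.2 hg.2).congr ((hf.sm.diff.and hg.sm.diff).mono fun _ a =>
      fderiv_fun_add a.1 a.2)⟩

theorem LH.bil (b : V →L[ℝ] V' →L[ℝ] W) {g : ι → X → V'} (hf : LH α l x k f)
    (hg : LH α l x k g) : LH α l x k fun i y => b (f i y) (g i y) := by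
  induction k generalizing V V' W with
  | zero => exact L0.bil b hf hg
  | succ k ih =>
    exact ⟨hf.1.bil b hg.1, ((ih (b.precompR X) hf.pred hg.2).add
      (ih (b.precompL X) hf.2 hg.pred)).congr ((hf.sm.diff.and hg.sm.diff).mono fun _ a =>
        b.fderiv_of_bilinear a.1 a.2)⟩

theorem LH.app {F : ι → X → V →L[ℝ] W} (hF : LH α l x k F) (hf : LH α l x k f) :
    LH α l x k fun i y => F i y (f i y) := by
  simpa using hF.bil (ContinuousLinearMap.id ℝ (V →L[ℝ] W)) hf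

theorem LH.lin (T : V →L[ℝ] W) (hf : LH α l x k f) : LH α l x k fun i y => T (f i y) :=
  (lh_const (c := fun _ => T) (.of_forall fun _ => le_rfl)).app hf

theorem LH.smul {φ : ι → X → ℝ} (hφ : LH α l x k φ) (hf : LH α l x k f) :
    LH α l x k fun i y => φ i y • f i y := hφ.bil (ContinuousLinearMap.lsmul ℝ ℝ) hf

theorem LH.mul {φ ψ : ι → X → ℝ} (hφ : LH α l x k φ) (hψ : LH α l x k ψ) :
    LH α l x k fun i y => φ i y * ψ i y := hφ.smul hψ

theorem LH.neg (hf : LH α l x k f) : LH α l x k fun i y => -f i y := by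
  simpa using hf.lin (-ContinuousLinearMap.id ℝ V)

theorem LH.sub (hf : LH α l x k f) (hg : LH α l x k g) : LH α l x k fun i y => f i y - g i y := by
  simpa only [sub_eq_add_neg] using hf.add hg.neg

theorem LH.prodMk {g : ι → X → V'} (hf : LH α l x k f) (hg : LH α l x k g) :
    LH α l x k fun i y => (f i y, g i y) := by
  simpa using (hf.lin (ContinuousLinearMap.inl ℝ V V')).add (hg.lin (ContinuousLinearMap.inr ℝ V V'))

theorem lh_sum {κ : Type} (s : Finset κ) {F : κ → ι → X → V} (h : ∀ j, LH α l x k (F j)) :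
    LH α l x k fun i y => ∑ j ∈ s, F j i y := by
  classical
  induction s using Finset.induction_on with
  | empty => simpa using lh_const (c := fun _ => (0 : V)) (.of_forall fun _ => le_rfl)
  | insert a s ha ih => simpa only [Finset.sum_insert ha] using (h a).add ih

theorem UB.fderiv (h : UB l x f) : UB l x fun i => fderiv ℝ (f i) :=
  ⟨h.1.fderiv, fun m => by simpa only [norm_iteratedFDeriv_fderiv] using h.2 (m + 1)⟩

theorem UB.lh (h1 : α ≤ 1) (h : UB l x f) (k : ℕ) : LH α l x k f := by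
  have key : ∀ {V : Type} [NormedAddCommGroup V] [NormedSpace ℝ V] {f : ι → X → V},
      UB l x f → L0 α l x f := fun h => by
    obtain ⟨A, hA⟩ := h.2 0
    obtain ⟨B, hB⟩ := h.fderiv.2 0
    simp only [norm_iteratedFDeriv_zero] at hA hB
    exact L0.of_bd h1 h.1 hA hB
  induction k generalizing V with
  | zero => exact key h
  | succ k ih => exact ⟨key h, ih h.fderiv⟩

theorem LH.bd (h : LH α l x k f) : ∃ A, ∀ᶠ p in l ×ˢ 𝓝 x, ‖iteratedFDeriv ℝ k (f p.1) p.2‖ ≤ A := by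
  induction k generalizing V with
  | zero =>
    obtain ⟨A, -, hA⟩ := L0.bd h
    exact ⟨A, by simpa only [norm_iteratedFDeriv_zero] using hA⟩
  | succ k ih => simpa only [norm_iteratedFDeriv_fderiv] using ih h.2

theorem ub_of_lh (h : ∀ k, LH α l x k f) : UB l x f := ⟨(h 0).sm, fun k => (h k).bd⟩

theorem UB.l1 (h : UB l x f) (k : ℕ) : LH 1 l x k f := h.lh le_rfl k

theorem LH.comp {a : ι → Y → V} {J : ι → X → Y} {y : Y} (ha : UB l y a) (hJ : LH α l x k J)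
    (ht : Tendsto (fun p : ι × X => J p.1 p.2) (l ×ˢ 𝓝 x) (𝓝 y)) :
    LH α l x k fun i z => a i (J i z) := by
  have t1 : Tendsto (fun p : ι × X => (p.1, J p.1 p.2)) (l ×ˢ 𝓝 x) (l ×ˢ 𝓝 y) :=
    tendsto_fst.prodMk ht
  have key : ∀ {V : Type} [NormedAddCommGroup V] [NormedSpace ℝ V] {a : ι → Y → V},
      UB l y a → L0 α l x fun i z => a i (J i z) := fun {V} _ _ {a} ha => by
    obtain ⟨h1, A, A0, h2⟩ := ha.l1 0
    obtain ⟨k1, B, B0, k2⟩ := hJ.l0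
    refine ⟨((t1.eventually h1).and k1).mono fun p a => a.1.comp p.2 a.2, A + A * B,
      by positivity, ?_⟩
    filter_upwards [k2, (tendsto_fst.prodMk ((ht.comp td1).prodMk (ht.comp td2))).eventually h2]
      with p c d
    refine ⟨d.1.trans (le_add_of_nonneg_right (by positivity)), d.2.trans ?_⟩
    have : 0 ≤ ‖p.2.1 - p.2.2‖ ^ α := by positivity
    simp only [Real.rpow_one, Function.comp_apply]
    nlinarith [mul_le_mul_of_nonneg_left c.2 A0, mul_nonneg A0 this]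
  induction k generalizing V with
  | zero => exact key ha
  | succ k ih =>
    exact ⟨key ha, ((ih ha.fderiv hJ.pred).bil (ContinuousLinearMap.compL ℝ X Y V) hJ.2).congr
      (((t1.eventually ha.1.diff).and hJ.sm.diff).mono fun p a => fderiv_fun_comp p.2 a.1 a.2)⟩

theorem ub_smooth {F : X → V} (h : ∀ᶠ y in 𝓝 x, ContDiffAt ℝ ∞ F y) : UB l x fun _ => F :=
  ⟨tendsto_snd.eventually h, fun m => ⟨‖iteratedFDeriv ℝ m F x‖ + 1, tendsto_snd.eventually
    (((h.self_of_nhds.continuousAt_iteratedFDeriv (k := m) (by exact_mod_cast le_top)).norm.eventually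
      (gt_mem_nhds (lt_add_one _))).mono fun _ a => a.le)⟩⟩

theorem ub_const {c : ι → V} {A : ℝ} (h : ∀ᶠ i in l, ‖c i‖ ≤ A) : UB l x fun i _ => c i :=
  ub_of_lh (α := 1) fun _ => lh_const h

theorem UB.congr (h : UB l x f) (e : ∀ᶠ p in l ×ˢ 𝓝 x, g p.1 p.2 = f p.1 p.2) : UB l x g :=
  ub_of_lh fun k => (h.l1 k).congr e

theorem UB.add (hf : UB l x f) (hg : UB l x g) : UB l x fun i y => f i y + g i y :=
  ub_of_lh fun k => (hf.l1 k).add (hg.l1 k)

theorem UB.sub (hf : UB l x f) (hg : UB l x g) : UB l x fun i y => f i y - g i y :=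
  ub_of_lh fun k => (hf.l1 k).sub (hg.l1 k)

theorem UB.neg (hf : UB l x f) : UB l x fun i y => -f i y := ub_of_lh fun k => (hf.l1 k).neg

theorem UB.bil (b : V →L[ℝ] V' →L[ℝ] W) {g : ι → X → V'} (hf : UB l x f) (hg : UB l x g) :
    UB l x fun i y => b (f i y) (g i y) := ub_of_lh fun k => (hf.l1 k).bil b (hg.l1 k)

theorem UB.lin (T : V →L[ℝ] W) (hf : UB l x f) : UB l x fun i y => T (f i y) :=
  ub_of_lh fun k => (hf.l1 k).lin T

theorem UB.smul {φ : ι → X → ℝ} (hφ : UB l x φ) (hf : UB l x f) :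
    UB l x fun i y => φ i y • f i y := ub_of_lh fun k => (hφ.l1 k).smul (hf.l1 k)

theorem UB.mul {φ ψ : ι → X → ℝ} (hφ : UB l x φ) (hψ : UB l x ψ) :
    UB l x fun i y => φ i y * ψ i y := hφ.smul hψ

theorem UB.prodMk {g : ι → X → V'} (hf : UB l x f) (hg : UB l x g) :
    UB l x fun i y => (f i y, g i y) := ub_of_lh fun k => (hf.l1 k).prodMk (hg.l1 k)

theorem UB.comp {a : ι → Y → V} {J : ι → X → Y} {y : Y} (ha : UB l y a) (hJ : UB l x J)
    (ht : Tendsto (fun p : ι × X => J p.1 p.2) (l ×ˢ 𝓝 x) (𝓝 y)) :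
    UB l x fun i z => a i (J i z) := ub_of_lh fun k => LH.comp ha (hJ.l1 k) ht

theorem unif_fderiv (h : UB l x f) {s : Set X} (hs : s ∈ 𝓝 x) (hu : TendstoUniformlyOn f 0 l s) :
    ∃ s ∈ 𝓝 x, TendstoUniformlyOn (fun i => fderiv ℝ (f i)) 0 l s := by
  obtain ⟨-, A, A0, hA⟩ := h.fderiv.l1 0
  obtain ⟨r₁, r1, h1⟩ := ev_ball2 (P := fun i y z => ‖fderiv ℝ (f i) y - fderiv ℝ (f i) z‖ ≤
    A * ‖y - z‖ ^ (1 : ℝ)) (hA.mono fun _ a => a.2)
  obtain ⟨r₂, r2, h2⟩ := ev_ball (P := fun i y => DifferentiableAt ℝ (f i) y ∧ y ∈ s)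
    (h.1.diff.and (tendsto_snd.eventually hs))
  obtain ⟨r, r0, r3, r4⟩ : ∃ r > (0 : ℝ), 2 * r ≤ r₁ ∧ 2 * r ≤ r₂ := ⟨min r₁ r₂ / 2, by positivity,
    by linarith [min_le_left r₁ r₂], by linarith [min_le_right r₁ r₂]⟩
  refine ⟨ball x r, ball_mem_nhds x r0, Metric.tendstoUniformlyOn_iff.2 fun ε ε0 => ?_⟩
  obtain ⟨t, t0, t1, t2⟩ : ∃ t > (0 : ℝ), t ≤ r ∧ A * t ≤ ε / 4 := by
    refine ⟨min r (ε / 4 / (A + 1)), by positivity, min_le_left _ _, ?_⟩
    have := (le_div_iff₀ (by positivity)).1 (min_le_right r (ε / 4 / (A + 1)))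
    nlinarith [lt_min r0 (show 0 < ε / 4 / (A + 1) by positivity)]
  filter_upwards [h1, h2, Metric.tendstoUniformlyOn_iff.1 hu (ε * t / 8) (by positivity)]
    with i a b c y hy
  have s1 : closedBall y t ⊆ ball x (2 * r) := closedBall_subset_ball' (by linarith [mem_ball.1 hy])
  have y0 := mem_closedBall_self (x := y) t0.le
  rw [Pi.zero_apply, dist_zero_left]
  refine (ContinuousLinearMap.opNorm_le_of_unit_norm (C := ε / 2) (by positivity)
    fun v hv => ?_).trans_lt (by linarith)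
  have y1 : y + t • v ∈ closedBall y t := by simp [norm_smul, hv, abs_of_pos t0]
  have a1 := (convex_closedBall y t).norm_image_sub_le_of_norm_fderiv_le' (C := A * t)
    (φ := fderiv ℝ (f i) y) (fun z hz => (b z (ball_subset_ball r4 (s1 hz))).1)
    (fun z hz => (a z (ball_subset_ball r3 (s1 hz)) y (ball_subset_ball r3 (s1 y0))).trans (by
      rw [Real.rpow_one]; gcongr; exact mem_closedBall_iff_norm.1 hz)) y0 y1
  have a2 := c _ (b _ (ball_subset_ball r4 (s1 y0))).2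
  have a3 := c _ (b _ (ball_subset_ball r4 (s1 y1))).2
  rw [Pi.zero_apply, dist_zero_left] at a2 a3
  rw [add_sub_cancel_left, map_smul, norm_smul, hv, Real.norm_of_nonneg t0.le] at a1
  have a4 := norm_sub_le (f i (y + t • v) - f i y) (f i (y + t • v) - f i y - t • fderiv ℝ (f i) y v)
  rw [sub_sub_cancel, norm_smul, Real.norm_of_nonneg t0.le] at a4
  refine le_of_mul_le_mul_left ?_ t0
  nlinarith [norm_sub_le (f i (y + t • v)) (f i y), mul_le_mul_of_nonneg_right t2 t0.le]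

/-- uniform convergence and uniform bounds give the convergence of all derivatives -/
theorem UB.cvg (h : UB l x f) {f₀ : X → V} (h₀ : ∀ᶠ y in 𝓝 x, ContDiffAt ℝ ∞ f₀ y) {s : Set X}
    (hs : s ∈ 𝓝 x) (hu : TendstoUniformlyOn f f₀ l s) (j : ℕ) :
    Tendsto (fun p : ι × X => iteratedFDeriv ℝ j (f p.1) p.2) (l ×ˢ 𝓝 x)
      (𝓝 (iteratedFDeriv ℝ j f₀ x)) := by
  have key : ∀ (j : ℕ) {V : Type} [NormedAddCommGroup V] [NormedSpace ℝ V] {f : ι → X → V},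
      UB l x f → (∃ s ∈ 𝓝 x, TendstoUniformlyOn f 0 l s) →
      Tendsto (fun p : ι × X => ‖iteratedFDeriv ℝ j (f p.1) p.2‖) (l ×ˢ 𝓝 x) (𝓝 0) := by
    intro j
    induction j with
    | zero =>
      intro V _ _ f _ ⟨s, hs, hu⟩
      simp only [norm_iteratedFDeriv_zero]
      refine Metric.tendsto_nhds.2 fun ε ε0 => ev_of_ball (P := fun i y => dist ‖f i y‖ 0 < ε) hs
        ((Metric.tendstoUniformlyOn_iff.1 hu ε ε0).mono fun i hi y hy => ?_)
      simpa using hi y hy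
    | succ j ih =>
      intro V _ _ f h ⟨s, hs, hu⟩
      simpa only [norm_iteratedFDeriv_fderiv] using ih h.fderiv (unif_fderiv h hs hu)
  have h1 := tendsto_zero_iff_norm_tendsto_zero.2 (key j (h.sub (ub_smooth h₀)) ⟨s, hs,
    Metric.tendstoUniformlyOn_iff.2 fun ε ε0 => (Metric.tendstoUniformlyOn_iff.1 hu ε ε0).mono
      fun i hi y hy => by simpa [dist_eq_norm, norm_sub_rev] using hi y hy⟩)
  have h2 := h1.add ((h₀.self_of_nhds.continuousAt_iteratedFDeriv (k := j)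
    (by exact_mod_cast le_top)).tendsto.comp tendsto_snd)
  rw [zero_add] at h2
  refine h2.congr' ((h.1.and (tendsto_snd.eventually h₀)).mono fun p a => ?_)
  rw [Function.comp_apply, fun_iteratedFDeriv_sub_apply (a.1.of_le (by exact_mod_cast le_top))
    (a.2.of_le (by exact_mod_cast le_top)), sub_add_cancel]

end Vale.Agent.P366W
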