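import Vale.Agent.P366W.Cap
import Vale.Agent.P366W.Ub
import Vale.Agent.P366P.Prod
import Vale.Agent.P366P.Jac

/-!
# P366W: the graph of a function over a Riemannian chart as a surface
-/

open MeasureTheory Metric Filter Topology Set
open scoped ContDiff ENNReal RealInnerProductSpace
open Vale.Agent.P366.Stmt Vale.Agent.P366Z
open Vale.Agent.P366D (snc ini)
open Vale.Agent.P366P
open Vale.Agent.P366Y.C (ww)
open Fin (castSucc last)

noncomputable section

namespace Vale.Agent.P366W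

variable {k : ℕ} {G : Field k} {φ u : E k → ℝ}

/-- the vertical unit vector -/
def el (k : ℕ) : E (k + 1) := EuclideanSpace.single (last k) 1

/-- the horizontal hyperplane -/
def Lz (k : ℕ) : E k →ₗᵢ[ℝ] E (k + 1) where
  toFun y := snc y 0
  map_add' y z := by
    ext i
    refine Fin.lastCases ?_ (fun j => ?_) i <;> simp [snc]
  map_smul' c y := by
    ext i
    refine Fin.lastCases ?_ (fun j => ?_) i <;> simp [snc]
  norm_map' y := by simp [EuclideanSpace.norm_eq, Fin.sum_univ_castSucc, snc]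

/-- the inverse metric as a linear map -/
def B0 (G : Field k) (x : E k) : E k →L[ℝ] E k := ∑ i, ∑ j, up G i j x •
  (EuclideanSpace.proj j : E k →L[ℝ] ℝ).smulRight (EuclideanSpace.single i 1)

/-- the inverse of the product metric -/
def B1 (G : Field k) (x : E (k + 1)) : E (k + 1) →L[ℝ] E (k + 1) :=
  (Lz k).toContinuousLinearMap ∘L B0 G (ini x) ∘L adj (Lz k) + (innerSL ℝ (el k)).smulRight (el k)

/-- the weighted volume density -/
def a1 (G : Field k) (φ : E k → ℝ) (x : E (k + 1)) : ℝ := Real.exp (φ (ini x)) * dens G (ini x)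

/-- the graph of `u` in the product with a line -/
def cs (G : Field k) (φ u : E k → ℝ) : Surf (k + 1) := gsurf (el k) (Lz k) u (B1 G) (a1 G φ)

theorem Lz_cs (y : E k) (i : Fin k) : Lz k y i.castSucc = y i := by
  change snc y 0 i.castSucc = _; simp [snc]

theorem Lz_last (y : E k) : Lz k y (last k) = 0 := snc_last y 0

theorem el_cs (i : Fin k) : el k i.castSucc = 0 := by simp [el, (Fin.castSucc_lt_last i).ne]

theorem el_last : el k (last k) = 1 := by simp [el]

theorem inner_el (x : E (k + 1)) : ⟪el k, x⟫ = x (last k) := by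
  simp [el, EuclideanSpace.inner_single_left]

theorem Lz_add (y : E k) (s : ℝ) : Lz k y + s • el k = snc y s := by
  ext i
  refine Fin.lastCases ?_ (fun j => ?_) i <;> simp [Lz_cs, Lz_last, el_cs, el_last, snc]

theorem fr_el (k : ℕ) : Fr (el k) (Lz k) := ⟨by simp [el], fun y => by rw [inner_el, Lz_last]⟩

theorem adj_Lz (x : E (k + 1)) : adj (Lz k) x = ini x := by
  conv_lhs => rw [← snc_ini x, ← Lz_add, (fr_el k).adj_pt]

theorem B0_apply (G : Field k) (x v : E k) (i : Fin k) : B0 G x v i = ∑ j, up G i j x * v j := by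
  simp [B0, Pi.single_apply]

theorem inner_B0 (G : Field k) (x v w : E k) :
    ⟪v, B0 G x w⟫ = ∑ i, ∑ j, up G i j x * v i * w j := by
  simp only [inner_eq_sum, B0_apply, Finset.mul_sum]
  exact Finset.sum_congr rfl fun i _ => Finset.sum_congr rfl fun j _ => by ring

theorem B1_apply (G : Field k) (x v : E (k + 1)) :
    B1 G x v = Lz k (B0 G (ini x) (ini v)) + v (last k) • el k := by
  simp [B1, adj_Lz, inner_el]

theorem inner_B1 (G : Field k) (x v w : E (k + 1)) :
    ⟪v, B1 G x w⟫ = ⟪ini v, B0 G (ini x) (ini w)⟫ + v (last k) * w (last k) := by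
  rw [B1_apply, inner_add_right, real_inner_comm, ← inner_adj, adj_Lz, real_inner_comm,
    real_inner_smul_right, real_inner_comm (el k), inner_el, mul_comm]

theorem sm_B0 (hG : Met G) : ContDiff ℝ ∞ (B0 G) :=
  ContDiff.sum fun i _ => ContDiff.sum fun j _ => (hG.sm_up i j).smul contDiff_const

theorem sm_B1 (hG : Met G) : ContDiff ℝ ∞ (B1 G) :=
  (contDiff_const.clm_comp (((sm_B0 hG).comp sm_ini).clm_comp contDiff_const)).add contDiff_const

theorem sm_a1 (hG : Met G) (hφ : Smooth φ) : ContDiff ℝ ∞ (a1 G φ) :=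
  (hφ.comp sm_ini).exp.mul (hG.sm_dens.comp sm_ini)

theorem a1_pos (hG : Met G) (φ : E k → ℝ) (x : E (k + 1)) : 0 < a1 G φ x :=
  mul_pos (Real.exp_pos _) (hG.dens_pos _)

theorem B0_sym (hG : Met G) (x v w : E k) : ⟪B0 G x v, w⟫ = ⟪v, B0 G x w⟫ := by
  rw [real_inner_comm, inner_B0, inner_B0, Finset.sum_comm]
  exact Finset.sum_congr rfl fun i _ => Finset.sum_congr rfl fun j _ => by rw [hG.up_sy]; ring

theorem B0_pos (hG : Met G) (x : E k) {v : E k} (hv : v ≠ 0) : 0 < ⟪v, B0 G x v⟫ := by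
  rw [inner_B0]
  exact hG.up_pos x fun h => hv (by ext i; exact congrFun h i)

theorem B0_nonneg (hG : Met G) (x v : E k) : 0 ≤ ⟪v, B0 G x v⟫ := by
  rw [inner_B0]; exact hG.up_nonneg x _

theorem B1_sym (hG : Met G) (x v w : E (k + 1)) : ⟪B1 G x v, w⟫ = ⟪v, B1 G x w⟫ := by
  rw [real_inner_comm, inner_B1, inner_B1, ← B0_sym hG, real_inner_comm, mul_comm]

theorem B1_pos (hG : Met G) (x v : E (k + 1)) (hv : v ≠ 0) : 0 < ⟪v, B1 G x v⟫ := by
  rw [inner_B1]
  by_cases h : ini v = 0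
  · have : v (last k) ≠ 0 := fun h1 => hv (by
      rw [← snc_ini v, h, h1, ← Lz_add, map_zero, zero_smul, add_zero])
    have := mul_self_pos.2 this
    linarith [B0_nonneg hG (ini x) (ini v)]
  · linarith [B0_pos hG (ini x) h, mul_self_nonneg (v (last k))]

theorem cs_ok (hG : Met G) (hφ : Smooth φ) (hu : Smooth u) : (cs G φ u).Ok :=
  cap k _ _ u _ _ (fr_el k) hu (sm_B1 hG) (sm_a1 hG hφ) (B1_sym hG) (B1_pos hG) (a1_pos hG φ)

theorem cs_B : (cs G φ u).B = B1 G := rfl

theorem cs_a : (cs G φ u).a = a1 G φ := rfl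

theorem cs_Φ (x : E (k + 1)) : (cs G φ u).Φ x = x (last k) - u (ini x) := by
  rw [← inner_el, ← adj_Lz]; rfl

theorem grad_apply {f : E k → ℝ} {x : E k} (hf : DifferentiableAt ℝ f x) (i : Fin k) :
    gradient f x i = pd i f x := by
  rw [pd_eq hf, ← inner_grad, EuclideanSpace.inner_single_right]; simp

theorem cs_grad (hu : Smooth u) (x : E (k + 1)) :
    gradient (cs G φ u).Φ x = el k - Lz k (gradient u (ini x)) := by
  rw [← adj_Lz]; exact gradient_gsurf _ _ (hu.diff _)

theorem ini_sub (q : E k) : ini (el k - Lz k q) = -q := by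
  rw [← adj_Lz, map_sub, (fr_el k).adj_e, adj_L, zero_sub]

theorem last_sub (q : E k) : (el k - Lz k q) (last k) = 1 := by simp [el_last, Lz_last]

theorem cs_W (hu : Smooth u) (x : E (k + 1)) : (cs G φ u).W x = ww G 1 u (ini x) := by
  rw [Surf.W, cs_grad hu, cs_B, inner_B1, ini_sub, last_sub, map_neg, inner_neg_neg, inner_B0, ww]
  simp only [grad_apply (hu.diff _), ip, Pi.one_apply, one_pow, one_mul, mul_one, add_comm]

theorem cs_n (hu : Smooth u) (x : E (k + 1)) :
    (cs G φ u).n x = (ww G 1 u (ini x))⁻¹ • (el k - Lz k (gradient u (ini x))) := by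
  rw [Surf.n, cs_W hu, cs_grad hu]

theorem cs_n_last (hu : Smooth u) (x : E (k + 1)) :
    (cs G φ u).n x (last k) = (ww G 1 u (ini x))⁻¹ := by
  rw [cs_n hu, PiLp.smul_apply, last_sub, smul_eq_mul, mul_one]

theorem cs_ν_cs (hu : Smooth u) (x : E (k + 1)) (i : Fin k) :
    (cs G φ u).ν x i.castSucc = -nv G u i (ini x) := by
  rw [Surf.ν, cs_n hu, map_smul, cs_B, B1_apply, ini_sub, last_sub]
  simp [Lz_cs, el_cs, B0_apply, grad_apply (hu.diff _), nv, gr, div_eq_inv_mul]

theorem cs_ν_last (hu : Smooth u) (x : E (k + 1)) :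
    (cs G φ u).ν x (last k) = (ww G 1 u (ini x))⁻¹ := by
  rw [Surf.ν, cs_n hu, map_smul, cs_B, B1_apply, ini_sub, last_sub]
  simp [Lz_last, el_last]

theorem dvg_pd {N : ℕ} {Y : E N → E N} {x : E N} (hY : DifferentiableAt ℝ Y x) :
    dvg Y x = ∑ i, pd i (fun y => Y y i) x := Finset.sum_congr rfl fun i _ => by
  have := ((EuclideanSpace.proj i : E N →L[ℝ] ℝ).hasFDerivAt.comp x hY.hasFDerivAt)
  exact (pd_of_hasFDerivAt this i).symm

theorem cs_H (hG : Met G) (hφ : Smooth φ) (hu : Smooth u) (x : E (k + 1)) :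
    (cs G φ u).H x = -hw G φ u (ini x) := by
  have hS := cs_ok hG hφ hu
  have h1 := dvw_eq hG (fun i => (sm_nv hG hu i).diff (ini x)) (hφ.diff (ini x))
  have h2 := hG.dens_pos (ini x)
  rw [Surf.H, dvg_pd ((hS.da x).fun_smul (hS.dν x)), Fin.sum_univ_castSucc]
  simp only [PiLp.smul_apply, cs_ν_cs hu, cs_ν_last hu, cs_a, a1, smul_eq_mul]
  rw [pd_la (fun y => Real.exp (φ y) * dens G y * (ww G 1 u y)⁻¹)]
  simp only [fun i j => pd_cs (fun y => Real.exp (φ y) * dens G y * -nv G u i y) j x]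
  rw [dv, div_eq_iff h2.ne'] at h1
  rw [add_zero, div_eq_iff (by positivity), hw, neg_mul, mul_comm, mul_right_comm, ← h1,
    ← Finset.sum_neg_distrib]
  refine Finset.sum_congr rfl fun i _ => ?_
  rw [← neg_one_mul, ← pd_const_mul]
  congr 1; funext y; ring

theorem cs_dν (hG : Met G) (hu : Smooth u) {h : E k → ℝ} {x : E (k + 1)}
    (hh : DifferentiableAt ℝ h (ini x)) :
    fderiv ℝ (fun y => h (ini y)) x ((cs G φ u).ν x) = -dn G u h (ini x) := by
  have h1 : DifferentiableAt ℝ (fun y => h (ini y)) x :=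
    hh.comp x (sm_ini.differentiable (by simp) x)
  rw [map_eq_sum, Fin.sum_univ_castSucc, dn_eq hG, ← Finset.sum_neg_distrib]
  simp only [← pd_eq h1, pd_la, pd_cs, cs_ν_cs hu, smul_eq_mul, mul_zero, add_zero]
  exact Finset.sum_congr rfl fun i _ => by ring

end Vale.Agent.P366W
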