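import Vale.Agent.P366W.Defs
import Mathlib.Analysis.InnerProductSpace.Trace

/-!
# P366W: basic facts
-/

open MeasureTheory Metric Filter Topology Set
open scoped ContDiff ENNReal RealInnerProductSpace
open Vale.Agent.P366.Stmt Vale.Agent.P366Y

noncomputable section

namespace Vale.Agent.P366W

variable {N m : ℕ}

/-! ### gradient and divergence -/

theorem contDiff_gradient {k : WithTop ℕ∞} {f : E N → ℝ} (hf : ContDiff ℝ (k + 1) f) :
    ContDiff ℝ k (gradient f) := by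
  have h1 : ContDiff ℝ k (fderiv ℝ f) := hf.fderiv_right le_rfl
  exact (InnerProductSpace.toDual ℝ (E N)).symm.toContinuousLinearEquiv.contDiff.comp h1

theorem smooth_gradient {f : E N → ℝ} (hf : ContDiff ℝ ∞ f) : ContDiff ℝ ∞ (gradient f) :=
  contDiff_gradient (k := ∞) (by simpa using hf)

theorem inner_grad (f : E N → ℝ) (x v : E N) : ⟪gradient f x, v⟫ = fderiv ℝ f x v :=
  inner_gradient_left

theorem norm_gradient (f : E N → ℝ) (x : E N) : ‖gradient f x‖ = ‖fderiv ℝ f x‖ := by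
  simp [gradient]

theorem sum_single (v : E N) : ∑ i, v i • (EuclideanSpace.single i 1 : E N) = v := by
  ext j
  simp [Pi.single_apply]

theorem map_eq_sum {F : Type} [NormedAddCommGroup F] [NormedSpace ℝ F] (M : E N →L[ℝ] F)
    (v : E N) : M v = ∑ i, v i • M (EuclideanSpace.single i 1) := by
  conv_lhs => rw [← sum_single v]
  simp

theorem inner_eq_sum (v w : E N) : ⟪v, w⟫ = ∑ i, v i * w i := by
  simp [PiLp.inner_apply, mul_comm]

/-- the trace of a linear map -/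
def trc (M : E N →L[ℝ] E N) : ℝ := ∑ i, M (EuclideanSpace.single i 1) i

theorem dvg_eq (Y : E N → E N) (x : E N) : dvg Y x = trc (fderiv ℝ Y x) := rfl

theorem trc_add (M M' : E N →L[ℝ] E N) : trc (M + M') = trc M + trc M' := by
  simp [trc, Finset.sum_add_distrib]

theorem trc_sub (M M' : E N →L[ℝ] E N) : trc (M - M') = trc M - trc M' := by
  simp [trc, Finset.sum_sub_distrib]

theorem trc_smul (c : ℝ) (M : E N →L[ℝ] E N) : trc (c • M) = c * trc M := by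
  simp [trc, Finset.mul_sum]

theorem trc_smulRight (l : E N →L[ℝ] ℝ) (v : E N) : trc (l.smulRight v) = l v := by
  rw [map_eq_sum l v]
  simp [trc, mul_comm]

theorem trc_id : trc (ContinuousLinearMap.id ℝ (E N)) = N := by simp [trc]

theorem trc_eq_trace (M : E N →L[ℝ] E N) :
    trc M = LinearMap.trace ℝ (E N) (M : E N →ₗ[ℝ] E N) := by
  rw [LinearMap.trace_eq_sum_inner _ (EuclideanSpace.basisFun (Fin N) ℝ)]
  simp [trc, EuclideanSpace.inner_single_left]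

theorem trc_comm (M M' : E N →L[ℝ] E N) : trc (M ∘L M') = trc (M' ∘L M) := by
  rw [trc_eq_trace, trc_eq_trace]
  exact LinearMap.trace_mul_comm ℝ (M : E N →ₗ[ℝ] E N) (M' : E N →ₗ[ℝ] E N)

theorem abs_trc_le (M : E N →L[ℝ] E N) : |trc M| ≤ N * ‖M‖ := by
  have h : ∀ i : Fin N, |M (EuclideanSpace.single i 1) i| ≤ ‖M‖ := fun i => by
    refine (PiLp.norm_apply_le (M (EuclideanSpace.single i 1)) i).trans ?_
    simpa using M.le_opNorm (EuclideanSpace.single i 1)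
  calc |trc M| ≤ ∑ i : Fin N, |M (EuclideanSpace.single i 1) i| := Finset.abs_sum_le_sum_abs _ _
    _ ≤ ∑ _i : Fin N, ‖M‖ := Finset.sum_le_sum fun i _ => h i
    _ = N * ‖M‖ := by simp

theorem continuous_trc : Continuous (trc : (E N →L[ℝ] E N) → ℝ) := by
  unfold trc; fun_prop

theorem contDiff_trc {k : WithTop ℕ∞} : ContDiff ℝ k (trc : (E N →L[ℝ] E N) → ℝ) := by
  unfold trc
  refine ContDiff.sum fun i _ => ?_
  exact ((EuclideanSpace.proj i : E N →L[ℝ] ℝ) ∘L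
    (ContinuousLinearMap.apply ℝ (E N) (EuclideanSpace.single i 1 : E N))).contDiff

theorem dvg_smul {f : E N → ℝ} {Y : E N → E N} {x : E N} (hf : DifferentiableAt ℝ f x)
    (hY : DifferentiableAt ℝ Y x) :
    dvg (fun y => f y • Y y) x = f x * dvg Y x + fderiv ℝ f x (Y x) := by
  rw [dvg_eq, fderiv_fun_smul hf hY, trc_add, trc_smul, trc_smulRight, dvg_eq]

theorem dvg_add {X Y : E N → E N} {x : E N} (hX : DifferentiableAt ℝ X x)
    (hY : DifferentiableAt ℝ Y x) : dvg (fun y => X y + Y y) x = dvg X x + dvg Y x := by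
  rw [dvg_eq, fderiv_fun_add hX hY, trc_add, dvg_eq, dvg_eq]

theorem dvg_sub {X Y : E N → E N} {x : E N} (hX : DifferentiableAt ℝ X x)
    (hY : DifferentiableAt ℝ Y x) : dvg (fun y => X y - Y y) x = dvg X x - dvg Y x := by
  rw [dvg_eq, fderiv_fun_sub hX hY, trc_sub, dvg_eq, dvg_eq]

theorem contDiff_dvg {k : WithTop ℕ∞} {Y : E N → E N} (hY : ContDiff ℝ (k + 1) Y) :
    ContDiff ℝ k (dvg Y) :=
  contDiff_trc.comp (hY.fderiv_right le_rfl)

theorem continuous_dvg {Y : E N → E N} (hY : ContDiff ℝ 1 Y) : Continuous (dvg Y) :=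
  continuous_trc.comp (hY.continuous_fderiv one_ne_zero)

theorem dvg_eq_zero {Y : E N → E N} {x : E N} (hx : x ∉ tsupport Y) : dvg Y x = 0 := by
  rw [dvg_eq, image_eq_zero_of_notMem_tsupport fun h => hx (tsupport_fderiv_subset ℝ h)]
  simp [trc]

theorem dvg_congr {X Y : E N → E N} {x : E N} (h : X =ᶠ[𝓝 x] Y) : dvg X x = dvg Y x := by
  rw [dvg_eq, dvg_eq, h.fderiv_eq]

theorem hcs_dvg {Y : E N → E N} (hY : HasCompactSupport Y) : HasCompactSupport (dvg Y) :=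
  hY.mono' fun x hx => by
    by_contra h
    exact hx (dvg_eq_zero h)

/-! ### the profile -/

theorem hasDerivAt_pos_pow (k : ℕ) (x : ℝ) :
    HasDerivAt (fun s : ℝ => max s 0 ^ (k + 2)) ((k + 2 : ℝ) * max x 0 ^ (k + 1)) x := by
  rcases lt_trichotomy x 0 with hx | rfl | hx
  · have : (fun s : ℝ => max s 0 ^ (k + 2)) =ᶠ[𝓝 x] fun _ => 0 := by
      filter_upwards [gt_mem_nhds hx] with s hs
      simp [max_eq_right hs.le]
    rw [max_eq_right hx.le]
    simpa using (hasDerivAt_const x (0 : ℝ)).congr_of_eventuallyEq this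
  · rw [hasDerivAt_iff_isLittleO_nhds_zero]
    simp only [max_self, ne_eq, Nat.add_eq_zero_iff, OfNat.ofNat_ne_zero, and_false,
      not_false_eq_true, zero_pow, sub_zero, zero_add, one_ne_zero, mul_zero, smul_eq_mul]
    refine Asymptotics.IsBigO.trans_isLittleO (g := fun s : ℝ => s ^ (k + 2)) ?_
      (Asymptotics.isLittleO_pow_id (by omega))
    refine Asymptotics.IsBigO.of_bound 1 (Eventually.of_forall fun s => ?_)
    rw [one_mul, norm_pow, norm_pow]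
    refine pow_le_pow_left₀ (norm_nonneg _) ?_ _
    rw [Real.norm_eq_abs, Real.norm_eq_abs, abs_of_nonneg (le_max_right _ _)]
    exact max_le (le_abs_self _) (abs_nonneg _)
  · have : (fun s : ℝ => max s 0 ^ (k + 2)) =ᶠ[𝓝 x] fun s => s ^ (k + 2) := by
      filter_upwards [lt_mem_nhds hx] with s hs
      simp [max_eq_left hs.le]
    rw [max_eq_left hx.le]
    simpa using (hasDerivAt_pow (k + 2) x).congr_of_eventuallyEq this

/-- minus the derivative of the profile -/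
def dph (s : ℝ) : ℝ := 3 * max (1 - s) 0 ^ 2

theorem hasDerivAt_ph (s : ℝ) : HasDerivAt ph (-dph s) s := by
  have h := (hasDerivAt_pos_pow 1 (1 - s)).comp s ((hasDerivAt_id s).const_sub 1)
  refine HasDerivAt.congr_deriv h ?_
  simp only [dph]; norm_num

theorem hasDerivAt_dph (s : ℝ) : HasDerivAt dph (-(6 * max (1 - s) 0)) s := by
  have h := ((hasDerivAt_pos_pow 0 (1 - s)).comp s ((hasDerivAt_id s).const_sub 1)).const_mul 3
  refine HasDerivAt.congr_deriv h ?_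
  norm_num; ring

theorem contDiff_dph : ContDiff ℝ 1 dph := by
  rw [contDiff_one_iff_deriv]
  refine ⟨fun s => (hasDerivAt_dph s).differentiableAt, ?_⟩
  have : deriv dph = fun s => -(6 * max (1 - s) 0) := funext fun s => (hasDerivAt_dph s).deriv
  rw [this]; fun_prop

theorem contDiff_ph : ContDiff ℝ 2 ph := by
  rw [show (2 : WithTop ℕ∞) = 1 + 1 from rfl, contDiff_succ_iff_deriv]
  refine ⟨fun s => (hasDerivAt_ph s).differentiableAt, by simp, ?_⟩
  have : deriv ph = fun s => -dph s := funext fun s => (hasDerivAt_ph s).deriv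
  rw [this]; exact contDiff_dph.neg

theorem continuous_ph : Continuous ph := contDiff_ph.continuous

theorem continuous_dph : Continuous dph := contDiff_dph.continuous

theorem ph_nonneg (s : ℝ) : 0 ≤ ph s := by unfold ph; positivity

theorem dph_nonneg (s : ℝ) : 0 ≤ dph s := by unfold dph; positivity

theorem ph_zero {s : ℝ} (hs : 1 ≤ s) : ph s = 0 := by
  simp [ph, max_eq_right (sub_nonpos.2 hs)]

theorem dph_zero {s : ℝ} (hs : 1 ≤ s) : dph s = 0 := by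
  simp [dph, max_eq_right (sub_nonpos.2 hs)]

theorem ph_anti {s t : ℝ} (h : s ≤ t) : ph t ≤ ph s := by
  unfold ph
  exact pow_le_pow_left₀ (le_max_right _ _) (max_le_max (by linarith) le_rfl) _

theorem ph_le_one {s : ℝ} (hs : 0 ≤ s) : ph s ≤ 1 := by
  have := ph_anti hs
  simpa [ph] using this

theorem dph_le {s : ℝ} (hs : 0 ≤ s) : dph s ≤ 3 := by
  unfold dph
  have : max (1 - s) 0 ≤ 1 := max_le (by linarith) zero_le_one
  have h2 : 0 ≤ max (1 - s) 0 := le_max_right _ _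
  nlinarith

theorem ph_of_le {s : ℝ} (hs : s ≤ 1) : ph s = (1 - s) ^ 3 := by
  simp [ph, max_eq_left (sub_nonneg.2 hs)]

theorem dph_of_le {s : ℝ} (hs : s ≤ 1) : dph s = 3 * (1 - s) ^ 2 := by
  simp [dph, max_eq_left (sub_nonneg.2 hs)]

theorem hcs_ph_norm : HasCompactSupport fun y : E m => ph (‖y‖ ^ 2) := by
  refine HasCompactSupport.intro (isCompact_closedBall 0 1) fun y hy => ph_zero ?_
  have : 1 < ‖y‖ := by simpa using hy
  nlinarith

theorem cm_pos (m : ℕ) : 0 < cm m := by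
  have hc : Continuous fun y : E m => ph (‖y‖ ^ 2) := continuous_ph.comp (by fun_prop)
  refine hc.integral_pos_of_hasCompactSupport_nonneg_nonzero (x := 0) hcs_ph_norm
    (fun y => ph_nonneg _) ?_
  simp [ph]

/-! ### the surface -/

namespace Surf

variable {S : Surf N}

theorem Ok.W_pos (h : S.Ok) (x : E N) : 0 < S.W x := Real.sqrt_pos.2 (h.pos x _ (h.reg x))

theorem Ok.W_sq (h : S.Ok) (x : E N) :
    S.W x ^ 2 = ⟪gradient S.Φ x, S.B x (gradient S.Φ x)⟫ := Real.sq_sqrt (h.pos x _ (h.reg x)).le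

theorem Ok.smW (h : S.Ok) : ContDiff ℝ ∞ S.W := by
  have hg := smooth_gradient h.smΦ
  exact ContDiff.sqrt (hg.inner ℝ (h.smB.clm_apply hg)) fun x => (h.pos x _ (h.reg x)).ne'

theorem Ok.smn (h : S.Ok) : ContDiff ℝ ∞ S.n :=
  (h.smW.inv fun x => (h.W_pos x).ne').smul (smooth_gradient h.smΦ)

theorem Ok.smν (h : S.Ok) : ContDiff ℝ ∞ S.ν := h.smB.clm_apply h.smn

theorem Ok.smH (h : S.Ok) : ContDiff ℝ ∞ S.H :=
  (contDiff_dvg (k := ∞) (by exact h.sma.smul h.smν)).div h.sma fun x => (h.a0 x).ne'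

theorem Ok.nν (h : S.Ok) (x : E N) : ⟪S.n x, S.ν x⟫ = 1 := by
  have h1 := h.W_sq x
  have h2 := h.W_pos x
  simp only [ν, n, map_smul, inner_smul_left, inner_smul_right, ← h1, conj_trivial]
  field_simp

theorem Ok.grad_eq (h : S.Ok) (x : E N) : gradient S.Φ x = S.W x • S.n x := by
  rw [n, smul_smul, mul_inv_cancel₀ (h.W_pos x).ne', one_smul]

theorem Ok.fderiv_eq (h : S.Ok) (x v : E N) : fderiv ℝ S.Φ x v = S.W x * ⟪S.n x, v⟫ := by
  rw [← inner_grad, h.grad_eq, real_inner_smul_left]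

theorem Ok.inv (h : S.Ok) (x : E N) : (S.B x).IsInvertible := by
  have hi : Function.Injective (S.B x) := by
    rw [injective_iff_map_eq_zero]
    intro v hv
    by_contra h0
    simpa [hv] using h.pos x v h0
  have hs : Function.Surjective (S.B x) :=
    (LinearMap.injective_iff_surjective (f := (S.B x : E N →ₗ[ℝ] E N))).1 hi
  exact ⟨(LinearEquiv.ofBijective (S.B x : E N →ₗ[ℝ] E N) ⟨hi, hs⟩).toContinuousLinearEquiv, rfl⟩

theorem Ok.AB (h : S.Ok) (x v : E N) : S.A x (S.B x v) = v := (h.inv x).inverse_apply_self v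

theorem Ok.BA (h : S.Ok) (x v : E N) : S.B x (S.A x v) = v := (h.inv x).self_apply_inverse v

theorem Ok.symA (h : S.Ok) (x v w : E N) : ⟪S.A x v, w⟫ = ⟪v, S.A x w⟫ := by
  conv_lhs => rw [← h.BA x w, ← h.sym, h.BA]

theorem Ok.B_nonneg (h : S.Ok) (x v : E N) : 0 ≤ ⟪v, S.B x v⟫ := by
  by_cases hv : v = 0
  · simp [hv]
  · exact (h.pos x v hv).le

theorem Ok.A_nonneg (h : S.Ok) (x v : E N) : 0 ≤ ⟪S.A x v, v⟫ := by
  have := h.B_nonneg x (S.A x v)
  rwa [h.BA] at this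

theorem Ok.aH (h : S.Ok) (x : E N) : dvg (fun y => S.a y • S.ν y) x = S.a x * S.H x := by
  rw [H, mul_div_cancel₀ _ (h.a0 x).ne']

theorem P_apply (x v : E N) : S.P x v = v - ⟪S.n x, v⟫ • S.ν x := by simp [P]

theorem Ok.dn (h : S.Ok) (x : E N) : DifferentiableAt ℝ S.n x :=
  h.smn.differentiable (by simp) x

theorem Ok.dν (h : S.Ok) (x : E N) : DifferentiableAt ℝ S.ν x :=
  h.smν.differentiable (by simp) x

theorem Ok.dB (h : S.Ok) (x : E N) : DifferentiableAt ℝ S.B x :=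
  h.smB.differentiable (by simp) x

theorem Ok.da (h : S.Ok) (x : E N) : DifferentiableAt ℝ S.a x :=
  h.sma.differentiable (by simp) x

theorem Ok.dΦ (h : S.Ok) (x : E N) : DifferentiableAt ℝ S.Φ x :=
  h.smΦ.differentiable (by simp) x

theorem Ok.fderiv_ν (h : S.Ok) (x v : E N) :
    fderiv ℝ S.ν x v = fderiv ℝ S.B x v (S.n x) + S.B x (fderiv ℝ S.n x v) := by
  have : S.ν = fun y => S.B y (S.n y) := rfl
  rw [this, fderiv_clm_apply (h.dB x) (h.dn x)]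
  simp [add_comm]

/-- the derivative of the conormal paired with the normal -/
theorem Ok.ν_dn (h : S.Ok) (x v : E N) :
    ⟪S.ν x, fderiv ℝ S.n x v⟫ = -(⟪S.n x, fderiv ℝ S.B x v (S.n x)⟫ / 2) := by
  have h1 : (fun y => ⟪S.n y, S.ν y⟫) = fun _ => (1 : ℝ) := funext h.nν
  have h2 := fderiv_inner_apply ℝ (h.dn x) (h.dν x) v
  rw [h1, h.fderiv_ν, inner_add_right, ← h.sym] at h2
  simp only [fderiv_fun_const, Pi.zero_apply, zero_apply] at h2
  rw [real_inner_comm (S.ν x)] at h2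
  change 0 = _ + ⟪S.ν x, _⟫ + _ at h2
  linarith

/-- the derivative of the normal paired with the conormal -/
theorem Ok.n_dν (h : S.Ok) (x v : E N) :
    ⟪S.n x, fderiv ℝ S.ν x v⟫ = ⟪S.n x, fderiv ℝ S.B x v (S.n x)⟫ / 2 := by
  have h2 := h.ν_dn x v
  rw [h.fderiv_ν, inner_add_right, ← h.sym]
  change _ + ⟪S.ν x, _⟫ = _
  linarith

theorem Ok.integrable (h : S.Ok) {f : E N → ℝ} (hf : Continuous f) (hc : HasCompactSupport f) :
    Integrable f S.μ := by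
  have := h.fin
  exact hf.integrable_of_hasCompactSupport hc

/-- the area as a flux -/
theorem Ok.flux (h : S.Ok) {ψ : E N → ℝ} (hψ : ContDiff ℝ 1 ψ) (hc : HasCompactSupport ψ) :
    ∫ x, ψ x ∂S.μ = ∫ x in {x | S.Φ x < 0},
      S.a x * (fderiv ℝ ψ x (S.ν x) + ψ x * S.H x) := by
  have h1 := h.div (fun x => ψ x • S.ν x) (hψ.smul (h.smν.of_le (by simp))) hc.smul_right
  simp only [inner_smul_right, h.nν, mul_one] at h1
  rw [h1]
  refine integral_congr_ae (Eventually.of_forall fun x => ?_)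
  have : (fun y => S.a y • ψ y • S.ν y) = fun y => ψ y • (S.a y • S.ν y) := by
    funext y; rw [smul_comm]
  simp only [this]
  rw [dvg_smul (hψ.differentiable one_ne_zero x) ((h.da x).fun_smul (h.dν x)), h.aH]
  simp only [map_smul, smul_eq_mul]
  ring

section bounds

variable {x₀ x : E N} {R η Λ : ℝ}

theorem Bd.Bsub (hb : S.Bd x₀ R η Λ) (hx : x ∈ ball x₀ R) (v : E N) :
    ‖S.B x v - v‖ ≤ η * ‖v‖ := by
  have := (S.B x - ContinuousLinearMap.id ℝ (E N)).le_of_opNorm_le (hb.B0 x hx) v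
  simpa using this

theorem Bd.η0 (hb : S.Bd x₀ R η Λ) (hx : x ∈ ball x₀ R) : 0 ≤ η :=
  (abs_nonneg _).trans (hb.a0 x hx)

theorem Bd.B_lo (hb : S.Bd x₀ R η Λ) (hx : x ∈ ball x₀ R) (v : E N) :
    (1 - η) * ‖v‖ ^ 2 ≤ ⟪v, S.B x v⟫ := by
  have h1 := abs_real_inner_le_norm v (S.B x v - v)
  have h2 := hb.Bsub hx v
  rw [inner_sub_right, real_inner_self_eq_norm_sq] at h1
  have := (abs_le.1 h1).1
  nlinarith [norm_nonneg v]

theorem Bd.B_hi (hb : S.Bd x₀ R η Λ) (hx : x ∈ ball x₀ R) (v : E N) :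
    ‖S.B x v‖ ≤ (1 + η) * ‖v‖ := by
  have h2 := hb.Bsub hx v
  have := norm_le_norm_sub_add (S.B x v) v
  linarith

theorem Bd.B_lo' (hb : S.Bd x₀ R η Λ) (hx : x ∈ ball x₀ R) (v : E N) :
    (1 - η) * ‖v‖ ≤ ‖S.B x v‖ := by
  have h2 := hb.Bsub hx v
  have := norm_le_norm_sub_add v (S.B x v)
  rw [norm_sub_rev] at this
  linarith

theorem Bd.A_hi (h : S.Ok) (hb : S.Bd x₀ R η Λ) (hη : η ≤ 1 / 2) (hx : x ∈ ball x₀ R) (v : E N) :
    ‖S.A x v‖ ≤ 2 * ‖v‖ := by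
  have := hb.B_lo' hx (S.A x v)
  rw [h.BA] at this
  nlinarith [norm_nonneg (S.A x v)]

theorem Bd.Asub (h : S.Ok) (hb : S.Bd x₀ R η Λ) (hη : η ≤ 1 / 2) (hx : x ∈ ball x₀ R) (v : E N) :
    ‖S.A x v - v‖ ≤ 2 * η * ‖v‖ := by
  have h1 := hb.Bsub hx (S.A x v)
  rw [h.BA, norm_sub_rev] at h1
  have h2 := hb.A_hi h hη hx v
  nlinarith [hb.η0 hx]

theorem Bd.Aq_hi (h : S.Ok) (hb : S.Bd x₀ R η Λ) (hη : η ≤ 1 / 2) (hx : x ∈ ball x₀ R)
    (v : E N) : ⟪S.A x v, v⟫ ≤ 2 * ‖v‖ ^ 2 := by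
  have h1 := real_inner_le_norm (S.A x v) v
  have h2 := hb.A_hi h hη hx v
  nlinarith [norm_nonneg v]

theorem Bd.Aq_sub (h : S.Ok) (hb : S.Bd x₀ R η Λ) (hη : η ≤ 1 / 2) (hx : x ∈ ball x₀ R)
    (v : E N) : |⟪S.A x v, v⟫ - ‖v‖ ^ 2| ≤ 2 * η * ‖v‖ ^ 2 := by
  have h1 := abs_real_inner_le_norm (S.A x v - v) v
  rw [inner_sub_left, real_inner_self_eq_norm_sq] at h1
  have h2 := hb.Asub h hη hx v
  nlinarith [norm_nonneg v]

theorem Bd.Aq_lo (h : S.Ok) (hb : S.Bd x₀ R η Λ) (hη : η ≤ 1 / 2) (hx : x ∈ ball x₀ R)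
    (v : E N) : 2 * ‖v‖ ^ 2 ≤ 3 * ⟪S.A x v, v⟫ := by
  have h1 := h.B_nonneg x (S.A x v - (2 / 3 : ℝ) • v)
  have h2 := hb.B_hi hx v
  have h3 := real_inner_le_norm v (S.B x v)
  have h4 : ⟪S.A x v, S.B x v⟫ = ‖v‖ ^ 2 := by
    rw [← h.sym, h.BA, real_inner_self_eq_norm_sq]
  simp only [map_sub, map_smul, h.BA, inner_sub_left, inner_sub_right, real_inner_smul_left,
    real_inner_smul_right, h4, real_inner_self_eq_norm_sq] at h1
  have h5 : ‖v‖ * ‖S.B x v‖ ≤ ‖v‖ * (3 / 2 * ‖v‖) := by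
    gcongr; nlinarith [norm_nonneg v]
  nlinarith

theorem Bd.n_sq (h : S.Ok) (hb : S.Bd x₀ R η Λ) (hη : η ≤ 1 / 2) (hx : x ∈ ball x₀ R) :
    ‖S.n x‖ ^ 2 ≤ 2 := by
  have h1 := hb.B_lo hx (S.n x)
  have h2 : ⟪S.n x, S.B x (S.n x)⟫ = 1 := h.nν x
  nlinarith [sq_nonneg ‖S.n x‖]

theorem Bd.n_le (h : S.Ok) (hb : S.Bd x₀ R η Λ) (hη : η ≤ 1 / 2) (hx : x ∈ ball x₀ R) :
    ‖S.n x‖ ≤ 3 / 2 := by
  have := hb.n_sq h hη hx
  nlinarith [norm_nonneg (S.n x)]

theorem Bd.ν_le (h : S.Ok) (hb : S.Bd x₀ R η Λ) (hη : η ≤ 1 / 2) (hx : x ∈ ball x₀ R) :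
    ‖S.ν x‖ ≤ 9 / 4 := by
  have h1 := hb.n_le h hη hx
  have h2 : ‖S.ν x‖ ≤ (1 + η) * ‖S.n x‖ := hb.B_hi hx _
  nlinarith [norm_nonneg (S.n x), hb.η0 hx]

theorem Bd.a_lo (hb : S.Bd x₀ R η Λ) (hη : η ≤ 1 / 2) (hx : x ∈ ball x₀ R) : 1 / 2 ≤ S.a x := by
  have := (abs_le.1 (hb.a0 x hx)).1; linarith

theorem Bd.a_hi (hb : S.Bd x₀ R η Λ) (hη : η ≤ 1 / 2) (hx : x ∈ ball x₀ R) : S.a x ≤ 3 / 2 := by
  have := (abs_le.1 (hb.a0 x hx)).2; linarith

theorem Bd.B_lip (h : S.Ok) (hb : S.Bd x₀ R η Λ) (hx : x ∈ ball x₀ R) {y : E N}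
    (hy : y ∈ ball x₀ R) : ‖S.B x - S.B y‖ ≤ Λ * ‖x - y‖ :=
  (convex_ball x₀ R).norm_image_sub_le_of_norm_fderiv_le (fun z _ => h.dB z) hb.B1 hy hx

theorem Bd.a_lip (h : S.Ok) (hb : S.Bd x₀ R η Λ) (hx : x ∈ ball x₀ R) {y : E N}
    (hy : y ∈ ball x₀ R) : |S.a x - S.a y| ≤ Λ * ‖x - y‖ :=
  (convex_ball x₀ R).norm_image_sub_le_of_norm_fderiv_le (fun z _ => h.da z) hb.a1 hy hx

theorem Bd.mono (hb : S.Bd x₀ R η Λ) {x₁ : E N} {R' η' Λ' : ℝ} (hR : ball x₁ R' ⊆ ball x₀ R)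
    (hη : η ≤ η') (hΛ : Λ ≤ Λ') : S.Bd x₁ R' η' Λ' := by
  have h2 : Λ ^ 2 ≤ Λ' ^ 2 := pow_le_pow_left₀ hb.Λ0 hΛ 2
  exact ⟨hb.Λ0.trans hΛ, fun x hx => (hb.B0 x (hR hx)).trans hη,
    fun x hx => (hb.B1 x (hR hx)).trans hΛ,
    fun x hx v => (hb.B2 x (hR hx) v).trans (by gcongr),
    fun x hx => (hb.a0 x (hR hx)).trans hη, fun x hx => (hb.a1 x (hR hx)).trans hΛ,
    fun x hx v => (hb.a2 x (hR hx) v).trans (by gcongr),
    fun x hx => (hb.H0 x (hR hx)).trans hΛ,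
    fun x hx y hy h1 h2 => (hb.H1 x (hR hx) y (hR hy) h1 h2).trans (by gcongr),
    fun x hx h1 => le_trans (by linarith) (hb.H2 x (hR hx) h1)⟩

end bounds

end Surf

end Vale.Agent.P366W
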