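import Vale.Agent.P366W.Aff
import Vale.Agent.P366W.Basic
import Mathlib.Analysis.InnerProductSpace.Spectrum

/-!
# P366W: rescaling, normal coordinates, comparison with the Euclidean density ratio
-/

open MeasureTheory Metric Filter Topology Set
open scoped ContDiff ENNReal RealInnerProductSpace
open Vale.Agent.P366.Stmt Vale.Agent.P366Y

noncomputable section

namespace Vale.Agent.P366W.Af

variable {N m : ℕ}

/-- conjugation of a bilinear form, as a linear map -/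
def cj (T : E N →L[ℝ] E N) : (E N →L[ℝ] E N) →L[ℝ] E N →L[ℝ] E N :=
  (ContinuousLinearMap.compL ℝ (E N) (E N) (E N) T).comp
    ((ContinuousLinearMap.compL ℝ (E N) (E N) (E N)).flip (ContinuousLinearMap.adjoint T))

theorem cj_apply (T M : E N →L[ℝ] E N) : cj T M = T ∘L M ∘L ContinuousLinearMap.adjoint T := rfl

theorem norm_cj_apply {T : E N →L[ℝ] E N} {s : ℝ} (hs : ‖T‖ ≤ s) (M : E N →L[ℝ] E N) :
    ‖cj T M‖ ≤ s ^ 2 * ‖M‖ := by
  have h0 : 0 ≤ s := (norm_nonneg _).trans hs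
  have h1 : ‖ContinuousLinearMap.adjoint T‖ = ‖T‖ := LinearIsometryEquiv.norm_map _ _
  calc ‖cj T M‖ ≤ ‖T‖ * (‖M‖ * ‖ContinuousLinearMap.adjoint T‖) :=
        (ContinuousLinearMap.opNorm_comp_le _ _).trans
          (by gcongr; exact ContinuousLinearMap.opNorm_comp_le _ _)
    _ ≤ s * (‖M‖ * s) := by rw [h1]; gcongr
    _ = s ^ 2 * ‖M‖ := by ring

/-- the first and second derivatives of `L ∘ f ∘ af` -/
theorem der_bd {V : Type} [NormedAddCommGroup V] [NormedSpace ℝ V] {f : E N → V}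
    (hf : ContDiff ℝ ∞ f) (L : V →L[ℝ] V) (T : E N ≃L[ℝ] E N) (b : E N) {l k t Λ : ℝ} (hl : 0 < l)
    (hk : 0 ≤ k) (hL : ∀ v, ‖L v‖ ≤ k * ‖v‖) (ht : ‖(T : E N →L[ℝ] E N)‖ ≤ t) (x : E N)
    (h1 : ‖fderiv ℝ f (b + l • T x)‖ ≤ Λ)
    (h2 : ∀ v, ‖fderiv ℝ (fun y => fderiv ℝ f y v) (b + l • T x)‖ ≤ Λ ^ 2 * ‖v‖) :
    ‖fderiv ℝ (fun y => L (f (b + l • T y))) x‖ ≤ k * t * l * Λ ∧
      ∀ v, ‖fderiv ℝ (fun y => fderiv ℝ (fun y => L (f (b + l • T y))) y v) x‖ ≤
        k * t ^ 2 * l ^ 2 * Λ ^ 2 * ‖v‖ := by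
  have ht0 : 0 ≤ t := (norm_nonneg _).trans ht
  have hΛ : 0 ≤ Λ := (norm_nonneg _).trans h1
  have hT : ∀ v, ‖T v‖ ≤ t * ‖v‖ := fun v => (T : E N →L[ℝ] E N).le_of_opNorm_le ht v
  have key : ∀ g : E N → V, Differentiable ℝ g → ∀ y v,
      fderiv ℝ (fun y => L (g (b + l • T y))) y v = l • L (fderiv ℝ g (b + l • T y) (T v)) := by
    intro g hg y v
    rw [fderiv_af (fun z => L (g z))]
    have := (L.hasFDerivAt.comp (b + l • T y) (hg _).hasFDerivAt).fderiv
    simp only [Function.comp_def] at this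
    rw [this]
    simp
  have hd : Differentiable ℝ f := hf.differentiable (by simp)
  refine ⟨ContinuousLinearMap.opNorm_le_bound _ (by positivity) fun v => ?_, fun v =>
    ContinuousLinearMap.opNorm_le_bound _ (by positivity) fun w => ?_⟩
  · rw [key f hd, norm_smul, Real.norm_of_nonneg hl.le]
    calc l * ‖L (fderiv ℝ f (b + l • T x) (T v))‖ ≤ l * (k * (Λ * (t * ‖v‖))) := by
          gcongr
          refine (hL _).trans ?_
          gcongr
          exact ((fderiv ℝ f (b + l • T x)).le_of_opNorm_le h1 _).trans (by gcongr; exact hT v)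
      _ = _ := by ring
  · have h3 : (fun y => fderiv ℝ (fun y => L (f (b + l • T y))) y v) =
        fun y => L ((fun z => fderiv ℝ f z (l • T v)) (b + l • T y)) := by
      funext y
      rw [key f hd]
      simp
    have hd2 : Differentiable ℝ fun z => fderiv ℝ f z (l • T v) :=
      ((hf.fderiv_right (m := 1) (by norm_cast)).clm_apply contDiff_const).differentiable one_ne_zero
    rw [h3, key _ hd2, norm_smul, Real.norm_of_nonneg hl.le]
    have h4 := h2 (l • T v)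
    rw [norm_smul, Real.norm_of_nonneg hl.le] at h4
    calc l * ‖L (fderiv ℝ (fun z => fderiv ℝ f z (l • T v)) (b + l • T x) (T w))‖ ≤
        l * (k * (Λ ^ 2 * (l * (t * ‖v‖)) * (t * ‖w‖))) := by
          gcongr
          refine (hL _).trans ?_
          gcongr
          refine (ContinuousLinearMap.le_of_opNorm_le _ h4 _).trans ?_
          gcongr
          · exact hT v
          · exact hT w
      _ = _ := by ring

theorem bd_aff {S : Surf (m + 1)} {T : E (m + 1) ≃L[ℝ] E (m + 1)} {x₀ b : E (m + 1)}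
    {R η η' Λ l κ R' s t k : ℝ} (hS : S.Ok) (hb : S.Bd x₀ R η Λ) (hl : 0 < l) (hκ : 0 < κ)
    (hk : κ ≤ k) (k1 : 1 ≤ k) (s1 : 1 ≤ s) (t1 : 1 ≤ t)
    (ht : ‖(T : E (m + 1) →L[ℝ] E (m + 1))‖ ≤ t)
    (hs : ‖(T.symm : E (m + 1) →L[ℝ] E (m + 1))‖ ≤ s)
    (hm : ∀ x ∈ ball (0 : E (m + 1)) R', b + l • T x ∈ ball x₀ R)
    (hB : ∀ x ∈ ball (0 : E (m + 1)) R',
      ‖(S.aff T b l κ).B x - ContinuousLinearMap.id ℝ (E (m + 1))‖ ≤ η')
    (ha : ∀ x ∈ ball (0 : E (m + 1)) R', |(S.aff T b l κ).a x - 1| ≤ η') :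
    (S.aff T b l κ).Bd 0 R' η' (s ^ 2 * k * t * (l * Λ)) := by
  have hΛ := hb.Λ0
  have hq : 0 ≤ l * Λ := by positivity
  have s2 : 1 ≤ s ^ 2 := one_le_pow₀ s1
  have hB' := fun x hx => der_bd hS.smB (cj (T.symm : E (m + 1) →L[ℝ] E (m + 1))) T b hl
    (by positivity) (norm_cj_apply hs) ht x (hb.B1 _ (hm x hx)) (hb.B2 _ (hm x hx))
  have ha' := fun x hx => der_bd hS.sma (κ • ContinuousLinearMap.id ℝ ℝ) T b hl (k := k)
    (by positivity) (fun v => by
      simp only [smul_apply, ContinuousLinearMap.id_apply, norm_smul,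
        Real.norm_of_nonneg hκ.le]
      gcongr) ht x (hb.a1 _ (hm x hx)) (hb.a2 _ (hm x hx))
  have hH : (S.aff T b l κ).H = fun x => l * S.H (b + l • T x) := funext (H_aff S T b hS hl hκ)
  have e1 : ∀ c : ℝ, 0 ≤ c → c ≤ s ^ 2 * k * t → c * (l * Λ) ≤ s ^ 2 * k * t * (l * Λ) :=
    fun c _ h => by gcongr
  have e2 : ∀ c : ℝ, c ≤ (s ^ 2 * k * t) ^ 2 →
      c * (l * Λ) ^ 2 ≤ (s ^ 2 * k * t * (l * Λ)) ^ 2 := fun c h => by
    rw [mul_pow _ (l * Λ)]; gcongr
  have p1 : 1 ≤ s ^ 2 * k := one_le_mul_of_one_le_of_one_le s2 k1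
  have p2 : 1 ≤ s ^ 2 * k * t := one_le_mul_of_one_le_of_one_le p1 t1
  have p3 : s ^ 2 ≤ s ^ 2 * k := le_mul_of_one_le_right (by positivity) k1
  have p4 : k ≤ s ^ 2 * k := le_mul_of_one_le_left (by positivity) s2
  have p5 : s ^ 2 * k ≤ (s ^ 2 * k) ^ 2 := by nlinarith
  have p6 : t ≤ s ^ 2 * k * t := le_mul_of_one_le_left (by positivity) p1
  refine ⟨by positivity, hB, fun x hx => (hB' x hx).1.trans ?_,
    fun x hx v => ((hB' x hx).2 v).trans ?_, ha, fun x hx => (ha' x hx).1.trans ?_,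
    fun x hx v => ((ha' x hx).2 v).trans ?_, fun x hx => ?_, fun x hx y hy h1 h2 => ?_,
    fun x hx h1 => ?_⟩
  · rw [mul_assoc _ l]
    exact e1 _ (by positivity) (by gcongr)
  · have := e2 (s ^ 2 * t ^ 2) (by
      rw [mul_pow _ t]; exact mul_le_mul_of_nonneg_right (p3.trans p5) (sq_nonneg t))
    gcongr
    linarith
  · rw [mul_assoc _ l]
    exact e1 _ (by positivity) (by gcongr)
  · have := e2 (k * t ^ 2) (by rw [mul_pow _ t]; gcongr; linarith)
    gcongr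
    linarith
  · rw [hH, abs_mul, abs_of_pos hl]
    have := e1 1 zero_le_one p2
    have h3 := hb.H0 _ (hm x hx)
    nlinarith
  · have h3 := hb.H1 _ (hm x hx) _ (hm y hy) h1 h2
    have h4 : b + l • T x - (b + l • T y) = l • T (x - y) := by simp [smul_sub]
    have h5 := (T : E (m + 1) →L[ℝ] E (m + 1)).le_of_opNorm_le ht (x - y)
    rw [h4, norm_smul, Real.norm_of_nonneg hl.le] at h3
    simp only [hH]
    rw [← mul_sub, abs_mul, abs_of_pos hl]
    have h6 := e2 t (by nlinarith)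
    calc l * |S.H (b + l • T x) - S.H (b + l • T y)| ≤ l * (Λ ^ 2 * (l * (t * ‖x - y‖))) := by
          gcongr
          exact h3.trans (by gcongr; exact h5)
      _ = t * (l * Λ) ^ 2 * ‖x - y‖ := by ring
      _ ≤ _ := by gcongr
  · have h3 := hb.H2 _ (hm x hx) h1
    have h4 : fderiv ℝ (fun z => l * S.H z) (b + l • T x) = l • fderiv ℝ S.H (b + l • T x) :=
      fderiv_const_mul (hS.smH.differentiable (by simp) _) l
    rw [hH, ν_aff S T b hl, fderiv_af (fun z => l * S.H z), h4]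
    simp only [smul_apply, ContinuousLinearMap.comp_apply,
      ContinuousLinearEquiv.coe_coe, ContinuousLinearEquiv.apply_symm_apply, smul_eq_mul]
    have h6 := e2 1 (one_le_pow₀ p2)
    nlinarith [mul_pos hl hl]

theorem exists_sqrt (B : E N →L[ℝ] E N) (hs : ∀ v w, ⟪B v, w⟫ = ⟪v, B w⟫)
    (hp : ∀ v, 0 ≤ ⟪v, B v⟫) : ∃ T : E N →L[ℝ] E N, (∀ v w, ⟪T v, w⟫ = ⟪v, T w⟫) ∧
      (∀ v, 0 ≤ ⟪v, T v⟫) ∧ ∀ v, T (T v) = B v := by
  have hB : (B : E N →ₗ[ℝ] E N).IsSymmetric := hs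
  have hn : Module.finrank ℝ (E N) = N := by simp
  set e := hB.eigenvectorBasis hn
  set c := hB.eigenvalues hn
  have he : ∀ i, B (e i) = c i • e i := hB.apply_eigenvectorBasis hn
  have hc : ∀ i, 0 ≤ c i := fun i => by
    have := hp (e i)
    rwa [he, inner_smul_right, real_inner_self_eq_norm_sq, e.orthonormal.1, one_pow, mul_one] at this
  let T : E N →L[ℝ] E N := ∑ i, √(c i) • (innerSL ℝ (e i)).smulRight (e i)
  have hT : ∀ v, T v = ∑ i, (√(c i) * ⟪e i, v⟫) • e i := fun v => by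
    simp [T, smul_smul]
  have hTe : ∀ j, T (e j) = √(c j) • e j := fun j => by
    rw [hT, Finset.sum_eq_single j]
    · rw [real_inner_self_eq_norm_sq, e.orthonormal.1, one_pow, mul_one]
    · intro i _ hi
      rw [e.orthonormal.2 hi, mul_zero, zero_smul]
    · simp
  refine ⟨T, fun v w => ?_, fun v => ?_, fun v => ?_⟩
  · simp only [hT, sum_inner, inner_sum, real_inner_smul_left, real_inner_smul_right]
    exact Finset.sum_congr rfl fun i _ => by rw [real_inner_comm v]; ring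
  · simp only [hT, inner_sum, real_inner_smul_right]
    refine Finset.sum_nonneg fun i _ => ?_
    rw [real_inner_comm (e i) v, mul_assoc]
    exact mul_nonneg (Real.sqrt_nonneg _) (mul_self_nonneg _)
  · conv_rhs => rw [← e.sum_repr' v]
    rw [hT v]
    simp only [map_sum, map_smul, hTe, he, smul_smul]
    refine Finset.sum_congr rfl fun i _ => ?_
    congr 1
    have := Real.mul_self_sqrt (hc i)
    linear_combination ⟪e i, v⟫ * this

theorem exists_nrm (B : E N →L[ℝ] E N) {η : ℝ} (hs : ∀ v w, ⟪B v, w⟫ = ⟪v, B w⟫)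
    (hp : ∀ v, 0 ≤ ⟪v, B v⟫) (hB : ∀ v, ‖B v - v‖ ≤ η * ‖v‖) (h0 : 0 ≤ η) (hη : η ≤ 1 / 2) :
    ∃ T : E N ≃L[ℝ] E N, ‖(T : E N →L[ℝ] E N) - ContinuousLinearMap.id ℝ _‖ ≤ η ∧
      ‖(T.symm : E N →L[ℝ] E N) - ContinuousLinearMap.id ℝ _‖ ≤ 2 * η ∧
      cj (T.symm : E N →L[ℝ] E N) B = ContinuousLinearMap.id ℝ _ := by
  obtain ⟨T, h1, h2, h3⟩ := exists_sqrt B hs hp
  have h4 : ∀ v, ‖T v - v‖ ≤ η * ‖v‖ := fun v => by
    have h5 : T (T v - v) + (T v - v) = B v - v := by rw [map_sub, h3]; abel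
    have h6 := real_inner_le_norm (T v - v) (B v - v)
    have h7 := h2 (T v - v)
    have h8 := hB v
    rw [← h5, inner_add_right, real_inner_self_eq_norm_sq, h5] at h6
    by_contra h
    push Not at h
    have h9 : 0 < ‖T v - v‖ := lt_of_le_of_lt (by positivity) h
    nlinarith
  have h5 : ∀ v, ‖v‖ ≤ 2 * ‖T v‖ := fun v => by
    have := norm_le_norm_sub_add v (T v)
    rw [norm_sub_rev] at this
    nlinarith [h4 v, norm_nonneg v]
  have hi : Function.Injective T := by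
    rw [injective_iff_map_eq_zero]
    intro v hv
    simpa [hv] using h5 v
  have hsu : Function.Surjective T :=
    (LinearMap.injective_iff_surjective (f := (T : E N →ₗ[ℝ] E N))).1 hi
  let T' := (LinearEquiv.ofBijective (T : E N →ₗ[ℝ] E N) ⟨hi, hsu⟩).toContinuousLinearEquiv
  have hT' : ∀ v, T' v = T v := fun _ => rfl
  refine ⟨T', ContinuousLinearMap.opNorm_le_bound _ h0 h4,
    ContinuousLinearMap.opNorm_le_bound _ (by positivity) fun v => ?_, ?_⟩
  · have h6 := h4 (T'.symm v)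
    have h7 := h5 (T'.symm v)
    rw [← hT', T'.apply_symm_apply] at h6 h7
    rw [norm_sub_rev] at h6
    exact h6.trans (by nlinarith)
  · ext1 v
    have h6 : ∀ w, ContinuousLinearMap.adjoint (T' : E N →L[ℝ] E N) w = T' w := fun w =>
      ext_inner_right ℝ fun z => by
        rw [ContinuousLinearMap.adjoint_inner_left]
        exact (h1 _ _).symm
    have h7 := adj_symm' T' v
    rw [h6, hT'] at h7
    simp only [cj_apply, ContinuousLinearMap.comp_apply, ← h3, h7, ContinuousLinearMap.id_apply]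
    exact T'.symm_apply_apply v

theorem norm_le_of_sub {T : E N →L[ℝ] E N} {e : ℝ} (h : ‖T - ContinuousLinearMap.id ℝ _‖ ≤ e) :
    ‖T‖ ≤ 1 + e := by
  have h1 := norm_le_norm_sub_add T (ContinuousLinearMap.id ℝ _)
  have h2 : ‖ContinuousLinearMap.id ℝ (E N)‖ ≤ 1 := ContinuousLinearMap.norm_id_le
  linarith

theorem abs_ph_sub {s t : ℝ} (hs : 0 ≤ s) (ht : 0 ≤ t) : |ph s - ph t| ≤ 3 * |s - t| := by
  have h := (convex_Ici (0 : ℝ)).norm_image_sub_le_of_norm_hasDerivWithin_le (f := ph) (C := 3)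
    (fun x _ => (hasDerivAt_ph x).hasDerivWithinAt)
    (fun x hx => by rw [norm_neg, Real.norm_of_nonneg (dph_nonneg x)]; exact dph_le hx) ht hs
  simpa using h

end Vale.Agent.P366W.Af

namespace Vale.Agent.P366W

open Af

theorem scb : SCB := fun m S x₀ b R η Λ l R' hS hb hl hR => by
  have hm : ∀ x ∈ ball (0 : E (m + 1)) R',
      b + l • ContinuousLinearEquiv.refl ℝ _ x ∈ ball x₀ R := fun x hx => hR (by
    rw [mem_ball_iff_norm, add_sub_cancel_left, norm_smul, Real.norm_of_nonneg hl.le]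
    exact mul_lt_mul_of_pos_left (by simpa using hx) hl)
  have h := bd_aff (κ := 1) (η' := η) (T := ContinuousLinearEquiv.refl ℝ _) hS hb hl one_pos le_rfl
    le_rfl le_rfl le_rfl ContinuousLinearMap.norm_id_le ContinuousLinearMap.norm_id_le hm
    (fun x hx => by
      simpa [Surf.aff, ContinuousLinearMap.adjoint_id] using hb.B0 _ (hm x hx))
    (fun x hx => by simpa [Surf.aff] using hb.a0 _ (hm x hx))
  simpa [Surf.sc] using h

theorem nrm : NRM := fun m => ⟨16, by norm_num, fun S x₀ b R η Λ hS hb hη hx₀ => by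
  obtain ⟨T, h1, h2, h3⟩ := exists_nrm (S.B b) (hS.sym b) (hS.B_nonneg b) (hb.Bsub hx₀)
    (hb.η0 hx₀) hη
  refine ⟨T, h1, h2, fun l R' hl hR => ?_⟩
  have ht : ‖(T : E (m + 1) →L[ℝ] E (m + 1))‖ ≤ 2 := (norm_le_of_sub h1).trans (by linarith)
  have hs : ‖(T.symm : E (m + 1) →L[ℝ] E (m + 1))‖ ≤ 2 := (norm_le_of_sub h2).trans (by linarith)
  have hΛ := hb.Λ0
  have hn : ∀ x ∈ ball (0 : E (m + 1)) R', ‖b + l • T x - b‖ < 2 * l * R' := fun x hx => by
    have h4 := (T : E (m + 1) →L[ℝ] E (m + 1)).le_of_opNorm_le ht x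
    have h5 : ‖x‖ < R' := by simpa using hx
    rw [add_sub_cancel_left, norm_smul, Real.norm_of_nonneg hl.le]
    simp only [ContinuousLinearEquiv.coe_coe] at h4
    nlinarith
  have hm : ∀ x ∈ ball (0 : E (m + 1)) R', b + l • T x ∈ ball x₀ R := fun x hx =>
    hR (mem_ball_iff_norm.2 (hn x hx))
  have ha := hb.a_lo hη hx₀
  have hκ : (S.a b)⁻¹ ≤ 2 := by rw [inv_le_comm₀ (hS.a0 b) two_pos]; linarith
  have h := bd_aff (κ := (S.a b)⁻¹) (η' := 16 * l * Λ * R') hS hb hl (inv_pos.2 (hS.a0 b)) hκ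
    one_le_two one_le_two one_le_two ht hs hm (fun x hx => ?_) (fun x hx => ?_)
  · convert h using 1
    ring
  · have h4 := norm_cj_apply hs (S.B (b + l • T x) - S.B b)
    have h5 := hb.B_lip hS (hm x hx) hx₀
    have h6 := mul_le_mul_of_nonneg_left (hn x hx).le hΛ
    have h7 : 0 ≤ Λ * (2 * l * R') := le_trans (by positivity) h6
    rw [map_sub, h3] at h4
    exact h4.trans (by nlinarith)
  · have h5 := hb.a_lip hS (hm x hx) hx₀
    have h6 := mul_le_mul_of_nonneg_left (hn x hx).le hΛ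
    have h7 : 0 ≤ Λ * (2 * l * R') := le_trans (by positivity) h6
    have h8 : (S.aff T b l (S.a b)⁻¹).a x - 1 = (S.a b)⁻¹ * (S.a (b + l • T x) - S.a b) := by
      have := hS.a0 b
      simp only [Surf.aff]
      field_simp
    rw [h8, abs_mul, abs_of_pos (inv_pos.2 (hS.a0 b))]
    calc (S.a b)⁻¹ * |S.a (b + l • T x) - S.a b| ≤ 2 * (Λ * (2 * l * R')) := by
          gcongr; exact h5.trans h6
      _ ≤ _ := by nlinarith⟩

theorem cmp_of (hABD : ABD) : CMP := fun m e he => by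
  obtain ⟨C, hC⟩ := hABD m
  have hK : 0 < 72 * ((|C| + 1) * 2 ^ m) := by positivity
  obtain ⟨ε, hε, hεe⟩ : ∃ ε > (0 : ℝ), ε * (72 * ((|C| + 1) * 2 ^ m)) = e :=
    ⟨e / _, div_pos he hK, div_mul_cancel₀ _ hK.ne'⟩
  have hc : Continuous fun p : ℝ × (E (m + 1) →L[ℝ] E (m + 1)) => p.1 * √p.2.det :=
    continuous_fst.mul (ContinuousLinearMap.continuous_det.comp continuous_snd).sqrt
  obtain ⟨δ, hδ, hd⟩ := Metric.continuous_iff.1 hc (1, ContinuousLinearMap.id ℝ _) (min ε (1 / 2))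
    (by positivity)
  refine ⟨min (δ / 2) (min (1 / 8) ε), by positivity, fun S x₀ y R η Λ r hS hb hη hr hR hΛ => ?_⟩
  simp only [le_min_iff] at hη
  obtain ⟨hη1, hη2, hη3⟩ := hη
  have hy : y ∈ ball x₀ R := hR (mem_ball_self (by positivity))
  have hη0 := hb.η0 hy
  have hD := hd (S.a y, S.B y) (by
    rw [Prod.dist_eq, max_lt_iff, Real.dist_eq, dist_eq_norm]
    exact ⟨(hb.a0 y hy).trans_lt (by linarith), (hb.B0 y hy).trans_lt (by linarith)⟩)
  simp only [ContinuousLinearMap.det, ContinuousLinearMap.coe_id, LinearMap.det_id,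
    Real.sqrt_one, mul_one, Real.dist_eq, lt_min_iff] at hD
  have h2 := hC S x₀ y R η Λ (2 * r) hS hb (by linarith) (by positivity)
    (by convert hR using 2; ring) (by linarith)
  simp only [Surf.th, ContinuousLinearMap.det] at h2 ⊢
  set D := S.a y * √(LinearMap.det (S.B y : E (m + 1) →ₗ[ℝ] E (m + 1)))
  have hD0 : 0 < D := by linarith [(abs_lt.1 hD.2).1]
  have hQ : 0 < cm m * r ^ m := mul_pos (cm_pos m) (by positivity)
  have hq := fun v => abs_le.1 (hb.Aq_sub hS (by linarith) hy v)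
  have hr2 : 0 < r ^ 2 := by positivity
  have hp : ∀ v : E (m + 1), |ph (⟪S.A y v, v⟫ / r ^ 2) - ph (‖v‖ ^ 2 / r ^ 2)| ≤
      64 * η * ph (⟪S.A y v, v⟫ / (2 * r) ^ 2) ∧
      ph (‖v‖ ^ 2 / r ^ 2) ≤ 8 * ph (⟪S.A y v, v⟫ / (2 * r) ^ 2) := fun v => by
    have h3 := hq v
    have h4 := ph_nonneg (⟪S.A y v, v⟫ / (2 * r) ^ 2)
    have h5 : η * ‖v‖ ^ 2 ≤ 1 / 8 * ‖v‖ ^ 2 := by gcongr
    by_cases h : 4 / 3 * r ^ 2 ≤ ‖v‖ ^ 2
    · rw [ph_zero (s := ⟪S.A y v, v⟫ / r ^ 2) (by rw [le_div_iff₀ hr2]; linarith),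
        ph_zero (s := ‖v‖ ^ 2 / r ^ 2) (by rw [le_div_iff₀ hr2]; linarith)]
      simp only [sub_self, abs_zero]
      exact ⟨by positivity, by positivity⟩
    · push Not at h
      have h6 : 1 / 8 ≤ ph (⟪S.A y v, v⟫ / (2 * r) ^ 2) := by
        have := ph_anti (s := ⟪S.A y v, v⟫ / (2 * r) ^ 2) (t := 1 / 2)
          (by rw [div_le_iff₀ (by positivity)]; linarith)
        rw [ph_of_le (s := 1 / 2) (by norm_num)] at this
        linarith
      have h7 := abs_ph_sub (div_nonneg (hS.A_nonneg y v) hr2.le) (div_nonneg (sq_nonneg ‖v‖) hr2.le)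
      have h8 : |⟪S.A y v, v⟫ / r ^ 2 - ‖v‖ ^ 2 / r ^ 2| ≤ 8 / 3 * η := by
        rw [← sub_div, abs_div, abs_of_pos hr2, div_le_iff₀ hr2]
        have : η * ‖v‖ ^ 2 ≤ η * (4 / 3 * r ^ 2) := by gcongr
        exact (abs_le.2 h3).trans (by linarith)
      have h9 := ph_le_one (div_nonneg (sq_nonneg ‖v‖) hr2.le)
      exact ⟨by nlinarith, by linarith⟩
  have hi : ∀ ρ > (0 : ℝ), Integrable (fun x => ph (⟪S.A y (x - y), x - y⟫ / ρ ^ 2)) S.μ := by
    intro ρ hρ
    refine hS.integrable (continuous_ph.comp (by fun_prop))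
      (HasCompactSupport.intro (isCompact_closedBall y (2 * ρ)) fun x hx => ph_zero ?_)
    have h3 : 2 * ρ < ‖x - y‖ := by simpa [dist_eq_norm] using hx
    have h4 := hb.Aq_lo hS (by linarith) hy (x - y)
    rw [le_div_iff₀ (by positivity)]
    nlinarith
  have hi0 : Integrable (fun x => ph (‖x - y‖ ^ 2 / r ^ 2)) S.μ :=
    ((hi (2 * r) (by positivity)).const_mul 8).mono'
      (continuous_ph.comp (by fun_prop)).aestronglyMeasurable
      (Eventually.of_forall fun x => by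
        rw [Real.norm_of_nonneg (ph_nonneg _)]; exact (hp _).2)
  have h3 := norm_integral_le_of_norm_le
    (f := fun x => ph (⟪S.A y (x - y), x - y⟫ / r ^ 2) - ph (‖x - y‖ ^ 2 / r ^ 2))
    ((hi (2 * r) (by positivity)).const_mul (64 * η))
    (Eventually.of_forall fun x => (hp (x - y)).1)
  have h4 := integral_mono hi0 ((hi (2 * r) (by positivity)).const_mul 8) fun x => (hp (x - y)).2
  rw [integral_sub (hi r hr) hi0, integral_const_mul, Real.norm_eq_abs] at h3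
  rw [integral_const_mul] at h4
  have h0 : 0 ≤ ∫ x, ph (‖x - y‖ ^ 2 / r ^ 2) ∂S.μ := integral_nonneg fun x => ph_nonneg _
  set I₀ := ∫ x, ph (‖x - y‖ ^ 2 / r ^ 2) ∂S.μ
  set I₁ := ∫ x, ph (⟪S.A y (x - y), x - y⟫ / r ^ 2) ∂S.μ
  set I₂ := ∫ x, ph (⟪S.A y (x - y), x - y⟫ / (2 * r) ^ 2) ∂S.μ
  have h5 : I₂ ≤ (|C| + 1) * 2 ^ m * (cm m * r ^ m * D) := by
    rw [div_le_iff₀ (by have := cm_pos m; positivity)] at h2
    calc I₂ ≤ C * (cm m * (2 * r) ^ m * D) := h2
      _ ≤ (|C| + 1) * (cm m * (2 * r) ^ m * D) := by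
          have := cm_pos m
          gcongr
          linarith [le_abs_self C]
      _ = _ := by ring
  have h6 : I₁ / (cm m * r ^ m * D) - I₀ / (cm m * r ^ m) =
      (I₁ - I₀ - (D - 1) * I₀) / (cm m * r ^ m * D) := by
    have := cm_pos m
    field_simp
    ring
  rw [h6, abs_div, abs_of_pos (mul_pos hQ hD0), div_le_iff₀ (mul_pos hQ hD0)]
  have h7 : |(D - 1) * I₀| ≤ ε * (8 * I₂) := by
    rw [abs_mul, abs_of_nonneg h0]
    gcongr
    exact hD.1.le
  have h8 : 0 ≤ I₂ := by linarith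
  calc |I₁ - I₀ - (D - 1) * I₀| ≤ 64 * η * I₂ + ε * (8 * I₂) :=
        (abs_sub _ _).trans (add_le_add h3 h7)
    _ ≤ 72 * ε * I₂ := by nlinarith
    _ ≤ 72 * ε * ((|C| + 1) * 2 ^ m * (cm m * r ^ m * D)) := by gcongr
    _ = _ := by rw [← hεe]; ring

end Vale.Agent.P366W
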