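import Vale.Agent.P366W.Mono
import Vale.Agent.P366W.Aff2

/-!
# P366W: the density at a point of the surface
-/

open MeasureTheory Metric Filter Topology Set
open scoped ContDiff ENNReal RealInnerProductSpace
open Vale.Agent.P366.Stmt Vale.Agent.P366Y

noncomputable section

namespace Vale.Agent.P366W

variable {N m : ℕ}

theorem exists_fr {e : E (m + 1)} (he : ‖e‖ = 1) : ∃ L : E m →ₗᵢ[ℝ] E (m + 1), Fr e L := by
  have : Fact (Module.finrank ℝ (E (m + 1)) = m + 1) := ⟨by simp⟩
  have h0 : e ≠ 0 := by rintro rfl; simp at he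
  let b := OrthonormalBasis.fromOrthogonalSpanSingleton (𝕜 := ℝ) m h0
  refine ⟨(ℝ ∙ e)ᗮ.subtypeₗᵢ.comp b.repr.symm.toLinearIsometry, he, fun y => ?_⟩
  exact Submodule.mem_orthogonal_singleton_iff_inner_right.1 (b.repr.symm y).2

theorem hasFDerivAt_ph_norm (z : E N) : HasFDerivAt (fun z : E N => ph (‖z‖ ^ 2))
    ((-(2 * dph (‖z‖ ^ 2))) • innerSL ℝ z) z := by
  refine HasFDerivAt.congr_fderiv
    ((hasDerivAt_ph _).comp_hasFDerivAt z (hasStrictFDerivAt_norm_sq z).hasFDerivAt) ?_
  ext v; simp; ring

theorem half_eq {e : E (m + 1)} (he : ‖e‖ = 1) :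
    ∫ z in {z : E (m + 1) | ⟪e, z⟫ < 0}, -(2 * dph (‖z‖ ^ 2)) * ⟪z, e⟫ = cm m := by
  obtain ⟨L, h⟩ := exists_fr he
  have h1 := gdiv m 0 e L (fun _ => 0) (fun z => ph (‖z‖ ^ 2) • e) h contDiff_const
    (((contDiff_ph.of_le (by norm_num)).comp (contDiff_norm_sq ℝ)).smul contDiff_const)
    (hcs_r _ hcs_ph_norm)
  have h2 : {x | ∃ (y : E m) (s : ℝ), s < 0 ∧ x = 0 + L y + s • e} = {z | ⟪e, z⟫ < 0} := by
    ext x
    constructor
    · rintro ⟨y, s, hs, rfl⟩
      rwa [zero_add, mem_ofPred_eq, h.e_pt]
    · exact fun hx => ⟨_, _, hx, by rw [zero_add, h.dec]⟩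
  rw [h2] at h1
  simp only [gradient_fun_const, map_zero, sub_zero, zero_add, zero_smul, add_zero,
    real_inner_smul_right, h.ee, mul_one, L.norm_map] at h1
  rw [cm, ← h1]
  refine integral_congr_ae (Eventually.of_forall fun z => ?_)
  simp only
  rw [dvg_smul (hasFDerivAt_ph_norm z).differentiableAt (differentiableAt_const e),
    (hasFDerivAt_ph_norm z).fderiv]
  simp [dvg]

theorem dens0 {S : Surf (m + 1)} {y : E (m + 1)} (h : S.Ok) (hy : S.Φ y = 0)
    (hB : S.B y = ContinuousLinearMap.id ℝ _) : Tendsto (S.th y) (𝓝[>] 0) (𝓝 1) := by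
  have hA : ∀ v, S.A y v = v := fun v => by simpa [hB] using h.BA y v
  have hν : S.ν y = S.n y := by simp [Surf.ν, hB]
  have he : ‖S.n y‖ = 1 := by
    have := h.nν y
    rw [hν, real_inner_self_eq_norm_sq] at this
    exact (pow_eq_one_iff_of_nonneg (norm_nonneg _) two_ne_zero).1 this
  have hq : ∀ x, S.q y x = ‖x - y‖ ^ 2 := fun x => by
    rw [Surf.q, hA, real_inner_self_eq_norm_sq]
  have cΦ := h.smΦ.continuous
  have ca := h.sma.continuous
  have cν := h.smν.continuous
  have cH := h.smH.continuous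
  have cd := continuous_dph
  have cp := continuous_ph
  set k : ℝ × E (m + 1) → ℝ := fun p => S.a (y + p.1 • p.2) * (-(2 * dph (‖p.2‖ ^ 2)) *
    ⟪p.2, S.ν (y + p.1 • p.2)⟫ + p.1 * ph (‖p.2‖ ^ 2) * S.H (y + p.1 • p.2)) with hk
  have ck : Continuous k := by rw [hk]; fun_prop
  set G : ℝ → E (m + 1) → ℝ := fun s => indicator {z | S.Φ (y + s • z) < 0} fun z => k (s, z)
    with hG
  have h1 : ∀ s, 0 < s → S.M y s / s ^ m = ∫ z, G s z := fun s hs => by
    have h2 := h.flux ((S.sm_ph y s).of_le (by norm_num))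
      (HasCompactSupport.intro (isCompact_closedBall y s) fun x hx => ph_zero (by
        rw [hq, le_div_iff₀ (by positivity), one_mul]
        exact pow_le_pow_left₀ hs.le (le_of_lt (by simpa [dist_eq_norm] using hx)) 2))
    rw [Surf.M, h2, ← integral_indicator (isOpen_lt cΦ continuous_const).measurableSet,
      ← integral_add_left_eq_self _ y]
    rw [← inv_smul_smul₀ (show |(s ^ (m + 1))⁻¹| ≠ 0 by positivity) (∫ x, _)]
    have h3 := Measure.integral_comp_smul (volume : Measure (E (m + 1))) (fun x => indicator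
      {x | S.Φ x < 0} (fun x => S.a x * (fderiv ℝ (fun x => ph (S.q y x / s ^ 2)) x (S.ν x) +
        ph (S.q y x / s ^ 2) * S.H x)) (y + x)) s
    rw [finrank_euclideanSpace, Fintype.card_fin] at h3
    rw [← h3, smul_eq_mul, mul_div_right_comm, ← integral_const_mul]
    refine integral_congr_ae (Eventually.of_forall fun z => ?_)
    have h4 : S.q y (y + s • z) / s ^ 2 = ‖z‖ ^ 2 := by
      rw [hq, add_sub_cancel_left, norm_smul, Real.norm_of_nonneg hs.le]; field_simp
    simp only [hG, hk, indicator, mem_ofPred_eq, (h.hasFDerivAt_ph y _ s).fderiv, h4, hA,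
      add_sub_cancel_left, smul_apply, innerSL_apply_apply, real_inner_smul_left, smul_eq_mul]
    rw [abs_of_pos (by positivity), inv_inv]
    split_ifs
    · field_simp; ring
    · simp
  obtain ⟨K, hK⟩ := ((isCompact_Icc (a := (0 : ℝ)) (b := 1)).prod
    (isCompact_closedBall (0 : E (m + 1)) 1)).exists_bound_of_continuousOn ck.continuousOn
  have h5 : Tendsto (fun s => ∫ z, G s z) (𝓝[>] 0)
      (𝓝 (∫ z, indicator {z | ⟪S.n y, z⟫ < 0} (fun z => k (0, z)) z)) := by
    refine tendsto_integral_filter_of_dominated_convergence (indicator (closedBall 0 1) fun _ => K)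
      (Eventually.of_forall fun s => ((ck.comp (by fun_prop)).aestronglyMeasurable.indicator
        (isOpen_lt (by fun_prop) continuous_const).measurableSet)) ?_
      ((integrable_indicator_iff measurableSet_closedBall).2
        (continuousOn_const.integrableOn_compact (isCompact_closedBall _ _))) ?_
    · filter_upwards [Ioo_mem_nhdsGT zero_lt_one] with s hs
      refine Eventually.of_forall fun z => (norm_indicator_le_norm_self _ _).trans ?_
      by_cases hz : z ∈ closedBall (0 : E (m + 1)) 1
      · rw [indicator_of_mem hz]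
        exact hK (s, z) ⟨Ioo_subset_Icc_self hs, hz⟩
      · have : 1 ≤ ‖z‖ ^ 2 := one_le_pow₀ (le_of_lt (by simpa using hz))
        simp [indicator_of_notMem hz, hk, ph_zero this, dph_zero this]
    · have h6 : ∀ᵐ z : E (m + 1), z ∉ (ℝ ∙ S.n y)ᗮ := by
        refine measure_eq_zero_iff_ae_notMem.1 (Measure.addHaar_submodule _ _ fun h7 => ?_)
        have : S.n y ∈ (ℝ ∙ S.n y)ᗮ := h7 ▸ Submodule.mem_top
        rw [Submodule.mem_orthogonal_singleton_iff_inner_right, real_inner_self_eq_norm_sq, he]
          at this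
        norm_num at this
      filter_upwards [h6] with z hz
      rw [Submodule.mem_orthogonal_singleton_iff_inner_right] at hz
      have h7 : HasDerivAt (fun s : ℝ => S.Φ (y + s • z)) (S.W y * ⟪S.n y, z⟫) 0 := by
        have h8 : HasDerivAt (fun s : ℝ => y + s • z) z 0 := by
          simpa using ((hasDerivAt_id (0 : ℝ)).smul_const z).const_add y
        rw [← h.fderiv_eq]
        exact HasFDerivAt.comp_hasDerivAt_of_eq 0 (h.dΦ y).hasFDerivAt h8 (by simp)
      have h9 := h7.tendsto_slope.mono_left (nhdsGT_le_nhdsNE 0)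
      have h10 : Tendsto (fun s : ℝ => k (s, z)) (𝓝[>] 0) (𝓝 (k (0, z))) :=
        ((ck.comp (by fun_prop : Continuous fun s : ℝ => (s, z))).tendsto 0).mono_left
          nhdsWithin_le_nhds
      have hW := h.W_pos y
      rcases lt_or_gt_of_ne hz with hz | hz
      · rw [indicator_of_mem (show z ∈ {z | ⟪S.n y, z⟫ < 0} from hz)]
        refine h10.congr' ?_
        filter_upwards [h9.eventually (gt_mem_nhds (mul_neg_of_pos_of_neg hW hz)),
          self_mem_nhdsWithin] with s h11 h12
        rw [slope_def_field, zero_smul, add_zero, hy, sub_zero, sub_zero, div_neg_iff] at h11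
        refine (indicator_of_mem (show z ∈ {z | S.Φ (y + s • z) < 0} from ?_)
          fun z => k (s, z)).symm
        rcases h11 with h11 | h11
        · exact absurd h11.2 (not_lt.2 (le_of_lt h12))
        · exact h11.1
      · rw [indicator_of_notMem (show z ∉ {z | ⟪S.n y, z⟫ < 0} from not_lt.2 hz.le)]
        refine tendsto_const_nhds.congr' ?_
        filter_upwards [h9.eventually (lt_mem_nhds (mul_pos hW hz)),
          self_mem_nhdsWithin] with s h11 h12
        rw [slope_def_field, zero_smul, add_zero, hy, sub_zero, sub_zero,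
          div_pos_iff_of_pos_right h12] at h11
        exact (indicator_of_notMem (show z ∉ {z | S.Φ (y + s • z) < 0} from not_lt.2 h11.le)
          fun z => k (s, z)).symm
  rw [integral_indicator (isOpen_lt (by fun_prop) continuous_const).measurableSet] at h5
  simp only [hk, zero_smul, add_zero, zero_mul, hν, integral_const_mul, half_eq he] at h5
  have hc := cm_pos m
  have ha := h.a0 y
  have h6 := h5.div_const (S.a y * cm m)
  rw [div_self (by positivity)] at h6
  refine h6.congr' ?_
  filter_upwards [self_mem_nhdsWithin] with s hs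
  rw [← h1 s hs, S.th_eq, hB]
  simp only [ContinuousLinearMap.det, ContinuousLinearMap.coe_id, LinearMap.det_id, Real.sqrt_one]
  ring

theorem dens : DENS := by
  intro m S y h hy
  obtain ⟨T, h1, -, h3⟩ := Af.exists_sqrt (S.B y) (h.sym y) (h.B_nonneg y)
  have hi : Function.Injective T := fun v w hv => by
    rw [← h.AB y v, ← h.AB y w, ← h3, ← h3, hv]
  let T' : E (m + 1) ≃L[ℝ] E (m + 1) := (LinearEquiv.ofBijective (T : E (m + 1) →ₗ[ℝ] E (m + 1))
    ⟨hi, LinearMap.injective_iff_surjective.1 hi⟩).toContinuousLinearEquiv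
  have hT : ∀ v, T' v = T v := fun v => rfl
  obtain ⟨h4, -, -, -, h5⟩ := aff m S T' y 1 1 h one_pos one_pos
  have h6 := dens0 (y := 0) h4 (by simpa [Surf.aff] using hy) (by
    ext1 v
    have h7 : ContinuousLinearMap.adjoint (T'.symm : E (m + 1) →L[ℝ] E (m + 1)) v = T'.symm v := by
      refine ext_inner_left ℝ fun w => ?_
      obtain ⟨w, rfl⟩ := T'.surjective w
      rw [ContinuousLinearMap.adjoint_inner_right, hT, h1, ← hT, ← hT]
      simp
    simp only [Surf.aff, map_zero, smul_zero, add_zero, ContinuousLinearMap.comp_apply, h7, ← h3,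
      ← hT]
    simp)
  refine h6.congr fun r => ?_
  rw [h5]; simp

end Vale.Agent.P366W
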