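import Vale.Agent.P366W.Graph3
import Vale.Agent.P366W.Dens
import Vale.Agent.P366Y.T.QeB

/-!
# P366W: the graph at the unit scale, and the density ratios near a point
-/

open MeasureTheory Metric Filter Topology Set
open scoped ContDiff ENNReal RealInnerProductSpace
open Vale.Agent.P366.Stmt Vale.Agent.P366Y

noncomputable section

namespace Vale.Agent.P366W

variable {N m : ℕ}

theorem norm_le_card (v : E N) {A : ℝ} (h : ∀ i, |v i| ≤ A) : ‖v‖ ≤ N * A := by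
  conv_lhs => rw [← sum_single v]
  refine (norm_sum_le _ _).trans ((Finset.sum_le_sum (g := fun _ => A) fun i _ => ?_).trans_eq
    (by simp))
  simpa [norm_smul] using h i

theorem gradient_apply {f : E N → ℝ} {x : E N} (hf : DifferentiableAt ℝ f x) (i : Fin N) :
    gradient f x i = pd i f x := by
  rw [P366Z.pd_eq hf, ← inner_grad, EuclideanSpace.inner_single_right]; simp

theorem nrm_lip {B B' : E N →L[ℝ] E N} {v v' : E N} (h1 : ‖v‖ ≤ 2) (h2 : ‖v'‖ ≤ 2)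
    (h3 : 1 / 4 ≤ ⟪v, B v⟫) (h4 : 1 / 4 ≤ ⟪v', B' v'⟫) (h5 : ∀ z, ‖B z‖ ≤ 2 * ‖z‖)
    (h6 : ∀ z, ‖B' z‖ ≤ 2 * ‖z‖) :
    ‖(√⟪v, B v⟫)⁻¹ • v - (√⟪v', B' v'⟫)⁻¹ • v'‖ ≤ 66 * ‖v - v'‖ + 32 * ‖B - B'‖ := by
  have e1 : ⟪v, B v⟫ - ⟪v', B' v'⟫ = ⟪v - v', B v⟫ + ⟪v', (B - B') v⟫ + ⟪v', B' (v - v')⟫ := by
    simp only [inner_sub_left, sub_apply, map_sub, inner_sub_right]; ring
  have e2 : |⟪v, B v⟫ - ⟪v', B' v'⟫| ≤ 8 * ‖v - v'‖ + 4 * ‖B - B'‖ := by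
    have a1 : |⟪v - v', B v⟫| ≤ ‖v - v'‖ * (2 * 2) :=
      (abs_real_inner_le_norm _ _).trans (by gcongr; exact (h5 v).trans (by gcongr))
    have a2 : |⟪v', (B - B') v⟫| ≤ 2 * (‖B - B'‖ * 2) := (abs_real_inner_le_norm _ _).trans
      (by gcongr; exact (B - B').le_of_opNorm_le_of_le le_rfl h1)
    have a3 : |⟪v', B' (v - v')⟫| ≤ 2 * (2 * ‖v - v'‖) :=
      (abs_real_inner_le_norm _ _).trans (by gcongr; exact h6 _)
    rw [e1]
    linarith [abs_add_three ⟪v - v', B v⟫ ⟪v', (B - B') v⟫ ⟪v', B' (v - v')⟫]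
  have s1 : 1 / 2 ≤ √⟪v, B v⟫ := Real.le_sqrt_of_sq_le (by linarith)
  have s2 : 1 / 2 ≤ √⟪v', B' v'⟫ := Real.le_sqrt_of_sq_le (by linarith)
  rw [← Real.sq_sqrt (show 0 ≤ ⟪v, B v⟫ by linarith),
    ← Real.sq_sqrt (show 0 ≤ ⟪v', B' v'⟫ by linarith)] at e2
  set a := √⟪v, B v⟫
  set b := √⟪v', B' v'⟫
  have e3 : |a - b| ≤ 8 * ‖v - v'‖ + 4 * ‖B - B'‖ := by
    refine le_trans ?_ e2
    rw [sq_sub_sq, abs_mul, abs_of_nonneg (by linarith : 0 ≤ a + b)]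
    nlinarith [abs_nonneg (a - b)]
  have e4 : |a⁻¹ - b⁻¹| ≤ 4 * |a - b| := by
    rw [inv_sub_inv (by linarith) (by linarith), abs_div, abs_sub_comm,
      abs_of_pos (by positivity : 0 < a * b), div_le_iff₀ (by positivity)]
    nlinarith [mul_le_mul s1 s2 (by norm_num) (by linarith), abs_nonneg (a - b)]
  have e5 : a⁻¹ ≤ 2 := inv_le_of_inv_le₀ two_pos (by linarith)
  rw [show a⁻¹ • v - b⁻¹ • v' = a⁻¹ • (v - v') + (a⁻¹ - b⁻¹) • v' by
    rw [smul_sub, sub_smul]; abel]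
  refine (norm_add_le _ _).trans ?_
  rw [norm_smul, norm_smul, Real.norm_of_nonneg (by positivity), Real.norm_eq_abs]
  nlinarith [mul_le_mul e4 h2 (norm_nonneg _) (by positivity), norm_nonneg (v - v')]

/-- the graph at the unit scale -/
theorem graph_est (m : ℕ) {α : ℝ} (hα : α ∈ Ioo (0 : ℝ) 1) : ∃ σ > (0 : ℝ), ∃ C > (0 : ℝ),
    ∀ (S : Surf (m + 1)) (p e : E (m + 1)) (L : E m →ₗᵢ[ℝ] E (m + 1)), S.Ok →
      S.Bd p 8 (1 / 8) 1 → Fr e L → Tl S p e 8 σ → S.Φ p = 0 →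
      (∀ q ∈ ball p 8, ∀ q' ∈ ball p 8, S.Φ q = 0 → S.Φ q' = 0 →
        ‖S.n q - S.n q'‖ ≤ ‖q - q'‖ ^ α) →
      (∃ v : E m → ℝ, Smooth v ∧ C2H α C v ∧ (∀ y, ‖gradient v y‖ ≤ 1 / 2) ∧ Gr S p e L 2 v) ∧
      ∀ q ∈ ball p 1, ∀ q' ∈ ball p 1, S.Φ q = 0 → S.Φ q' = 0 →
        ‖S.n q - S.n q'‖ ≤ C * ‖q - q'‖ := by
  obtain ⟨C, hC⟩ := Gd.est m hα
  obtain ⟨K, hK⟩ := ((chi m).hasCompactSupport.fderiv ℝ).exists_bound_of_continuous
    (((chi m).contDiff (n := 1)).continuous_fderiv (by simp))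
  have hK0 : 0 ≤ K := (norm_nonneg _).trans (hK 0)
  refine ⟨1 / (8 + 16 * K), by positivity, |C| + 66 * (m * (m * |C|)) + 32, by positivity,
    fun S p e L hS hb h ht h0 ho => ?_⟩
  set σ := 1 / (8 + 16 * K) with hσ
  have hσ0 : 0 < σ := by positivity
  have hσ1 : σ * (8 + 16 * K) = 1 := by rw [hσ]; field_simp
  have hσ2 : σ ≤ 1 / 8 := by nlinarith
  obtain ⟨w, h1, h2, h3⟩ := Tl.graph (r := 4) (by norm_num; exact ht) hS h (by linarith) h0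
  let d : Gd m α := ⟨S, p, e, L, w, hS, hb, h, fun q hq h1 => (ht q hq h1).trans hσ2, ho, h1,
    fun y hy => ⟨(h2 y hy).1.trans (by nlinarith [norm_nonneg y]), (h2 y hy).2⟩,
    fun y y' hy hy' => (h3 y y' hy hy').trans (by nlinarith [norm_nonneg (y - y')])⟩
  have hv : ∀ y, ‖y‖ < 2 → d.v y = w y := fun y hy => by
    rw [Gd.v, (chi m).one_of_mem_closedBall (by simpa [chi] using hy.le), one_mul]
  have hG : Gr S p e L 2 d.v := fun y s hy hs => by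
    rw [hv y hy]; exact h1 y s (by linarith) (by linarith)
  have hg : ∀ y, ‖gradient d.v y‖ ≤ 1 / 2 := fun y => by
    rw [norm_gradient]
    rcases lt_or_ge 3 ‖y‖ with h4 | h4
    · rw [(d.v_ev h4).fderiv_eq]; simp
    have hy : ‖y‖ < 4 := by linarith
    have h5 : ‖fderiv ℝ w y‖ ≤ 2 * σ := norm_fderiv_le_of_lip' ℝ (by positivity)
      ((continuous_norm.continuousAt.eventually (gt_mem_nhds hy)).mono fun z hz => h3 z y hz hy)
    rw [show d.v = fun y => chi m y * w y from rfl, fderiv_fun_mul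
      (((chi m).contDiff (n := 1)).differentiable (by simp) y)
      ((h2 y hy).2.differentiableAt (by simp))]
    refine (norm_add_le _ _).trans ?_
    rw [norm_smul, norm_smul, Real.norm_of_nonneg (chi m).nonneg]
    have h6 : ‖w y‖ * ‖fderiv ℝ (chi m) y‖ ≤ 2 * σ * 3 * K := mul_le_mul
      ((h2 y hy).1.trans (by gcongr)) (hK y) (norm_nonneg _) (by positivity)
    nlinarith [mul_le_mul ((chi m).le_one (x := y)) h5 (norm_nonneg _) zero_le_one]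
  have hc := hC d
  have hC0 : C ≤ |C| + 66 * (m * (m * |C|)) + 32 := by
    have : 0 ≤ 66 * (m * (m * |C|)) := by positivity
    linarith [le_abs_self C]
  refine ⟨⟨d.v, d.sm_v, ⟨hc.1, Qe.mono hc.2.1 hC0, Qe.mono hc.2.2.1 hC0, Qe.mono hc.2.2.2 hC0⟩,
    hg, hG⟩, fun q hq q' hq' h4 h5 => ?_⟩
  have key : ∀ q ∈ ball p 1, S.Φ q = 0 → S.n q =
      (√⟪e - L (gradient d.v (adj L (q - p))), S.B q (e - L (gradient d.v (adj L (q - p))))⟫)⁻¹ •
        (e - L (gradient d.v (adj L (q - p)))) := fun q hq h4 => by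
    rw [mem_ball_iff_norm] at hq
    have a1 : ‖adj L (q - p)‖ < 2 := by linarith [h.norm_adj (q - p)]
    have a2 : |⟪e, q - p⟫| < 2 := by
      have := abs_real_inner_le_norm e (q - p)
      rw [h.one] at this; linarith
    have a3 : p + L (adj L (q - p)) + ⟪e, q - p⟫ • e = q := by
      rw [add_assoc, h.dec, add_sub_cancel]
    have a4 := (hG _ _ a1 a2).2.1 (by rwa [a3])
    have a5 := hG.n_eq hS h (d.sm_v.diff _) a1 (a4 ▸ a2)
    rwa [← a4, a3] at a5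
  have hm : ∀ q ∈ ball p 1, q ∈ ball p 8 := fun q hq => ball_subset_ball (by norm_num) hq
  have b1 : ∀ y, ‖e - L (gradient d.v y)‖ ≤ 2 := fun y => by
    linarith [norm_sub_le e (L (gradient d.v y)), h.one, L.norm_map (gradient d.v y), hg y]
  have b2 : ∀ q ∈ ball p 8, ∀ y, 1 / 4 ≤ ⟪e - L y, S.B q (e - L y)⟫ := fun q hq y => by
    have a1 := hb.B_lo hq (e - L y)
    have a2 := h.norm_sq (-y) 1
    rw [map_neg, one_smul, neg_add_eq_sub] at a2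
    nlinarith [sq_nonneg ‖-y‖]
  have b3 : ∀ q ∈ ball p 8, ∀ z, ‖S.B q z‖ ≤ 2 * ‖z‖ := fun q hq z =>
    (hb.B_hi hq z).trans (by gcongr; norm_num)
  rw [key q hq h4, key q' hq' h5]
  refine (nrm_lip (b1 _) (b1 _) (b2 _ (hm _ hq) _) (b2 _ (hm _ hq') _) (b3 _ (hm _ hq))
    (b3 _ (hm _ hq'))).trans ?_
  have b4 := hb.B_lip hS (hm _ hq) (hm _ hq')
  have b5 : ‖gradient d.v (adj L (q - p)) - gradient d.v (adj L (q' - p))‖ ≤
      m * (m * |C| * ‖q - q'‖) := norm_le_card _ fun i => by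
    have a1 := (norm_le_pi_norm _ i).trans (Qe.lip2 hc.1 (fun x => (hc.2.2.2.1 x).trans
      (le_abs_self C)) (adj L (q - p)) (adj L (q' - p)))
    rw [← map_sub, sub_sub_sub_cancel_right] at a1
    rw [PiLp.sub_apply, gradient_apply (d.sm_v.diff _), gradient_apply (d.sm_v.diff _)]
    exact a1.trans (by gcongr; exact h.norm_adj _)
  rw [sub_sub_sub_cancel_left, ← map_sub, L.norm_map, norm_sub_rev]
  nlinarith [mul_nonneg (abs_nonneg C) (norm_nonneg (q - q'))]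

theorem ph_shift {x y : E N} {c : ℝ} (hc : 0 < c) (hc1 : c ≤ 1 / 8) (hy : ‖y‖ ≤ c) :
    ph (‖x - y‖ ^ 2 / (1 - 2 * c) ^ 2) ≤ (1 + 2 * c) ^ 3 * ph (‖x - 0‖ ^ 2 / 1 ^ 2) := by
  rw [ph, ph, ← mul_pow, sub_zero, one_pow, div_one]
  refine pow_le_pow_left₀ (le_max_right _ _) (max_le ?_ (by positivity)) 3
  have h1 : (1 - c) * ‖x‖ ^ 2 - c ≤ ‖x - y‖ ^ 2 := by
    have h2 := norm_sub_sq_real x y
    have h3 := real_inner_le_norm x y
    nlinarith [sq_nonneg (‖x‖ - 1), norm_nonneg x, norm_nonneg y,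
      mul_le_mul_of_nonneg_left hy (norm_nonneg x), sq_nonneg ‖y‖]
  obtain ⟨k, hk⟩ : ∃ k, k = 1 / (1 - 2 * c) ^ 2 := ⟨_, rfl⟩
  have hp : 0 < (1 - 2 * c) ^ 2 := pow_pos (by linarith) 2
  have k1 : k * (1 - 2 * c) ^ 2 = 1 := by rw [hk, one_div_mul_cancel hp.ne']
  have k0 : 0 < k := by rw [hk]; positivity
  have k2 : k ≤ 2 := by nlinarith
  have k3 : 1 ≤ k * (1 - 2 * c) := by nlinarith [mul_pos k0 hc]
  rw [div_eq_mul_one_div, ← hk]
  have h4 : 1 - ‖x - y‖ ^ 2 * k ≤ (1 + k * c) * (1 - ‖x‖ ^ 2) := by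
    nlinarith [mul_le_mul_of_nonneg_left h1 k0.le, mul_le_mul_of_nonneg_right k3 (sq_nonneg ‖x‖)]
  refine h4.trans ((mul_le_mul_of_nonneg_left (le_max_left _ 0) (by positivity)).trans ?_)
  gcongr

/-- from one centre to all centres nearby -/
theorem near (m : ℕ) {δ : ℝ} (hδ : 0 < δ) : ∃ ε > (0 : ℝ), ∃ c > (0 : ℝ), c ≤ 1 / 8 ∧
    ∀ S : Surf (m + 1), S.Ok → S.Bd 0 4 ε ε → S.th 0 1 ≤ 1 + ε → ∀ y ∈ ball (0 : E (m + 1)) c,
      ∀ r, 0 < r → r ≤ 1 / 2 → S.th y r ≤ 1 + δ := by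
  obtain ⟨C, hC0, hC⟩ := mono m
  have hc : ContinuousAt (fun t : ℝ => Real.exp (C * t) *
      ((1 + 2 * t) ^ 3 / (1 - 2 * t) ^ m * (1 + 2 * t) + t)) 0 := by
    fun_prop (disch := simp)
  obtain ⟨t, t0, ht⟩ := Metric.eventually_nhds_iff.1
    (hc.eventually (gt_mem_nhds (show _ < 1 + δ by simpa using hδ)))
  set c := min (t / 2) (min (1 / 8) (1 / C)) with hcd
  have c0 : 0 < c := by positivity
  have c1 : c ≤ 1 / 8 := (min_le_right _ _).trans (min_le_left _ _)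
  have c2 : C * c ≤ 1 := by
    rw [mul_comm, ← le_div_iff₀ hC0]; exact (min_le_right _ _).trans (min_le_right _ _)
  have c3 := ht (y := c) (by
    rw [dist_zero_right, Real.norm_of_nonneg c0.le]
    linarith [min_le_left (t / 2) (min (1 / 8) (1 / C))])
  obtain ⟨η, η0, hη⟩ := cmp_of abd m c c0
  refine ⟨min η c, by positivity, c, c0, c1, fun S hS hb h1 y hy r r0 r1 => ?_⟩
  have e1 : min η c ≤ c := min_le_right _ _
  have e0 : 0 ≤ min η c := by positivity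
  have hy' : ‖y‖ ≤ c := by simpa using (mem_ball_zero_iff.1 hy).le
  have hr : 0 < 1 - 2 * c := by linarith
  have s1 : ball y (4 * (1 - 2 * c)) ⊆ ball 0 4 := ball_subset_ball' (by
    rw [dist_zero_right]; linarith)
  have a1 := (hC S 0 y 4 _ _ (1 - 2 * c) hS hb (by linarith)
    ((ball_subset_ball (by linarith)).trans s1)
    (by nlinarith [mul_nonneg hC0.le e0, mul_le_mul_of_nonneg_left e1 hC0.le])).1 r r0 (by linarith)
  have a2 := (abs_le.1 (hη S 0 y 4 _ _ (1 - 2 * c) hS hb (min_le_left _ _) hr s1 (by nlinarith))).2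
  have a3 := (abs_le.1 (hη S 0 0 4 _ _ 1 hS hb (min_le_left _ _) one_pos (by simp)
    (by linarith))).1
  have hcm := cm_pos m
  have a4 : (∫ x, ph (‖x - y‖ ^ 2 / (1 - 2 * c) ^ 2) ∂S.μ) ≤
      (1 + 2 * c) ^ 3 * ∫ x, ph (‖x - 0‖ ^ 2 / 1 ^ 2) ∂S.μ := by
    rw [← integral_const_mul]
    refine integral_mono_of_nonneg (Eventually.of_forall fun x => ph_nonneg _)
      ((hS.integrable (continuous_ph.comp (by fun_prop)) ?_).const_mul _)
      (Eventually.of_forall fun x => ph_shift c0 c1 hy')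
    simpa [Function.comp_def] using hcs_ph_norm
  have a5 : (∫ x, ph (‖x - y‖ ^ 2 / (1 - 2 * c) ^ 2) ∂S.μ) / (cm m * (1 - 2 * c) ^ m) ≤
      (1 + 2 * c) ^ 3 / (1 - 2 * c) ^ m * (1 + 2 * c) := by
    calc _ ≤ ((1 + 2 * c) ^ 3 * ∫ x, ph (‖x - 0‖ ^ 2 / 1 ^ 2) ∂S.μ) / (cm m * (1 - 2 * c) ^ m) := by
          gcongr
      _ = (1 + 2 * c) ^ 3 / (1 - 2 * c) ^ m *
          ((∫ x, ph (‖x - 0‖ ^ 2 / 1 ^ 2) ∂S.μ) / (cm m * 1 ^ m)) := by field_simp; ring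
      _ ≤ _ := by gcongr; linarith
  refine a1.trans (le_trans ?_ c3.le)
  have a6 := hS.th_nonneg y hr.le
  refine mul_le_mul (Real.exp_le_exp.2 ?_) (by linarith) a6 (Real.exp_pos _).le
  nlinarith [mul_nonneg hC0.le e0, mul_le_mul_of_nonneg_left e1 hC0.le]

end Vale.Agent.P366W
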