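import Vale.Agent.P366W.Ub
import Vale.Agent.P366W.White1

/-!
# P366W: uniform interior estimates of all orders
-/

open MeasureTheory Metric Filter Topology Set
open scoped ContDiff ENNReal RealInnerProductSpace
open Vale.Agent.P366.Stmt Vale.Agent.P366Y Vale.Agent.P366Z

noncomputable section

namespace Vale.Agent.P366W

variable {n k : ℕ} {ι : Type} {l : Filter ι} {x : E n} {α : ℝ} {v : ι → E n → ℝ}

theorem LH.pd (h : LH α l x (k + 1) v) (j : Fin n) : LH α l x k fun i => pd j (v i) :=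
  (h.2.lin (ContinuousLinearMap.apply ℝ ℝ (EuclideanSpace.single j 1))).congr
    (h.sm.diff.mono fun _ a => pd_eq a j)

theorem lh_of_pd (h0 : L0 α l x v) (h : ∀ j, LH α l x k fun i => pd j (v i)) :
    LH α l x (k + 1) v :=
  ⟨h0, (lh_sum Finset.univ fun j => (h j).smul (lh_const (c := fun _ =>
    (EuclideanSpace.proj j : E n →L[ℝ] ℝ)) (.of_forall fun _ => le_rfl))).congr
    (h0.1.diff.mono fun p a => by
      ext1 z
      rw [map_eq_sum]
      simp [pd_eq a, mul_comm])⟩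

theorem lh_pi {V : Type} [NormedAddCommGroup V] [NormedSpace ℝ V] {m : ℕ}
    {F : ι → E n → Fin m → V} (h : ∀ j, LH α l x k fun i y => F i y j) : LH α l x k F :=
  (lh_sum Finset.univ fun j => (h j).lin (ContinuousLinearMap.single ℝ (fun _ => V) j)).congr
    (.of_forall fun p => by simp [Finset.univ_sum_single])

theorem LH.ent {a : ι → E n → Mx n} (h : LH α l x k a) (i j : Fin n) :
    LH α l x k fun m y => a m y i j :=
  (h.lin (ContinuousLinearMap.proj i)).lin (ContinuousLinearMap.proj j)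

theorem LH.grad (h : LH α l x (k + 1) v) : LH α l x k fun i => gradient (v i) :=
  h.2.lin (InnerProductSpace.toDual ℝ (E n)).symm.toContinuousLinearEquiv.toContinuousLinearMap

theorem LH.inv {X : Type} [NormedAddCommGroup X] [NormedSpace ℝ X] {x : X} {φ : ι → X → ℝ}
    {t : ℝ} (h : LH α l x k φ) (ht : Tendsto (fun p : ι × X => φ p.1 p.2) (l ×ˢ 𝓝 x) (𝓝 t))
    (h0 : t ≠ 0) : LH α l x k fun i y => (φ i y)⁻¹ :=
  LH.comp (a := fun _ s => s⁻¹) (ub_smooth ((eventually_ne_nhds h0).mono fun _ a =>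
    contDiffAt_inv ℝ a)) h ht

theorem D2_mul {χ w : E n → ℝ} {y : E n} (hc : ContDiffAt ℝ 2 χ y) (hw : ContDiffAt ℝ 2 w y)
    (i j : Fin n) : D2 (fun y => χ y * w y) y i j = χ y * D2 w y i j +
      (pd i χ y * pd j w y + pd j χ y * pd i w y + pd i (pd j χ) y * w y) := by
  have h4 : pd j (fun y => χ y * w y) =ᶠ[𝓝 y] fun z => pd j χ z * w z + χ z * pd j w z :=
    ((hc.eventually (by simp)).and (hw.eventually (by simp))).mono fun z hz =>
      pd_mul (diff2 hz.1) (diff2 hz.2) j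
  rw [D2, D2, pd_congr h4, pd_add ((diffAt_pd hc j).fun_mul (diff2 hw))
    ((diff2 hc).fun_mul (diffAt_pd hw j)), pd_mul (diff2 hc) (diffAt_pd hw j),
    pd_mul (diffAt_pd hc j) (diff2 hw)]
  ring

theorem hcs_pd {f : E n → ℝ} (i : Fin n) (hf : HasCompactSupport f) (hs : Smooth f) :
    HasCompactSupport (pd i f) := by
  rw [show pd i _ = _ from funext fun x => pd_eq (hs.diff x) i]
  exact hf.fderiv_apply ℝ _

/-- the local estimate of Schauder for families -/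
theorem sch0 (hα : α ∈ Ioo (0 : ℝ) 1) {a : ι → E n → Mx n} {Λ : ℝ} (ha : LH α l x 0 a)
    (hE : ∀ᶠ p in l ×ˢ 𝓝 x, El Λ (a p.1 p.2)) (hv : LH α l x 1 v)
    (hb : LH α l x 0 fun i y => pr2 (a i y) (D2 (v i) y)) : LH α l x 2 v := by
  let F := fun i y => (a i y, v i y, D1 (v i) y, pr2 (a i y) (D2 (v i) y))
  obtain ⟨-, A, A0, hA⟩ : LH α l x 0 F := ha.prodMk (hv.pred.prodMk ((lh_pi (F := fun i => D1 (v i))
    hv.pd).prodMk hb))
  obtain ⟨r₁, r1, h1⟩ := ev_ball2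
    (P := fun i y z => ‖F i y‖ ≤ A ∧ ‖F i y - F i z‖ ≤ A * ‖y - z‖ ^ α) hA
  obtain ⟨r₂, r2, h2⟩ := ev_ball (P := fun i y => El Λ (a i y) ∧ ContDiffAt ℝ ∞ (v i) y)
    (hE.and hv.sm)
  obtain ⟨r, r0, r3, r4⟩ : ∃ r > (0 : ℝ), 4 * r ≤ r₁ ∧ 4 * r ≤ r₂ := ⟨min r₁ r₂ / 4, by positivity,
    by linarith [min_le_left r₁ r₂], by linarith [min_le_right r₁ r₂]⟩
  obtain ⟨s, hs, h3⟩ := (h1.and h2).exists_mem
  let χ : ContDiffBump x := ⟨r, 2 * r, r0, by linarith⟩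
  let ρ : ContDiffBump x := ⟨2 * r, 3 * r, by linarith, by linarith⟩
  let R : E n → E n := fun y => x + ρ y • (y - x)
  have R1 : ∀ y, dist y x ≤ 2 * r → R y = y := fun y hy => by
    simp only [R, ρ.one_of_mem_closedBall hy, one_smul, add_sub_cancel]
  have R2 : ∀ y, R y ∈ ball x (4 * r) := fun y => by
    rw [mem_ball_iff_norm, add_sub_cancel_left, norm_smul, Real.norm_of_nonneg ρ.nonneg,
      ← dist_eq_norm]
    rcases le_total (3 * r) (dist y x) with h | h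
    · rw [ρ.zero_of_le_dist h]; linarith
    · nlinarith [ρ.le_one (x := y), dist_nonneg (x := y) (y := x)]
  obtain ⟨K, hK⟩ := ContDiff.lipschitzWith_of_hasCompactSupport (f := fun y => ρ y • (y - x))
    (hcs_r _ ρ.hasCompactSupport) (ρ.contDiff.smul (contDiff_id.sub contDiff_const)) one_ne_zero
  have hU : UH α fun (i : s) y => F i (R y) := by
    have k0 : 0 ≤ (K : ℝ) ^ α := by positivity
    refine ⟨A + A * K ^ α, fun i => ⟨fun y => ((h3 i i.2).1 _ (ball_subset_ball r3 (R2 y)) _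
      (ball_subset_ball r3 (R2 y))).1.trans (le_add_of_nonneg_right (by positivity)),
      fun y z => ((h3 i i.2).1 _ (ball_subset_ball r3 (R2 y)) _
        (ball_subset_ball r3 (R2 z))).2.trans ?_⟩⟩
    have a1 : ‖R y - R z‖ ^ α ≤ K ^ α * ‖y - z‖ ^ α := by
      rw [← Real.mul_rpow K.coe_nonneg (norm_nonneg _)]
      refine Real.rpow_le_rpow (norm_nonneg _) ?_ hα.1.le
      simpa [dist_eq_norm, R] using hK.dist_le_mul y z
    nlinarith [mul_le_mul_of_nonneg_left a1 A0, mul_nonneg A0 (Qe.rp y z α)]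
  have u1 : UH α fun (i : s) y => a i (R y) := hU.lin (.fst ℝ _ _)
  have u2 : UH α fun (i : s) y => v i (R y) := (hU.lin (.snd ℝ _ _)).lin (.fst ℝ _ _)
  have u3 : ∀ j, UH α fun (i : s) y => pd j (v i) (R y) := fun j =>
    (((hU.lin (.snd ℝ _ _)).lin (.snd ℝ _ _)).lin (.fst ℝ _ _)).lin (.proj j)
  have u4 : UH α fun (i : s) y => pr2 (a i (R y)) (D2 (v i) (R y)) :=
    ((hU.lin (.snd ℝ _ _)).lin (.snd ℝ _ _)).lin (.snd ℝ _ _)
  have sχ : Smooth (χ : E n → ℝ) := χ.contDiff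
  have c0 : UH α fun (_ : s) y => χ y := UH.smooth hα (sχ.of_le (by simp)) χ.hasCompactSupport
  have c1 : ∀ i, UH α fun (_ : s) y => pd i χ y := fun i =>
    UH.smooth hα ((sχ.pd i).of_le (by simp)) (hcs_pd i χ.hasCompactSupport sχ)
  have c2 : ∀ i j, UH α fun (_ : s) y => pd i (pd j χ) y := fun i j => UH.smooth hα
    (((sχ.pd j).pd i).of_le (by simp)) (hcs_pd i (hcs_pd j χ.hasCompactSupport sχ) (sχ.pd j))
  have z0 : ∀ y, 2 * r < dist y x → (χ : E n → ℝ) =ᶠ[𝓝 y] fun _ => 0 := fun y hy =>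
    ((continuous_id.dist continuous_const).continuousAt.eventually (lt_mem_nhds hy)).mono
      fun z hz => χ.zero_of_le_dist hz.le
  have z1 : ∀ i y, 2 * r < dist y x → (fun y => χ y * v i y) =ᶠ[𝓝 y] fun _ => 0 := fun i y hy =>
    (z0 y hy).mono fun z hz => by simp only [hz, zero_mul]
  have z2 : ∀ {f : E n → ℝ} {y}, (f =ᶠ[𝓝 y] fun _ => 0) → ∀ i j, pd i (pd j f) y = 0 :=
    fun hf i j => by
      rw [pd_congr (pd_congr_ev hf j),
        show pd j (fun _ : E n => (0 : ℝ)) = fun _ => 0 from funext (pd_const 0 j), pd_const]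
  have sv : ∀ (i : s) y, dist y x ≤ 2 * r → ContDiffAt ℝ ∞ (v i) y := fun i y hy =>
    ((h3 i i.2).2 y (mem_ball.2 (by linarith))).2
  have sV : ∀ i : s, Smooth fun y => χ y * v i y := fun i => contDiff_iff_contDiffAt.2 fun y => by
    rcases lt_or_ge (2 * r) (dist y x) with h | h
    · exact contDiffAt_const.congr_of_eventuallyEq (z1 i y h)
    · exact χ.contDiffAt.mul (sv i y h)
  obtain ⟨A₁, k1⟩ : UH α fun (i : s) => D1 fun y => χ y * v i y :=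
    UH.pi fun j => (((c1 j).mul u2).add (c0.mul (u3 j))).congr fun i y => by
      rcases lt_or_ge (2 * r) (dist y x) with h | h
      · rw [D1, pd_congr (z1 i y h), pd_congr (z0 y h), (z0 y h).eq_of_nhds, pd_const]; ring
      · rw [R1 y h]; exact pd_mul (sχ.diff y) ((sv i y h).differentiableAt (by simp)) j
  obtain ⟨A₂, k2⟩ : UH α fun (i : s) y => pr2 (a i (R y)) (D2 (fun y => χ y * v i y) y) := by
    refine ((c0.mul u4).add (UH.sum Finset.univ fun j => UH.sum Finset.univ fun m =>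
      ((u1.lin (.proj j)).lin (.proj m)).mul ((((c1 j).mul (u3 m)).add ((c1 m).mul (u3 j))).add
        ((c2 j m).mul u2)))).congr fun i y => ?_
    rcases lt_or_ge (2 * r) (dist y x) with h | h
    · simp [pr2, D2, z2 (z1 i y h), z2 (z0 y h), pd_congr (z0 y h), pd_const, (z0 y h).eq_of_nhds]
    · simp only [R1 y h, pr2, D2_mul (sχ.two.contDiffAt) ((sv i y h).of_le two_le_inf),
        Finset.mul_sum, ← Finset.sum_add_distrib, ContinuousLinearMap.proj_apply]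
      exact Finset.sum_congr rfl fun _ _ => Finset.sum_congr rfl fun _ _ => by ring
  obtain ⟨A₃, k3⟩ := u1
  obtain ⟨C, C0, hC⟩ := usch n α (max Λ A₃) hα
  have key : ∀ i : s, Ho α (C * (A₁ + A₂)) (D2 fun y => χ y * v i y) := fun i => by
    refine hC _ _ A₁ A₂ (fun y => ?_) (Qe.mono (k3 i) (le_max_right _ _)) (sV i).two ?_ (k1 i).1
      (k2 i)
    · obtain ⟨e1, e2, e3⟩ := ((h3 i i.2).2 _ (ball_subset_ball r4 (R2 y))).1
      refine ⟨e1, fun j m => (e2 j m).trans (le_max_left _ _), fun ξ => ?_⟩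
      have a1 : 0 ≤ P366Y.e2 ξ := Finset.sum_nonneg fun _ _ => sq_nonneg _
      rcases isEmpty_or_nonempty (Fin n) with h | ⟨⟨j⟩⟩
      · simp [P366Y.e2]
      have a2 : 0 ≤ Λ := (abs_nonneg _).trans (e2 j j)
      rcases a2.eq_or_lt with h | h
      · have : ∀ j m, a i (R y) j m = 0 := fun j m => abs_nonpos_iff.1 ((e2 j m).trans h.ge)
        simpa [this] using e3 ξ
      exact (e3 ξ).trans (mul_le_mul_of_nonneg_right (le_max_left _ _)
        (nonneg_of_mul_nonneg_right (a1.trans (e3 ξ)) h))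
    · have hc : HasCompactSupport fun y => χ y * v i y := χ.hasCompactSupport.mul_right
      obtain ⟨K, hK⟩ : UH α fun (_ : Unit) => D2 fun y => χ y * v i y := UH.pi fun j =>
        UH.pi fun m => UH.smooth hα ((((sV i).pd m).pd j).of_le (by simp))
          (hcs_pd j (hcs_pd m hc (sV i)) ((sV i).pd m))
      exact ⟨K, hK ()⟩
  have e1 : ∀ i, ∀ y ∈ ball x r, D2 (fun y => χ y * v i y) y = D2 (v i) y := fun i y hy => by
    funext j m
    exact pd_congr (pd_congr_ev ((χ.eventuallyEq_one_of_mem_ball hy).mono fun z hz => by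
      simp [hz]) m) j
  refine lh_of_pd hv.1 fun m => lh_of_pd (hv.pd m) fun j => ⟨(hv.pd m).sm.mono fun p a =>
    contDiffAt_pd a le_rfl j, |C * (A₁ + A₂)|, abs_nonneg _, ev_of_ball2 (P := fun i y z =>
      ‖pd j (pd m (v i)) y‖ ≤ _ ∧ ‖pd j (pd m (v i)) y - pd j (pd m (v i)) z‖ ≤ _ * ‖y - z‖ ^ α)
      (ball_mem_nhds x r0) (mem_of_superset hs fun i hi y hy z hz => ?_)⟩
  obtain ⟨b1, b2⟩ := Qe.mono (key ⟨i, hi⟩) (le_abs_self _)
  have b3 := b1 y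
  have b4 := b2 y z
  rw [e1 i y hy] at b3 b4
  rw [e1 i z hz] at b4
  exact ⟨((norm_le_pi_norm (D2 (v i) y j) m).trans (norm_le_pi_norm _ j)).trans b3,
    ((norm_le_pi_norm ((D2 (v i) y - D2 (v i) z) j) m).trans (norm_le_pi_norm _ j)).trans b4⟩

/-- the estimates of Schauder of higher order -/
theorem sch (hα : α ∈ Ioo (0 : ℝ) 1) {a : ι → E n → Mx n} {Λ : ℝ} (ha : LH α l x k a)
    (hE : ∀ᶠ p in l ×ˢ 𝓝 x, El Λ (a p.1 p.2)) (hv : LH α l x 1 v)
    (hb : LH α l x k fun i y => pr2 (a i y) (D2 (v i) y)) : LH α l x (k + 2) v := by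
  induction k generalizing v with
  | zero => exact sch0 hα ha hE hv hb
  | succ k ih =>
    have h1 := ih ha.pred hv hb.pred
    refine lh_of_pd hv.1 fun m => ih ha.pred ((h1.mono (by omega : 1 + 1 ≤ _)).pd m)
      (((hb.pd m).sub (lh_sum Finset.univ fun i => lh_sum Finset.univ fun j =>
        ((ha.ent i j).pd m).mul ((h1.pd j).pd i))).congr ?_)
    filter_upwards [eventually_all.2 fun i => eventually_all.2 fun j => (ha.ent i j).sm.diff,
      ev_nh (P := fun i y => ContDiffAt ℝ ∞ (v i) y) hv.sm] with p b c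
    have d1 : ∀ j, ContDiffAt ℝ ∞ (pd j (v p.1)) p.2 := fun j =>
      contDiffAt_pd c.self_of_nhds le_rfl j
    have d2 : ∀ i j, DifferentiableAt ℝ (pd i (pd j (v p.1))) p.2 := fun i j =>
      diffAt_pd ((d1 j).of_le two_le_inf) i
    simp only [pr2, D2]
    rw [pd_sum _ fun i _ => DifferentiableAt.fun_sum fun j _ => (b i j).fun_mul (d2 i j),
      ← Finset.sum_sub_distrib]
    refine Finset.sum_congr rfl fun i _ => ?_
    rw [pd_sum _ fun j _ => (b i j).fun_mul (d2 i j), ← Finset.sum_sub_distrib]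
    refine Finset.sum_congr rfl fun j _ => ?_
    rw [pd_mul (b i j) (d2 i j), pd_comm ((d1 j).of_le two_le_inf) m i,
      pd_congr (c.mono fun z hz => pd_comm (hz.of_le two_le_inf) m j)]
    ring

theorem el_of_lim {Z : Type} {F : Filter Z} {A : Z → Mx n} {A₀ : Mx n} (ht : Tendsto A F (𝓝 A₀))
    (hs : ∀ᶠ p in F, ∀ i j, A p i j = A p j i)
    (h0 : ∀ ξ : Vc n, ξ ≠ 0 → 0 < ∑ i, ∑ j, A₀ i j * ξ i * ξ j) : ∃ Λ, ∀ᶠ p in F, El Λ (A p) := by
  obtain ⟨c, c0, hc⟩ := (isCompact_sphere (0 : Vc n) 1).exists_forall_le'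
    (f := fun ξ => ∑ i, ∑ j, A₀ i j * ξ i * ξ j) (by fun_prop) fun ξ hξ => h0 ξ
      (by rintro rfl; simp at hξ)
  have h1 : ∀ ξ : Vc n, c * ‖ξ‖ ^ 2 ≤ ∑ i, ∑ j, A₀ i j * ξ i * ξ j := fun ξ => by
    by_cases h : ξ = 0
    · simp [h]
    have h2 := norm_pos_iff.2 h
    refine (mul_le_mul_of_nonneg_right (hc (‖ξ‖⁻¹ • ξ) (by simp [norm_smul, h2.ne']))
      (sq_nonneg _)).trans_eq ?_
    simp only [Finset.sum_mul, Pi.smul_apply, smul_eq_mul]
    exact Finset.sum_congr rfl fun i _ => Finset.sum_congr rfl fun j _ => by field_simp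
  obtain ⟨δ, δ0, δ1, δ2⟩ : ∃ δ > (0 : ℝ), δ ≤ 1 ∧ n * (n * δ) ≤ c / 2 := by
    refine ⟨min 1 (c / 2 / (n * n + 1)), by positivity, min_le_left _ _, ?_⟩
    have := (le_div_iff₀ (by positivity)).1 (min_le_right 1 (c / 2 / (n * n + 1)))
    nlinarith [lt_min one_pos (show 0 < c / 2 / (n * n + 1) by positivity)]
  refine ⟨‖A₀‖ + 1 + 2 * n / c, ?_⟩
  filter_upwards [hs, Metric.tendsto_nhds.1 ht δ δ0] with p a b
  rw [dist_eq_norm] at b
  have n0 : 0 ≤ 2 * n / c := by positivity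
  refine ⟨a, fun i j => ((norm_le_pi_norm (A p i) j).trans (norm_le_pi_norm _ i)).trans
    (by linarith [norm_le_insert' (A p) A₀]), fun ξ => ?_⟩
  have a1 := (abs_le.1 (Qe.pr2_le (A p - A₀) fun i j => ξ i * ξ j)).1
  have a2 : ‖fun i j => ξ i * ξ j‖ ≤ ‖ξ‖ ^ 2 := (pi_norm_le_iff_of_nonneg (by positivity)).2 fun i =>
    (pi_norm_le_iff_of_nonneg (by positivity)).2 fun j => by
      rw [norm_mul, pow_two]; gcongr <;> exact norm_le_pi_norm _ _
  have a3 : P366Y.e2 ξ ≤ n * ‖ξ‖ ^ 2 := (Finset.sum_le_sum (g := fun _ => ‖ξ‖ ^ 2) fun i _ => by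
    rw [← sq_abs]; gcongr; exact norm_le_pi_norm ξ i).trans_eq (by simp)
  have a4 : n * (n * (‖A p - A₀‖ * ‖fun i j => ξ i * ξ j‖)) ≤ n * (n * (δ * ‖ξ‖ ^ 2)) := by
    gcongr
  rw [Qe.pr2_sub'] at a1
  simp only [pr2, ← mul_assoc] at a1 a4
  have a5 : c / 2 * ‖ξ‖ ^ 2 ≤ ∑ i, ∑ j, A p i j * ξ i * ξ j := by
    nlinarith [h1 ξ, mul_le_mul_of_nonneg_right δ2 (sq_nonneg ‖ξ‖)]
  refine a3.trans (le_trans ?_ (mul_le_mul (by linarith [norm_nonneg A₀] : 2 * n / c ≤ _) a5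
    (by positivity) (by positivity)))
  exact le_of_eq (by field_simp)

/-- **UREG** -/
theorem ureg (hα : α ∈ Ioo (0 : ℝ) 1) {a : ι → E n × ℝ × E n → Mx n} {b : ι → E n × ℝ × E n → ℝ}
    {j₀ : E n × ℝ × E n} {Λ : ℝ} (hv : LH α l x 1 v) (ha : UB l j₀ a) (hb : UB l j₀ b)
    (ht : Tendsto (fun p : ι × E n => (p.2, v p.1 p.2, gradient (v p.1) p.2)) (l ×ˢ 𝓝 x) (𝓝 j₀))
    (hE : ∀ᶠ p in l ×ˢ 𝓝 x, El Λ (a p.1 (p.2, v p.1 p.2, gradient (v p.1) p.2)))
    (he : ∀ᶠ p in l ×ˢ 𝓝 x, pr2 (a p.1 (p.2, v p.1 p.2, gradient (v p.1) p.2)) (D2 (v p.1) p.2) =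
      b p.1 (p.2, v p.1 p.2, gradient (v p.1) p.2)) : UB l x v := by
  have key : ∀ k, LH α l x (k + 1) v := fun k => by
    induction k with
    | zero => exact hv
    | succ k ih =>
      have hJ : LH α l x k fun i y => (y, v i y, gradient (v i) y) :=
        ((ub_smooth (.of_forall fun _ => contDiffAt_id)).lh hα.2.le k).prodMk
          (ih.pred.prodMk ih.grad)
      exact sch hα (LH.comp ha hJ ht) hE hv ((LH.comp hb hJ ht).congr he)
  exact ub_of_lh fun k => (key k).pred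

theorem LH.inner {X : Type} [NormedAddCommGroup X] [NormedSpace ℝ X] {x : X} {f g : ι → X → E n}
    (hf : LH α l x k f) (hg : LH α l x k g) : LH α l x k fun i y => ⟪f i y, g i y⟫ :=
  (hf.lin (innerSL ℝ)).app hg

theorem lh_c {X V : Type} [NormedAddCommGroup X] [NormedSpace ℝ X] [NormedAddCommGroup V]
    [NormedSpace ℝ V] {x : X} (c : V) : LH α l x k fun _ _ => c :=
  lh_const (c := fun _ => c) (.of_forall fun _ => le_rfl)

theorem td_app {Z V W : Type} [NormedAddCommGroup V] [NormedSpace ℝ V] [NormedAddCommGroup W]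
    [NormedSpace ℝ W] {F : Filter Z} {B : Z → V →L[ℝ] W} {B₀ : V →L[ℝ] W} {u : Z → V} {u₀ : V}
    (hB : Tendsto B F (𝓝 B₀)) (hu : Tendsto u F (𝓝 u₀)) :
    Tendsto (fun z => B z (u z)) F (𝓝 (B₀ u₀)) :=
  (isBoundedBilinearMap_apply.continuous.tendsto _).comp (hB.prodMk_nhds hu)

section Srf

variable {m : ℕ} {S : ι → Surf (m + 1)} {p e x₀ n₀ : E (m + 1)} {L : E m →ₗᵢ[ℝ] E (m + 1)}
  {c t₀ a₀ K : ℝ} {w : ι → E m → ℝ} {y₀ q₀ : E m} {h : ι → E (m + 1) → ℝ}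
  {B₀ : E (m + 1) →L[ℝ] E (m + 1)}

theorem gam_pos (hF : Fr e L) (s0 : ∀ u v, ⟪B₀ u, v⟫ = ⟪u, B₀ v⟫) (s1 : ⟪n₀, B₀ n₀⟫ = 1)
    (B0 : ∀ v, v ≠ 0 → 0 < ⟪v, B₀ v⟫) (n0 : 0 < ⟪n₀, e⟫) {ξ : Vc m} (hξ : ξ ≠ 0) :
    0 < ∑ i, ∑ j, (⟪L (EuclideanSpace.single i 1), B₀ (L (EuclideanSpace.single j 1))⟫ -
      ⟪B₀ n₀, L (EuclideanSpace.single i 1)⟫ * ⟪B₀ n₀, L (EuclideanSpace.single j 1)⟫) *
        ξ i * ξ j := by
  obtain ⟨z, hz⟩ : ∃ z : E m, z = WithLp.toLp 2 ξ := ⟨_, rfl⟩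
  have a1 : L z = ∑ i, ξ i • L (EuclideanSpace.single i 1) := by
    conv_lhs => rw [← sum_single z, map_sum]
    simp [hz]
  have a4 : ⟪L z - ⟪B₀ n₀, L z⟫ • n₀, B₀ (L z - ⟪B₀ n₀, L z⟫ • n₀)⟫ =
      ⟪L z, B₀ (L z)⟫ - ⟪B₀ n₀, L z⟫ * ⟪B₀ n₀, L z⟫ := by
    simp only [map_sub, map_smul, inner_sub_left, inner_sub_right, real_inner_smul_left,
      real_inner_smul_right, s1, ← s0 n₀, real_inner_comm (B₀ n₀) (L z)]
    ring
  refine (B0 (L z - ⟪B₀ n₀, L z⟫ • n₀) fun h0 => hξ ?_).trans_eq ?_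
  · have a3 := congrArg (fun u => ⟪e, u⟫) h0
    simp only [inner_sub_right, hF.ort, real_inner_smul_right, inner_zero_right, zero_sub,
      neg_eq_zero, mul_eq_zero, real_inner_comm n₀ e, n0.ne', or_false] at a3
    rw [a3, zero_smul, sub_zero, ← map_zero L] at h0
    simpa [hz] using L.injective h0
  rw [a4, a1]
  simp only [map_sum, map_smul, sum_inner, inner_sum, real_inner_smul_left,
    real_inner_smul_right, Finset.sum_mul, Finset.mul_sum, ← Finset.sum_sub_distrib]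
  rw [Finset.sum_comm]
  exact Finset.sum_congr rfl fun i _ => Finset.sum_congr rfl fun j _ => by ring

theorem gam_el {Z : Type} {F : Filter Z} [F.NeBot] {T : Z → Surf (m + 1)} {x : Z → E (m + 1)}
    (hF : Fr e L) (ok : ∀ᶠ q in F, (T q).Ok) (tB : Tendsto (fun q => (T q).B (x q)) F (𝓝 B₀))
    (tn : Tendsto (fun q => (T q).n (x q)) F (𝓝 n₀)) (B0 : ∀ v, v ≠ 0 → 0 < ⟪v, B₀ v⟫)
    (n0 : 0 < ⟪n₀, e⟫) : ∃ Λ, ∀ᶠ q in F, El Λ ((T q).gam L (x q)) := by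
  have tν : Tendsto (fun q => (T q).ν (x q)) F (𝓝 (B₀ n₀)) := td_app tB tn
  have tb := fun v : E (m + 1) => td_app tB (tendsto_const_nhds (x := v))
  have s0 : ∀ u v, ⟪B₀ u, v⟫ = ⟪u, B₀ v⟫ := fun u v => tendsto_nhds_unique_of_eventuallyEq
    ((tb u).inner (𝕜 := ℝ) (tendsto_const_nhds (x := v)))
    ((tendsto_const_nhds (x := u)).inner (𝕜 := ℝ) (tb v)) (ok.mono fun q a => a.sym _ _ _)
  have s1 : ⟪n₀, B₀ n₀⟫ = 1 := tendsto_nhds_unique_of_eventuallyEq (tn.inner (𝕜 := ℝ) tν)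
    tendsto_const_nhds (ok.mono fun q a => a.nν _)
  refine el_of_lim (tendsto_pi_nhds.2 fun i => tendsto_pi_nhds.2 fun j =>
    (tendsto_const_nhds.inner (tb _)).sub ((tν.inner tendsto_const_nhds).mul
      (tν.inner tendsto_const_nhds))) (ok.mono fun q a i j => ?_)
    fun ξ hξ => gam_pos hF s0 s1 B0 n0 hξ
  simp only [Surf.gam]
  rw [← a.sym, real_inner_comm, mul_comm]

theorem lh_rhs {X : ι → E m → E (m + 1)} (n1 : LH α l y₀ k fun i y => (S i).n (X i y))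
    (b0 : LH α l y₀ k fun i y => (S i).B (X i y))
    (b1 : LH α l y₀ k fun i y => fderiv ℝ (S i).B (X i y))
    (a0 : LH α l y₀ k fun i y => ((S i).a (X i y))⁻¹)
    (a1 : LH α l y₀ k fun i y => fderiv ℝ (S i).a (X i y))
    (h0 : LH α l y₀ k fun i y => (S i).H (X i y)) :
    (LH α l y₀ k fun i y => (S i).rhs (X i y)) ∧ LH α l y₀ k fun i y => (S i).gam L (X i y) := by
  have ν1 : LH α l y₀ k fun i y => (S i).ν (X i y) := b0.app n1
  refine ⟨((((lh_sum Finset.univ fun j => ((b1.app ((lh_c (EuclideanSpace.single j 1)).sub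
    ((n1.inner (lh_c (EuclideanSpace.single j 1))).smul ν1))).app n1).lin
      (EuclideanSpace.proj j)).add ((n1.inner ((b1.app ν1).app n1)).mul (lh_c (2 : ℝ)⁻¹))).add
    (a0.mul (a1.app ν1))).sub h0).congr (.of_forall fun q => ?_), lh_pi fun i => lh_pi fun j =>
      ((lh_c _).inner (b0.app (lh_c _))).sub ((ν1.inner (lh_c _)).mul (ν1.inner (lh_c _)))⟩
  simp [Surf.rhs, trc, Surf.P_apply, div_eq_mul_inv]

theorem lh_n {B : ι → E m → E (m + 1) →L[ℝ] E (m + 1)} {q : ι → E m → E m} (hF : Fr e L)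
    (b0 : LH α l y₀ k B) (q0 : LH α l y₀ k q)
    (tB : Tendsto (fun z : ι × E m => B z.1 z.2) (l ×ˢ 𝓝 y₀) (𝓝 B₀))
    (tq : Tendsto (fun z : ι × E m => q z.1 z.2) (l ×ˢ 𝓝 y₀) (𝓝 q₀))
    (B0 : ∀ v, v ≠ 0 → 0 < ⟪v, B₀ v⟫) :
    LH α l y₀ k fun i y => (√⟪e - L (q i y), B i y (e - L (q i y))⟫)⁻¹ • (e - L (q i y)) := by
  have u0 : LH α l y₀ k fun i y => e - L (q i y) := (lh_c e).sub (q0.lin L.toContinuousLinearMap)
  have tu : Tendsto (fun z : ι × E m => e - L (q z.1 z.2)) (l ×ˢ 𝓝 y₀) (𝓝 (e - L q₀)) :=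
    tendsto_const_nhds.sub ((L.continuous.tendsto _).comp tq)
  exact (LH.comp (a := fun _ s => (√s)⁻¹) (ub_smooth ((eventually_gt_nhds (B0 _ (hF.ne q₀))).mono
    fun s a => (Real.contDiffAt_sqrt a.ne').inv (Real.sqrt_pos.2 a).ne')) (u0.inner (b0.app u0))
    (tu.inner (td_app tB tu))).smul u0

/-- uniform estimates of all orders for surfaces which are graphs -/
theorem sreg (hF : Fr e L) (ok : ∀ᶠ i in l, (S i).Ok ∧
      Gr (S i) p e L c (w i) ∧ ∀ y, ‖y‖ < c → ContDiffAt ℝ ∞ (w i) y) (hy : ‖y₀‖ < c)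
    (ht : |t₀| < c) (hx : x₀ = p + L y₀ + t₀ • e)
    (hw : Tendsto (fun q : ι × E m => w q.1 q.2) (l ×ˢ 𝓝 y₀) (𝓝 t₀))
    (hB : UB l x₀ fun i => (S i).B) (ha : UB l x₀ fun i => (S i).a) (hh : UB l x₀ h)
    (cB : Tendsto (fun q : ι × E (m + 1) => (S q.1).B q.2) (l ×ˢ 𝓝 x₀) (𝓝 B₀))
    (B0 : ∀ v, v ≠ 0 → 0 < ⟪v, B₀ v⟫)
    (ca : Tendsto (fun q : ι × E (m + 1) => (S q.1).a q.2) (l ×ˢ 𝓝 x₀) (𝓝 a₀)) (a0 : a₀ ≠ 0)
    (hH : ∀ᶠ q in l ×ˢ 𝓝 x₀, (S q.1).Φ q.2 = 0 → (S q.1).H q.2 = h q.1 q.2)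
    (hn : ∀ᶠ q in l ×ˢ (𝓝 x₀ ×ˢ 𝓝 x₀), (S q.1).Φ q.2.1 = 0 → (S q.1).Φ q.2.2 = 0 →
      ‖(S q.1).n q.2.1 - (S q.1).n q.2.2‖ ≤ K * ‖q.2.1 - q.2.2‖)
    (cn : Tendsto (fun q : ι × E (m + 1) => (S q.1).n q.2)
      ((l ×ˢ 𝓝 x₀) ⊓ 𝓟 {q | (S q.1).Φ q.2 = 0}) (𝓝 n₀)) (n0 : 0 < ⟪n₀, e⟫) : UB l y₀ w := by
  rcases l.eq_or_neBot with rfl | _
  · exact ⟨by simp [SM], fun _ => ⟨0, by simp⟩⟩
  obtain ⟨α, hα⟩ : ∃ α, α ∈ Ioo (0 : ℝ) 1 := ⟨1 / 2, by norm_num, by norm_num⟩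
  obtain ⟨X, dX⟩ : ∃ X : ι → E m → E (m + 1), X = fun i y => p + L y + w i y • e := ⟨_, rfl⟩
  have dX' : ∀ i y, p + L y + w i y • e = X i y := fun i y => by rw [dX]
  have tX : Tendsto (fun q : ι × E m => X q.1 q.2) (l ×ˢ 𝓝 y₀) (𝓝 x₀) := by
    rw [dX, hx]
    exact (tendsto_const_nhds.add ((L.continuous.tendsto _).comp tendsto_snd)).add (hw.smul_const e)
  have t1 : Tendsto (fun q : ι × E m => (q.1, X q.1 q.2)) (l ×ˢ 𝓝 y₀) (l ×ˢ 𝓝 x₀) :=
    tendsto_fst.prodMk tX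
  have ev : ∀ᶠ q in l ×ˢ 𝓝 y₀, (S q.1).Ok ∧ Gr (S q.1) p e L c (w q.1) ∧
      ContDiffAt ℝ ∞ (w q.1) q.2 ∧ ‖q.2‖ < c ∧ |w q.1 q.2| < c := by
    filter_upwards [tendsto_fst.eventually ok, (tendsto_snd.norm).eventually (gt_mem_nhds hy),
      hw.abs.eventually (gt_mem_nhds ht)] with q a1 a2 a3
    exact ⟨a1.1, a1.2.1, a1.2.2 _ a2, a2, a3⟩
  have e0 : ∀ᶠ q in l ×ˢ 𝓝 y₀, (S q.1).Φ (X q.1 q.2) = 0 :=
    ev.mono fun q a => dX' q.1 q.2 ▸ (a.2.1 _ _ a.2.2.2.1 a.2.2.2.2).2.2 rfl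
  have sw : SM l y₀ w := ev.mono fun _ a => a.2.2.1
  have tn : Tendsto (fun q : ι × E m => (S q.1).n (X q.1 q.2)) (l ×ˢ 𝓝 y₀) (𝓝 n₀) := by
    simpa only [Function.comp_def] using cn.comp (tendsto_inf.2 ⟨t1, tendsto_principal.2 e0⟩)
  have te := tn.inner (𝕜 := ℝ) (tendsto_const_nhds (x := e))
  have tB : Tendsto (fun q : ι × E m => (S q.1).B (X q.1 q.2)) (l ×ˢ 𝓝 y₀) (𝓝 B₀) := cB.comp t1
  have ep : ∀ j, ∀ᶠ q in l ×ˢ 𝓝 y₀, pd j (w q.1) q.2 = (⟪(S q.1).n (X q.1 q.2), e⟫)⁻¹ *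
      -⟪(S q.1).n (X q.1 q.2), L (EuclideanSpace.single j 1)⟫ := fun j => by
    filter_upwards [ev, te.eventually (lt_mem_nhds n0)] with q a1 a2
    have := a1.2.1.grad_eq a1.1 hF (a1.2.2.1.differentiableAt (by simp)) a1.2.2.2.1 a1.2.2.2.2 j
    rw [dX'] at this
    rw [← this, inv_mul_cancel_left₀ a2.ne']
  obtain ⟨q₀, tg⟩ : ∃ q₀, Tendsto (fun q : ι × E m => gradient (w q.1) q.2) (l ×ˢ 𝓝 y₀) (𝓝 q₀) := by
    refine ⟨_, (tendsto_finsetSum Finset.univ fun j _ => ((te.inv₀ n0.ne').mul (tn.inner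
      (𝕜 := ℝ) (tendsto_const_nhds (x := L (EuclideanSpace.single j 1)))).neg).smul_const
        (EuclideanSpace.single j (1 : ℝ))).congr' ?_⟩
    filter_upwards [eventually_all.2 ep, sw.diff] with q a1 a2
    simp only [← a1, ← gradient_apply a2, sum_single]
  have hX : ∀ k, LH α l y₀ k w → LH α l y₀ k X := fun k a => dX ▸
    ((ub_smooth (.of_forall fun _ => (contDiff_const.add L.contDiff).contDiffAt)).lh hα.2.le k).add
      (a.smul (lh_c e))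
  have w0 : LH α l y₀ 0 w := L0.of_bd hα.2.le sw
    ((hw.norm.eventually (gt_mem_nhds (lt_add_one _))).mono fun _ a => a.le)
    ((tg.norm.eventually (gt_mem_nhds (lt_add_one _))).mono fun _ a => norm_gradient _ _ ▸ a.le)
  have w1 : LH α l y₀ 1 w := by
    have a1 : LH α l y₀ 0 fun i y => (S i).n (X i y) := by
      obtain ⟨s1, A, A0, hA⟩ := hX 0 w0
      refine ⟨(ev.and s1).mono fun q a => a.1.1.smn.contDiffAt.comp q.2 a.2, ‖n₀‖ + 1 + |K| * A,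
        by positivity, ?_⟩
      filter_upwards [hA, td1.eventually e0, td2.eventually e0, td1.eventually
        (tn.norm.eventually (gt_mem_nhds (lt_add_one _))), (tendsto_fst.prodMk
          ((tX.comp td1).prodMk (tX.comp td2))).eventually hn] with q b1 b2 b3 b4 b5
      refine ⟨b4.le.trans (le_add_of_nonneg_right (by positivity)), (b5 b2 b3).trans ?_⟩
      have := Qe.rp q.2.1 q.2.2 α
      refine (mul_le_mul (le_abs_self K) b1.2 (norm_nonneg _) (abs_nonneg _)).trans ?_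
      nlinarith [norm_nonneg n₀]
    exact lh_of_pd w0 fun j => (((a1.inner (lh_c e)).inv te n0.ne').mul
      (a1.inner (lh_c _)).neg).congr (ep j)
  obtain ⟨Λ, hE⟩ := gam_el hF (ev.mono fun _ a => a.1) tB tn B0 n0
  have key : ∀ k, LH α l y₀ (k + 1) w := fun k => by
    induction k with
    | zero => exact w1
    | succ k ih =>
      have x1 := hX k ih.pred
      have b0 := LH.comp hB x1 tX
      have n1 : LH α l y₀ k fun i y => (S i).n (X i y) :=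
        (lh_n hF b0 ih.grad tB tg B0).congr (ev.mono fun q a => dX' q.1 q.2 ▸ a.2.1.n_eq a.1 hF
          (a.2.2.1.differentiableAt (by simp)) a.2.2.2.1 a.2.2.2.2)
      obtain ⟨r1, r2⟩ := lh_rhs (L := L) n1 b0 (LH.comp hB.fderiv x1 tX)
        ((LH.comp ha x1 tX).inv (ca.comp t1) a0) (LH.comp ha.fderiv x1 tX)
        ((LH.comp hh x1 tX).congr (((t1.eventually hH).and e0).mono fun q a => a.1 a.2))
      refine sch hα r2 hE w1 ((((n1.inner (lh_c e)).inv te n0.ne').mul r1).congr ?_)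
      filter_upwards [ev, te.eventually (lt_mem_nhds n0)] with q a1 a2
      have := a1.2.1.eqn a1.1 hF (a1.2.2.1.of_le two_le_inf) a1.2.2.2.1 a1.2.2.2.2
      rw [dX'] at this
      rw [← this, inv_mul_cancel_left₀ a2.ne']
  exact ub_of_lh fun k => (key k).pred

end Srf

end Vale.Agent.P366W
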