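import Vale.Agent.P366W.Basic
import Mathlib.Analysis.Calculus.FDeriv.Symmetric

/-!
# P366W: the stability inequality
-/

open MeasureTheory Metric Filter Topology Set
open scoped ContDiff ENNReal RealInnerProductSpace
open Vale.Agent.P366.Stmt Vale.Agent.P366Y

noncomputable section

namespace Vale.Agent.P366W.Sb

variable {N : ℕ}

theorem alg {δ φ Λ T Q w z c₁ c₂ : ℝ} (hδ : 0 < δ) (hw : w ^ 2 ≤ 2 * Q) (hz : z ^ 2 ≤ 2 * T)
    (h1 : 0 ≤ (1 + δ / 2) ^ 2 * T + 2 * (1 + δ / 2) * φ * c₁ + φ ^ 2 * Q) (h2 : |c₂| ≤ 4 * Λ * z) :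
    0 ≤ (1 + δ) * T + (35 + 64 / δ + 49 * (2 + δ) / (2 * δ)) * Λ ^ 2 * φ ^ 2 +
      φ ^ 2 * (Q - 35 * Λ ^ 2 - 7 * Λ * w) + 2 * φ * (c₂ + c₁) := by
  have e1 : 0 ≤ (1 + δ / 2) * T + 2 * φ * c₁ + φ ^ 2 * Q * (2 / (2 + δ)) := by
    have : (1 + δ / 2) * T + 2 * φ * c₁ + φ ^ 2 * Q * (2 / (2 + δ)) = (2 / (2 + δ)) *
        ((1 + δ / 2) ^ 2 * T + 2 * (1 + δ / 2) * φ * c₁ + φ ^ 2 * Q) := by field_simp
    rw [this]; positivity
  have e2 : 0 ≤ δ / 2 * T + 64 / δ * Λ ^ 2 * φ ^ 2 + 2 * φ * c₂ := by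
    have h3 : -(|φ| * (4 * Λ * z)) ≤ φ * c₂ := by
      have := neg_abs_le (φ * c₂)
      rw [abs_mul] at this
      nlinarith [abs_nonneg φ]
    have h4 : δ / 4 * z ^ 2 + 64 / δ * Λ ^ 2 * |φ| ^ 2 - 8 * |φ| * Λ * z =
        δ / 4 * (z - 16 / δ * Λ * |φ|) ^ 2 := by field_simp; ring
    have h5 : 0 ≤ δ / 4 * (z - 16 / δ * Λ * |φ|) ^ 2 := by positivity
    rw [sq_abs] at h4
    nlinarith
  have e3 : 0 ≤ Q * (δ / (2 + δ)) + 49 * (2 + δ) / (2 * δ) * Λ ^ 2 - 7 * Λ * w := by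
    have h4 : w ^ 2 / 2 * (δ / (2 + δ)) + 49 * (2 + δ) / (2 * δ) * Λ ^ 2 - 7 * Λ * w =
        δ / (2 * (2 + δ)) * (w - 7 * (2 + δ) / δ * Λ) ^ 2 := by field_simp; ring
    have h5 : 0 ≤ δ / (2 * (2 + δ)) * (w - 7 * (2 + δ) / δ * Λ) ^ 2 := by positivity
    have h6 : w ^ 2 / 2 * (δ / (2 + δ)) ≤ Q * (δ / (2 + δ)) := by gcongr; linarith
    linarith
  have e4 := mul_nonneg (sq_nonneg φ) e3
  have e5 : φ ^ 2 * Q * (2 / (2 + δ)) + φ ^ 2 * (Q * (δ / (2 + δ))) = φ ^ 2 * Q := by field_simp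
  nlinarith

variable {S : Surf N}

/-- the acceleration of the normal -/
def Z (S : Surf N) (x : E N) : E N := fderiv ℝ S.ν x (S.ν x)

theorem smZ (h : S.Ok) : ContDiff ℝ ∞ (Z S) :=
  (h.smν.fderiv_right (m := ∞) (by norm_cast)).clm_apply h.smν

/-- the derivative of `y ↦ (f' y) (v y)` -/
theorem fderiv_app {V : Type} [NormedAddCommGroup V] [NormedSpace ℝ V] {f : E N → V}
    {v : E N → E N} (hf : ContDiff ℝ ∞ f) {x : E N} (hv : DifferentiableAt ℝ v x) :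
    DifferentiableAt ℝ (fun y => fderiv ℝ f y (v y)) x ∧ ∀ u,
      fderiv ℝ (fun y => fderiv ℝ f y (v y)) x u =
        fderiv ℝ (fun y => fderiv ℝ f y (v x)) x u + fderiv ℝ f x (fderiv ℝ v x u) := by
  have hd : DifferentiableAt ℝ (fderiv ℝ f) x :=
    (hf.fderiv_right (m := 1) (by norm_cast)).differentiable one_ne_zero x
  refine ⟨hd.clm_apply hv, fun u => ?_⟩
  rw [fderiv_clm_apply hd hv, fderiv_clm_apply hd (differentiableAt_const _)]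
  simp [add_comm]

theorem dvg_Z (h : S.Ok) (x : E N) : dvg (Z S) x =
    trc (fderiv ℝ S.ν x ∘L fderiv ℝ S.ν x) + fderiv ℝ (dvg S.ν) x (S.ν x) := by
  have hd : DifferentiableAt ℝ (fderiv ℝ S.ν) x :=
    (h.smν.fderiv_right (m := 1) (by norm_cast)).differentiable one_ne_zero x
  have hs : IsSymmSndFDerivAt ℝ S.ν x :=
    h.smν.contDiffAt.isSymmSndFDerivAt (by simp; norm_cast)
  have h1 : Z S = fun y => fderiv ℝ S.ν y (S.ν y) := rfl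
  have h2 : HasFDerivAt (dvg S.ν) (∑ i, ((EuclideanSpace.proj i : E N →L[ℝ] ℝ) ∘L
      (ContinuousLinearMap.apply ℝ (E N) (EuclideanSpace.single i 1 : E N))) ∘L
        fderiv ℝ (fderiv ℝ S.ν) x) x :=
    HasFDerivAt.fun_sum fun i _ => (((EuclideanSpace.proj i : E N →L[ℝ] ℝ) ∘L
      (ContinuousLinearMap.apply ℝ (E N) (EuclideanSpace.single i 1 : E N))).hasFDerivAt).comp x
        hd.hasFDerivAt
  rw [dvg_eq, h1, fderiv_clm_apply hd (h.dν x), trc_add, h2.fderiv]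
  simp [trc, hs.eq (S.ν x)]

theorem A2_eq (x : E N) : S.A2 x = trc (fderiv ℝ S.ν x ∘L fderiv ℝ S.ν x) -
    2 * ⟪S.n x, fderiv ℝ S.ν x (Z S x)⟫ + ⟪S.n x, Z S x⟫ ^ 2 := by
  have h1 : S.A2 x = trc (fderiv ℝ S.ν x ∘L fderiv ℝ S.ν x -
      (innerSL ℝ (S.n x) ∘L fderiv ℝ S.ν x).smulRight (Z S x) -
      (innerSL ℝ (S.n x)).smulRight (fderiv ℝ S.ν x (S.P x (Z S x)))) := by
    refine Finset.sum_congr rfl fun i _ => ?_
    simp [Surf.P_apply, Z, inner_sub_right, inner_smul_right]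
    ring
  rw [h1, trc_sub, trc_sub, trc_smulRight, trc_smulRight]
  simp [Surf.P_apply, inner_sub_right, inner_smul_right, Z]
  ring

theorem dH (h : S.Ok) (x : E N) : fderiv ℝ S.H x (S.ν x) = fderiv ℝ (dvg S.ν) x (S.ν x) +
    (fderiv ℝ (fun y => fderiv ℝ S.a y (S.ν x)) x (S.ν x) + fderiv ℝ S.a x (Z S x)) / S.a x -
      (fderiv ℝ S.a x (S.ν x) / S.a x) ^ 2 := by
  have h1 : S.H = fun y => dvg S.ν y + fderiv ℝ S.a y (S.ν y) * (S.a y)⁻¹ := by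
    funext y
    have := h.a0 y
    rw [Surf.H, dvg_smul (h.da y) (h.dν y)]
    field_simp
  obtain ⟨h2, h3⟩ := fderiv_app h.sma (h.dν x)
  have h4 : DifferentiableAt ℝ (dvg S.ν) x :=
    (contDiff_dvg (k := 1) (h.smν.of_le (by norm_cast))).differentiable one_ne_zero x
  have h5 := (hasFDerivAt_inv (h.a0 x).ne').comp x (h.da x).hasFDerivAt
  have h6 := (h4.hasFDerivAt.add (h2.hasFDerivAt.mul h5)).fderiv
  have := h.a0 x
  rw [h1]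
  refine (congrArg (fun L => L (S.ν x)) h6).trans ?_
  simp [h3, Z]
  field_simp
  ring

theorem n_dZ (h : S.Ok) (x : E N) : ⟪S.n x, fderiv ℝ (Z S) x (S.ν x)⟫ =
    (⟪fderiv ℝ S.n x (S.ν x), fderiv ℝ S.B x (S.ν x) (S.n x)⟫ +
      ⟪S.n x, fderiv ℝ (fun y => fderiv ℝ S.B y (S.ν x)) x (S.ν x) (S.n x)⟫ +
      ⟪S.n x, fderiv ℝ S.B x (S.ν x) (fderiv ℝ S.n x (S.ν x))⟫) / 2 +
      ⟪S.n x, fderiv ℝ S.ν x (Z S x)⟫ - ⟪fderiv ℝ S.n x (S.ν x), Z S x⟫ := by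
  have hZ : DifferentiableAt ℝ (Z S) x := (smZ h).differentiable (by simp) x
  obtain ⟨h2, h3⟩ := fderiv_app h.smB (h.dν x)
  have h1 : (fun y => ⟪S.n y, fderiv ℝ S.B y (S.ν y) (S.n y)⟫) = fun y => 2 * ⟪S.n y, Z S y⟫ := by
    funext y
    rw [Z, h.n_dν]; ring
  have h4 := fderiv_inner_apply ℝ (h.dn x) (h2.clm_apply (h.dn x)) (S.ν x)
  rw [h1, fderiv_const_mul ((h.dn x).inner ℝ hZ), fderiv_clm_apply h2 (h.dn x)] at h4
  simp only [smul_apply, smul_eq_mul, fderiv_inner_apply ℝ (h.dn x) hZ, add_apply,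
    ContinuousLinearMap.comp_apply, ContinuousLinearMap.flip_apply, h3, inner_add_right] at h4
  have h5 := h.n_dν x (Z S x)
  change _ = ⟪S.n x, fderiv ℝ S.B x (fderiv ℝ S.ν x (S.ν x)) (S.n x)⟫ / 2 at h5
  linarith

/-- the integrand of the first variation -/
def fv (S : Surf N) (Y : E N → E N) (x : E N) : ℝ := dvg Y x - ⟪S.n x, fderiv ℝ Y x (S.ν x)⟫ +
    fderiv ℝ S.a x (Y x) / S.a x + ⟪S.n x, fderiv ℝ S.B x (Y x) (S.n x)⟫ / 2 -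
    ⟪S.n x, Y x⟫ * S.H x

theorem fv_smul (h : S.Ok) {φ : E N → ℝ} {x : E N} (hφ : DifferentiableAt ℝ φ x) :
    fv S (fun y => φ y ^ 2 • Z S y) x = φ x ^ 2 * fv S (Z S) x +
      2 * φ x * ⟪gradient φ x - ⟪gradient φ x, S.ν x⟫ • S.n x, Z S x⟫ := by
  have hZ : DifferentiableAt ℝ (Z S) x := (smZ h).differentiable (by simp) x
  have h1 := hφ.hasFDerivAt.pow 2
  simp only [fv]
  rw [dvg_smul h1.differentiableAt hZ, fderiv_fun_smul h1.differentiableAt hZ, h1.fderiv]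
  simp [inner_add_right, inner_smul_right, inner_sub_left, inner_smul_left]
  ring

variable {x₀ x : E N} {R η Λ : ℝ}

theorem q_le (h : S.Ok) (hb : S.Bd x₀ R η Λ) (hη : η ≤ 1 / 2) (hx : x ∈ ball x₀ R) :
    ‖fderiv ℝ S.B x (S.ν x)‖ ≤ 9 / 4 * Λ ∧ ‖fderiv ℝ S.B x (S.ν x) (S.n x)‖ ≤ 4 * Λ := by
  have hΛ := hb.Λ0
  have h1 : ‖fderiv ℝ S.B x (S.ν x)‖ ≤ 9 / 4 * Λ :=
    ((fderiv ℝ S.B x).le_of_opNorm_le (hb.B1 x hx) _).trans (by nlinarith [hb.ν_le h hη hx])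
  exact ⟨h1, (ContinuousLinearMap.le_of_opNorm_le _ h1 _).trans (by nlinarith [hb.n_le h hη hx])⟩

theorem β_le (h : S.Ok) (hb : S.Bd x₀ R η Λ) (hη : η ≤ 1 / 2) (hx : x ∈ ball x₀ R) (v : E N) :
    |⟪S.n x, fderiv ℝ S.ν x v⟫| ≤ Λ * ‖v‖ := by
  have h1 := abs_real_inner_le_norm (S.n x) (fderiv ℝ S.B x v (S.n x))
  have h2 := ContinuousLinearMap.le_of_opNorm_le _ ((fderiv ℝ S.B x).le_of_opNorm_le (hb.B1 x hx) v)
    (S.n x)
  have h3 := hb.n_sq h hη hx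
  have h4 : 0 ≤ Λ * ‖v‖ := mul_nonneg hb.Λ0 (norm_nonneg _)
  rw [h.n_dν, abs_div, abs_two]
  nlinarith [norm_nonneg (S.n x)]

theorem ν_sq (h : S.Ok) (hb : S.Bd x₀ R η Λ) (hη : η ≤ 1 / 2) (hx : x ∈ ball x₀ R) :
    ‖S.ν x‖ * ‖S.ν x‖ ≤ 11 / 2 := by nlinarith [hb.ν_le h hη hx, norm_nonneg (S.ν x)]

theorem d1 (h : S.Ok) (hb : S.Bd x₀ R η Λ) (hη : η ≤ 1 / 2) (hx : x ∈ ball x₀ R) :
    |⟪S.n x, fderiv ℝ S.ν x (Z S x)⟫| ≤ 4 * Λ ^ 2 + 3 / 2 * (Λ * ‖fderiv ℝ S.n x (S.ν x)‖) := by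
  have hZ : Z S x = _ := h.fderiv_ν x (S.ν x)
  have c7 : ‖Z S x‖ ≤ 4 * Λ + 3 / 2 * ‖fderiv ℝ S.n x (S.ν x)‖ := by
    have := hb.B_hi hx (fderiv ℝ S.n x (S.ν x))
    rw [hZ]
    refine (norm_add_le _ _).trans (add_le_add (q_le h hb hη hx).2 (this.trans ?_))
    gcongr; linarith
  refine (β_le h hb hη hx (Z S x)).trans ((mul_le_mul_of_nonneg_left c7 hb.Λ0).trans_eq ?_)
  ring

theorem d3 (h : S.Ok) (hb : S.Bd x₀ R η Λ) (hη : η ≤ 1 / 2) (hx : x ∈ ball x₀ R) :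
    ⟪S.n x, Z S x⟫ ^ 2 ≤ 6 * Λ ^ 2 ∧ ⟪S.n x, Z S x⟫ * S.H x ≤ 3 * Λ ^ 2 := by
  have hΛ := hb.Λ0
  have d2 : |⟪S.n x, Z S x⟫| ≤ Λ * (9 / 4) :=
    (β_le h hb hη hx (S.ν x)).trans (mul_le_mul_of_nonneg_left (hb.ν_le h hη hx) hΛ)
  have h1 := le_abs_self (⟪S.n x, Z S x⟫ * S.H x)
  have h2 := mul_le_mul d2 (hb.H0 x hx) (abs_nonneg _) (by positivity)
  have h3 := pow_le_pow_left₀ (abs_nonneg _) d2 2
  rw [abs_mul] at h1
  rw [sq_abs] at h3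
  constructor <;> nlinarith [sq_nonneg Λ]

theorem d5 (h : S.Ok) (hb : S.Bd x₀ R η Λ) (hη : η ≤ 1 / 2) (hx : x ∈ ball x₀ R) (w : E N) :
    |⟪w, fderiv ℝ S.B x (S.ν x) (S.n x)⟫| ≤ 4 * (Λ * ‖w‖) ∧
      |⟪S.n x, fderiv ℝ S.B x (S.ν x) w⟫| ≤ 4 * (Λ * ‖w‖) := by
  have hΛ := hb.Λ0
  obtain ⟨q1, q2⟩ := q_le h hb hη hx
  have h1 := mul_le_mul_of_nonneg_left q2 (norm_nonneg w)
  have h2 := mul_le_mul (hb.n_le h hη hx) (ContinuousLinearMap.le_of_opNorm_le _ q1 w)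
    (norm_nonneg _) (by norm_num)
  have h3 : 0 ≤ Λ * ‖w‖ := by positivity
  exact ⟨(abs_real_inner_le_norm _ _).trans (by linarith),
    (abs_real_inner_le_norm _ _).trans (by linarith)⟩

theorem d7 (h : S.Ok) (hb : S.Bd x₀ R η Λ) (hη : η ≤ 1 / 2) (hx : x ∈ ball x₀ R) :
    |⟪S.n x, fderiv ℝ (fun y => fderiv ℝ S.B y (S.ν x)) x (S.ν x) (S.n x)⟫| ≤ 11 * Λ ^ 2 := by
  have c5 := ContinuousLinearMap.le_of_opNorm_le _
    (ContinuousLinearMap.le_of_opNorm_le _ (hb.B2 x hx (S.ν x)) (S.ν x)) (S.n x)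
  have n2 := hb.n_sq h hη hx
  have ν2 := ν_sq h hb hη hx
  refine (abs_real_inner_le_norm _ _).trans
    ((mul_le_mul_of_nonneg_left c5 (norm_nonneg _)).trans ?_)
  calc ‖S.n x‖ * (Λ ^ 2 * ‖S.ν x‖ * ‖S.ν x‖ * ‖S.n x‖) =
        Λ ^ 2 * ((‖S.ν x‖ * ‖S.ν x‖) * ‖S.n x‖ ^ 2) := by ring
    _ ≤ Λ ^ 2 * (11 / 2 * 2) := by gcongr
    _ = _ := by ring

theorem d8 (h : S.Ok) (hb : S.Bd x₀ R η Λ) (hη : η ≤ 1 / 2) (hx : x ∈ ball x₀ R) :
    fderiv ℝ (fun y => fderiv ℝ S.a y (S.ν x)) x (S.ν x) / S.a x ≤ 11 * Λ ^ 2 := by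
  have c6 := ContinuousLinearMap.le_of_opNorm_le _ (hb.a2 x hx (S.ν x)) (S.ν x)
  have h1 := mul_le_mul_of_nonneg_left (ν_sq h hb hη hx) (sq_nonneg Λ)
  have h2 := mul_le_mul_of_nonneg_left (hb.a_lo hη hx) (sq_nonneg Λ)
  have := le_abs_self (fderiv ℝ (fun y => fderiv ℝ S.a y (S.ν x)) x (S.ν x))
  rw [Real.norm_eq_abs] at c6
  rw [div_le_iff₀ (h.a0 x)]
  linarith

theorem fv_Z (h : S.Ok) (hb : S.Bd x₀ R η Λ) (hη : η ≤ 1 / 2) (hx : x ∈ ball x₀ R)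
    (h0 : S.Φ x = 0) : S.A2 x + (⟪fderiv ℝ S.n x (S.ν x), S.B x (fderiv ℝ S.n x (S.ν x))⟫ -
      35 * Λ ^ 2 - 7 * Λ * ‖fderiv ℝ S.n x (S.ν x)‖) ≤ fv S (Z S) x := by
  have hZ : Z S x = _ := h.fderiv_ν x (S.ν x)
  rw [fv, dvg_Z h, n_dZ h, ← h.n_dν, A2_eq]
  have e1 := dH h x
  have e2 := hb.H2 x hx h0
  have e3 : ⟪fderiv ℝ S.n x (S.ν x), Z S x⟫ = ⟪fderiv ℝ S.n x (S.ν x),
      fderiv ℝ S.B x (S.ν x) (S.n x)⟫ + ⟪fderiv ℝ S.n x (S.ν x), S.B x (fderiv ℝ S.n x (S.ν x))⟫ := by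
    rw [hZ, inner_add_right]
  rw [add_div] at e1
  have := sq_nonneg (fderiv ℝ S.a x (S.ν x) / S.a x)
  have c := d5 h hb hη hx (fderiv ℝ S.n x (S.ν x))
  linarith [abs_le.1 (d1 h hb hη hx), abs_le.1 c.1, abs_le.1 c.2, abs_le.1 (d7 h hb hη hx),
    d3 h hb hη hx, d8 h hb hη hx, sq_nonneg Λ]

theorem tan_eq (h : S.Ok) (x ξ : E N) : ⟪ξ, S.B x ξ⟫ - ⟪ξ, S.ν x⟫ ^ 2 =
    ⟪ξ - ⟪ξ, S.ν x⟫ • S.n x, S.B x (ξ - ⟪ξ, S.ν x⟫ • S.n x)⟫ := by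
  have h1 : ⟪S.n x, S.B x ξ⟫ = ⟪ξ, S.ν x⟫ := by rw [← h.sym, real_inner_comm]; rfl
  have h2 : S.B x (S.n x) = S.ν x := rfl
  simp only [map_sub, map_smul, inner_sub_left, inner_sub_right, real_inner_smul_left,
    real_inner_smul_right, h1, h2, h.nν]
  ring

theorem key {δ : ℝ} (hδ : 0 < δ) (h : S.Ok) (hb : S.Bd x₀ R η Λ) (hη : η ≤ 1 / 2)
    (hx : x ∈ ball x₀ R) (h0 : S.Φ x = 0) {φ : E N → ℝ} (hφ : DifferentiableAt ℝ φ x) :
    S.A2 x * φ x ^ 2 ≤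
      (1 + δ) * (⟪gradient φ x, S.B x (gradient φ x)⟫ - ⟪gradient φ x, S.ν x⟫ ^ 2) +
        (35 + 64 / δ + 49 * (2 + δ) / (2 * δ)) * Λ ^ 2 * φ x ^ 2 +
        fv S (fun y => φ y ^ 2 • Z S y) x := by
  have hZ : Z S x = _ := h.fderiv_ν x (S.ν x)
  rw [fv_smul h hφ, tan_eq h, hZ, inner_add_right]
  have h1 := mul_le_mul_of_nonneg_left (fv_Z h hb hη hx h0) (sq_nonneg (φ x))
  set ζ := gradient φ x - ⟪gradient φ x, S.ν x⟫ • S.n x
  set w := fderiv ℝ S.n x (S.ν x)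
  have h2 : ∀ v, ‖v‖ ^ 2 ≤ 2 * ⟪v, S.B x v⟫ := fun v => by
    nlinarith [hb.B_lo hx v, sq_nonneg ‖v‖]
  have h3 := h.B_nonneg x ((1 + δ / 2) • ζ + φ x • w)
  have h4 : ⟪w, S.B x ζ⟫ = ⟪ζ, S.B x w⟫ := by rw [← h.sym, real_inner_comm]
  simp only [map_add, map_smul, inner_add_left, inner_add_right, real_inner_smul_left,
    real_inner_smul_right, h4] at h3
  have h5 := alg (φ := φ x) (Λ := Λ) (c₁ := ⟪ζ, S.B x w⟫)
    (c₂ := ⟪ζ, fderiv ℝ S.B x (S.ν x) (S.n x)⟫) hδ (h2 w) (h2 ζ) (by linarith)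
    ((abs_real_inner_le_norm _ _).trans (by nlinarith [(q_le h hb hη hx).2, norm_nonneg ζ]))
  linarith

theorem cont_A2 (h : S.Ok) : Continuous S.A2 := by
  have h1 := h.smν.continuous_fderiv (by simp)
  have h2 := h.smn.continuous
  have h3 := (smZ h).continuous
  rw [funext (A2_eq (S := S))]
  exact ((continuous_trc.comp (h1.clm_comp h1)).sub
    (continuous_const.mul (h2.inner (h1.clm_apply h3)))).add ((h2.inner h3).pow 2)

theorem int_fv (h : S.Ok) {Y : E N → E N} (hY : ContDiff ℝ 1 Y) (hc : HasCompactSupport Y) :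
    Integrable (fv S Y) S.μ := by
  have h1 := hY.continuous_fderiv one_ne_zero
  have h2 := h.smn.continuous
  have h3 := hY.continuous
  refine h.integrable ?_ (hc.mono' fun x hx => ?_)
  · exact ((((continuous_dvg hY).sub (h2.inner (h1.clm_apply h.smν.continuous))).add
      (((h.sma.continuous_fderiv (by simp)).clm_apply h3).div h.sma.continuous
        fun x => (h.a0 x).ne')).add ((h2.inner (((h.smB.continuous_fderiv (by simp)).clm_apply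
          h3).clm_apply h2)).div_const 2)).sub ((h2.inner h3).mul h.smH.continuous)
  · by_contra hn
    refine hx ?_
    have h4 : fderiv ℝ Y x = 0 :=
      image_eq_zero_of_notMem_tsupport fun h => hn (tsupport_fderiv_subset ℝ h)
    simp [fv, dvg_eq_zero hn, h4, image_eq_zero_of_notMem_tsupport hn]

end Vale.Agent.P366W.Sb

namespace Vale.Agent.P366W

open Sb

theorem stab_of (hFV : FV) : STAB := fun N δ hδ => ⟨35 + 64 / δ + 49 * (2 + δ) / (2 * δ),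
  fun S x₀ R η Λ h hb hη φ hφ hc h0 => by
  have hd : Differentiable ℝ φ := hφ.differentiable (by norm_num)
  have hc2 : HasCompactSupport fun x => φ x ^ 2 := hc.comp_left (g := fun t => t ^ 2) (by simp)
  have hY : ContDiff ℝ 2 fun y => φ y ^ 2 • Z S y := (hφ.pow 2).smul ((smZ h).of_le (by norm_cast))
  have hY' : HasCompactSupport fun y => φ y ^ 2 • Z S y := hc2.smul_right
  have h1 : ∫ x, fv S (fun y => φ y ^ 2 • Z S y) x ∂S.μ = 0 := hFV N S h _ hY hY'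
  have hg : Continuous (gradient φ) := (contDiff_gradient (k := 1) hφ).continuous
  have i1 : Integrable (fun x => φ x ^ 2) S.μ := h.integrable (hφ.continuous.pow 2) hc2
  have i2 : Integrable (fun x => ⟪gradient φ x, S.B x (gradient φ x)⟫ - ⟪gradient φ x, S.ν x⟫ ^ 2)
      S.μ := by
    refine h.integrable ((hg.inner (h.smB.continuous.clm_apply hg)).sub
      ((hg.inner h.smν.continuous).pow 2)) (hc.mono' fun x hx => ?_)
    by_contra hn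
    refine hx ?_
    have h4 : fderiv ℝ φ x = 0 :=
      image_eq_zero_of_notMem_tsupport fun h => hn (tsupport_fderiv_subset ℝ h)
    simp [gradient, h4]
  have i3 := int_fv h (hY.of_le (by norm_num)) hY'
  have i4 : Integrable (fun x => S.A2 x * φ x ^ 2) S.μ :=
    h.integrable ((cont_A2 h).mul (hφ.continuous.pow 2)) hc2.mul_left
  have h2 := integral_mono_ae i4 (((i2.const_mul (1 + δ)).add
    (i1.const_mul ((35 + 64 / δ + 49 * (2 + δ) / (2 * δ)) * Λ ^ 2))).add i3) (by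
    filter_upwards [h.sup] with x hx
    by_cases hm : x ∈ ball x₀ R
    · exact key hδ h hb hη hm hx (hd x)
    · have := h.B_nonneg x (gradient φ x - ⟪gradient φ x, S.ν x⟫ • S.n x)
      simp only [Pi.add_apply, fv_smul h (hd x), h0 x hm, tan_eq h]
      nlinarith)
  rw [integral_add' ((i2.const_mul _).add (i1.const_mul _)) i3,
    integral_add' (i2.const_mul _) (i1.const_mul _), integral_const_mul, integral_const_mul, h1,
    add_zero] at h2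
  exact h2⟩

end Vale.Agent.P366W
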