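import Vale.Agent.P366W.White2
import Vale.Agent.P366W.Aff2
import Vale.Agent.P366W.Stab

/-!
# P366W: point picking and the proof of `WHITE`
-/

open MeasureTheory Metric Filter Topology Set
open scoped ContDiff ENNReal RealInnerProductSpace
open Vale.Agent.P366.Stmt Vale.Agent.P366Y

noncomputable section

namespace Vale.Agent.P366W

variable {N m : ℕ}

theorem sc_Φ (S : Surf (m + 1)) (b x : E (m + 1)) (l : ℝ) : (S.sc b l).Φ x = S.Φ (b + l • x) := rfl

theorem sc_ok {S : Surf (m + 1)} (hS : S.Ok) (b : E (m + 1)) {l : ℝ} (hl : 0 < l) :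
    (S.sc b l).Ok := (aff m S _ b l 1 hS hl one_pos).1

theorem sc_n {S : Surf (m + 1)} (hS : S.Ok) (b : E (m + 1)) {l : ℝ} (hl : 0 < l) (x : E (m + 1)) :
    (S.sc b l).n x = S.n (b + l • x) := by
  rw [Surf.sc, (aff m S _ b l 1 hS hl one_pos).2.1]
  simp [ContinuousLinearMap.adjoint_id]

theorem sc_th {S : Surf (m + 1)} (hS : S.Ok) (b : E (m + 1)) {l : ℝ} (hl : 0 < l) (y : E (m + 1))
    (r : ℝ) : (S.sc b l).th y r = S.th (b + l • y) (l * r) :=
  (aff m S _ b l 1 hS hl one_pos).2.2.2.2 y r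

/-- the improvement of the Hölder constant at the centre -/
theorem step (m : ℕ) {α : ℝ} (hα : α ∈ Ioo (0 : ℝ) 1) : ∃ σ > (0 : ℝ), ∃ R ≥ (1 : ℝ),
    ∃ ε > (0 : ℝ), ∀ S : Surf (m + 1), S.Ok → S.Bd 0 R ε ε →
      (∀ y ∈ ball (0 : E (m + 1)) R, ∀ r, 0 < r → r ≤ R → S.th y r ≤ 1 + ε) →
      (∀ q ∈ ball (0 : E (m + 1)) R, ∀ q' ∈ ball (0 : E (m + 1)) R, S.Φ q = 0 → S.Φ q' = 0 →
        ‖S.n q - S.n q'‖ ≤ σ * ‖q - q'‖ ^ α) → S.Φ 0 = 0 →
      ∀ q, S.Φ q = 0 → ‖S.n q - S.n 0‖ ≤ 3 → ‖S.n q - S.n 0‖ ≤ σ / 4 * ‖q‖ ^ α := by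
  obtain ⟨σ, σ0, C, C0, hC⟩ := graph_est m hα
  obtain ⟨s, s0, s1, s2⟩ : ∃ s > (0 : ℝ), s ≤ 1 ∧ s ≤ σ / 16 :=
    ⟨min 1 (σ / 16), by positivity, min_le_left _ _, min_le_right _ _⟩
  obtain ⟨d₁, d0, hd⟩ := Qe.small (sub_pos.2 hα.2) (show 0 < s / 4 by positivity) C
  obtain ⟨d, d1, d2, d3⟩ : ∃ d > (0 : ℝ), d ≤ 1 ∧ d ≤ d₁ :=
    ⟨min 1 d₁, by positivity, min_le_left _ _, min_le_right _ _⟩
  obtain ⟨D, D0, hD⟩ : ∃ D > (0 : ℝ), D ^ α = 12 / s :=
    ⟨(12 / s) ^ α⁻¹, by positivity, Real.rpow_inv_rpow (by positivity) hα.1.ne'⟩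
  obtain ⟨ε₁, e0, hε⟩ := flat m hα D0 (show 0 < s / 4 * d ^ α by positivity)
  obtain ⟨ε, e1, e2, e3, e4⟩ : ∃ ε > (0 : ℝ), ε ≤ ε₁ ∧ ε ≤ 1 / 8 ∧ ε ≤ σ / 4 :=
    ⟨min ε₁ (min (1 / 8) (σ / 4)), by positivity, min_le_left _ _,
      (min_le_right _ _).trans (min_le_left _ _), (min_le_right _ _).trans (min_le_right _ _)⟩
  refine ⟨s, s0, 17 * (D + 2) + 8, by linarith, ε, e1, fun S hS hb ht ho h0 q hq h3 => ?_⟩
  have ho' : ∀ q ∈ ball (0 : E (m + 1)) (17 * (D + 2) + 8), ∀ q' ∈ ball (0 : E (m + 1))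
      (17 * (D + 2) + 8), S.Φ q = 0 → S.Φ q' = 0 → ‖S.n q - S.n q'‖ ≤ ‖q - q'‖ ^ α :=
    fun q hq q' hq' a b => (ho q hq q' hq' a b).trans (mul_le_of_le_one_left (by positivity) s1)
  have s8 : ball (0 : E (m + 1)) 8 ⊆ ball 0 (17 * (D + 2) + 8) := ball_subset_ball (by linarith)
  rcases le_or_gt D ‖q‖ with h1 | h1
  · refine h3.trans ?_
    calc (3 : ℝ) = s / 4 * D ^ α := by rw [hD]; field_simp; norm_num
      _ ≤ _ := by gcongr; exact hα.1.le
  rcases le_or_gt d ‖q‖ with h2 | h2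
  · refine (hε S hS (hb.mono Subset.rfl e2 e2) (fun y hy _ => (ht y (ball_subset_ball
      (by linarith) hy) _ (by positivity) (by linarith)).trans (by linarith)) ho' h0 q
      (mem_ball_zero_iff.2 h1) hq).trans ?_
    gcongr; exact hα.1.le
  obtain ⟨e, he, hn⟩ := hb.unit hS (by linarith) (mem_ball_self (by positivity))
  obtain ⟨L, hL⟩ := exists_fr he
  have ht : Tl S 0 e 8 σ := fun x hx hx0 => by
    have a1 := ho x (s8 hx) 0 (mem_ball_self (by positivity)) hx0 h0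
    have a2 : ‖x - 0‖ ^ α ≤ 8 := by
      calc _ ≤ (8 : ℝ) ^ α := Real.rpow_le_rpow (norm_nonneg _)
            (by simpa using (mem_ball_zero_iff.1 hx).le) hα.1.le
        _ ≤ 8 ^ (1 : ℝ) := Real.rpow_le_rpow_of_exponent_le (by norm_num) hα.2.le
        _ = 8 := Real.rpow_one _
    linarith [norm_sub_le_norm_sub_add_norm_sub (S.n x) (S.n 0) e,
      mul_le_mul_of_nonneg_left a2 s0.le]
  have a1 := (hC S 0 e L hS (hb.mono s8 e3 (by linarith)) hL ht h0
    fun q hq q' hq' => ho' q (s8 hq) q' (s8 hq')).2 q (mem_ball_zero_iff.2 (by linarith)) 0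
    (mem_ball_self one_pos) hq h0
  refine a1.trans ?_
  rw [sub_zero]
  calc C * ‖q‖ = C * ‖q‖ ^ (1 - α) * ‖q‖ ^ α := by
        rw [mul_assoc, ← Real.rpow_add' (norm_nonneg _) (by simp)]; simp
    _ ≤ C * d₁ ^ (1 - α) * ‖q‖ ^ α := by gcongr; exacts [sub_nonneg.2 hα.2.le, by linarith]
    _ ≤ _ := by gcongr

/-- the Hölder bound for the conormal -/
theorem hold (m : ℕ) {α : ℝ} (hα : α ∈ Ioo (0 : ℝ) 1) : ∃ ε > (0 : ℝ), ∃ c > (0 : ℝ),
    ∃ K > (0 : ℝ), ε ≤ 1 / 8 ∧ c ≤ 1 ∧ ∀ S : Surf (m + 1), S.Ok → S.Bd 0 4 ε ε →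
      S.th 0 1 ≤ 1 + ε → ∀ p ∈ ball (0 : E (m + 1)) c, ∀ q ∈ ball (0 : E (m + 1)) c,
        S.Φ p = 0 → S.Φ q = 0 → ‖S.n p - S.n q‖ ≤ K * ‖p - q‖ ^ α := by
  obtain ⟨σ, σ0, R, R1, ε₁, e0, hs⟩ := step m hα
  have R0 : 0 < R := by linarith
  obtain ⟨ε₂, e1, c, c0, c1, hn⟩ := near m e0
  obtain ⟨ε, e2, e3, e4, e5⟩ : ∃ ε > (0 : ℝ), ε ≤ ε₁ ∧ ε ≤ ε₂ ∧ ε ≤ 1 / 8 :=
    ⟨min ε₁ (min ε₂ (1 / 8)), by positivity, min_le_left _ _,
      (min_le_right _ _).trans (min_le_left _ _), (min_le_right _ _).trans (min_le_right _ _)⟩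
  refine ⟨ε, e2, c / 2, by positivity, σ * R ^ α / (c / 2) ^ α, by positivity, e5, by linarith,
    fun S hS hb ht => ?_⟩
  have hth := hn S hS (hb.mono Subset.rfl e4 e4) (by linarith)
  let T : ℝ → Prop := fun s => ∀ p ∈ ball (0 : E (m + 1)) c, ∀ q ∈ ball (0 : E (m + 1)) c,
    S.Φ p = 0 → S.Φ q = 0 → (c - max ‖p‖ ‖q‖) ^ α * ‖S.n p - S.n q‖ ≤ s * ‖p - q‖ ^ α
  have s4 : ball (0 : E (m + 1)) c ⊆ ball 0 4 := ball_subset_ball (by linarith)
  have imp : ∀ s, σ * R ^ α ≤ s → T s → T (s / 2) := by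
    intro s hs1 hT
    have s0 : 0 < s := lt_of_lt_of_le (by positivity) hs1
    obtain ⟨t, t0, ht⟩ : ∃ t > (0 : ℝ), t ^ α = σ / s :=
      ⟨(σ / s) ^ α⁻¹, by positivity, Real.rpow_inv_rpow (by positivity) hα.1.ne'⟩
    have t1 : t * R ≤ 1 := by
      rw [← Real.rpow_le_rpow_iff (by positivity) zero_le_one hα.1, Real.mul_rpow t0.le R0.le, ht,
        Real.one_rpow, div_mul_eq_mul_div, div_le_one s0]
      exact hs1
    have key : ∀ p ∈ ball (0 : E (m + 1)) c, ∀ q ∈ ball (0 : E (m + 1)) c, S.Φ p = 0 →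
        S.Φ q = 0 → (c - ‖p‖) ^ α * ‖S.n q - S.n p‖ ≤ s / 2 * ‖q - p‖ ^ α := by
      intro p hp q hq hp0 hq0
      obtain ⟨d, hd⟩ : ∃ d, d = (c - ‖p‖) / 2 := ⟨_, rfl⟩
      have d0 : 0 < d := by linarith [mem_ball_zero_iff.1 hp]
      have d1 : d ≤ 1 / 16 := by linarith [norm_nonneg p]
      have l0 : 0 < d * t := by positivity
      have l1 : d * t * R ≤ d := by nlinarith
      have hm : ∀ x ∈ ball (0 : E (m + 1)) R, ‖p + (d * t) • x‖ < c - d := fun x hx => by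
        have a1 := norm_add_le p ((d * t) • x)
        rw [norm_smul, Real.norm_of_nonneg l0.le] at a1
        nlinarith [mem_ball_zero_iff.1 hx]
      have hm' : ∀ x ∈ ball (0 : E (m + 1)) R, p + (d * t) • x ∈ ball (0 : E (m + 1)) c :=
        fun x hx => mem_ball_zero_iff.2 (by linarith [hm x hx])
      have hb' : (S.sc p (d * t)).Bd 0 R ε₁ ε₁ := by
        refine (scb m S 0 p 4 ε ε _ R hS hb l0 (ball_subset_ball' ?_)).mono Subset.rfl e3 ?_
        · rw [dist_zero_right]; linarith [mem_ball_zero_iff.1 hp]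
        · have : d * t ≤ 1 := by nlinarith
          nlinarith
      have a2 : p + (d * t) • ((d * t)⁻¹ • (q - p)) = q := by
        rw [smul_inv_smul₀ l0.ne', add_sub_cancel]
      have a1 := hs (S.sc p (d * t)) (sc_ok hS p l0) hb' (fun y hy r r0 r1 => by
        rw [sc_th hS p l0]
        exact hth _ (hm' y hy) _ (by positivity) (by nlinarith)) (fun x hx x' hx' h1 h2 => by
        have b1 := hT _ (hm' x hx) _ (hm' x' hx') h1 h2
        rw [add_sub_add_left_eq_sub, ← smul_sub, norm_smul, Real.norm_of_nonneg l0.le,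
          Real.mul_rpow l0.le (norm_nonneg _), Real.mul_rpow d0.le t0.le, ht] at b1
        rw [sc_n hS p l0, sc_n hS p l0]
        refine le_of_mul_le_mul_left ?_ (Real.rpow_pos_of_pos d0 α)
        refine le_trans ?_ (b1.trans_eq (by field_simp))
        gcongr
        · exact hα.1.le
        · linarith [max_lt (hm x hx) (hm x' hx')]) (by simpa [sc_Φ] using hp0)
        ((d * t)⁻¹ • (q - p)) (by rwa [sc_Φ, a2]) (by
          rw [sc_n hS p l0, sc_n hS p l0, a2, smul_zero, add_zero]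
          linarith [norm_sub_le (S.n q) (S.n p), hb.n_le hS (by linarith) (s4 hp),
            hb.n_le hS (by linarith) (s4 hq)])
      rw [sc_n hS p l0, sc_n hS p l0, a2, smul_zero, add_zero, norm_smul, norm_inv,
        Real.norm_of_nonneg l0.le, Real.mul_rpow (by positivity) (norm_nonneg _),
        Real.inv_rpow l0.le, Real.mul_rpow d0.le t0.le, ht] at a1
      have a3 : (c - ‖p‖) ^ α ≤ 2 * d ^ α := by
        rw [show c - ‖p‖ = 2 * d by linarith, Real.mul_rpow zero_le_two d0.le]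
        gcongr
        exact (Real.rpow_le_rpow_of_exponent_le one_le_two hα.2.le).trans_eq (Real.rpow_one _)
      refine (mul_le_mul a3 a1 (norm_nonneg _) (by positivity)).trans_eq ?_
      have := Real.rpow_pos_of_pos d0 α
      field_simp
      ring
    intro p hp q hq hp0 hq0
    rcases le_total ‖p‖ ‖q‖ with h | h
    · rw [max_eq_right h]; exact key q hq p hp hq0 hp0
    · rw [max_eq_left h, norm_sub_rev, norm_sub_rev p]; exact key p hp q hq hp0 hq0
  have up : ∀ s s', s ≤ s' → T s → T s' := fun s s' h hT p hp q hq h1 h2 =>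
    (hT p hp q hq h1 h2).trans (by gcongr)
  have ind : ∀ k : ℕ, T (2 ^ k * (σ * R ^ α)) → T (σ * R ^ α) := fun k => by
    induction k with
    | zero => simp
    | succ k ih =>
      intro h
      refine ih ?_
      convert imp _ (le_mul_of_one_le_left (by positivity) (one_le_pow₀ one_le_two)) h using 1
      ring
  obtain ⟨K, hK⟩ := (isCompact_closedBall (0 : E (m + 1)) c).exists_bound_of_continuousOn
    (hS.smn.continuous_fderiv (by simp)).continuousOn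
  have K0 : 0 ≤ K := (norm_nonneg _).trans (hK 0 (mem_closedBall_self c0.le))
  have hT : T K := fun p hp q hq _ _ => by
    have a1 := (convex_ball (0 : E (m + 1)) c).norm_image_sub_le_of_norm_fderiv_le
      (fun x _ => hS.dn x) (fun x hx => hK x (ball_subset_closedBall hx)) hq hp
    have a2 : (c - max ‖p‖ ‖q‖) ^ α ≤ 1 := Real.rpow_le_one
      (by linarith [max_lt (mem_ball_zero_iff.1 hp) (mem_ball_zero_iff.1 hq)])
      (by linarith [le_max_left ‖p‖ ‖q‖, norm_nonneg p]) hα.1.le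
    have a3 : ‖p - q‖ ≤ ‖p - q‖ ^ α := Real.self_le_rpow_of_le_one (norm_nonneg _) (by
      linarith [norm_sub_le p q, mem_ball_zero_iff.1 hp, mem_ball_zero_iff.1 hq]) hα.2.le
    exact (mul_le_of_le_one_left (norm_nonneg _) a2).trans (a1.trans (by gcongr))
  obtain ⟨k, hk⟩ := pow_unbounded_of_one_lt (K / (σ * R ^ α)) one_lt_two
  have hF := ind k (up _ _ ((div_lt_iff₀ (by positivity)).1 hk).le hT)
  intro p hp q hq h1 h2
  have a1 := hF p (ball_subset_ball (by linarith) hp) q (ball_subset_ball (by linarith) hq) h1 h2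
  rw [div_mul_eq_mul_div, le_div_iff₀' (by positivity)]
  refine le_trans ?_ a1
  gcongr
  · exact hα.1.le
  · linarith [max_lt (mem_ball_zero_iff.1 hp) (mem_ball_zero_iff.1 hq)]

theorem ho_scale {V : Type} [NormedAddCommGroup V] {f : E N → V} {α A l : ℝ} (hf : Ho α A f)
    (hα : α ∈ Ioo (0 : ℝ) 1) (hl : 1 ≤ l) : Ho α (l * A) fun x => f (l • x) := by
  have A0 : 0 ≤ A := (norm_nonneg _).trans (hf.1 0)
  refine ⟨fun x => (hf.1 _).trans (le_mul_of_one_le_left A0 hl), fun x y => (hf.2 _ _).trans ?_⟩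
  rw [← smul_sub, norm_smul, Real.norm_of_nonneg (by linarith), Real.mul_rpow (by linarith)
    (norm_nonneg _), ← mul_assoc, mul_comm A]
  gcongr
  exact (Real.rpow_le_rpow_of_exponent_le hl hα.2.le).trans_eq (Real.rpow_one _)

theorem pd_sc {v : E N → ℝ} (hv : Smooth v) (s R : ℝ) (i : Fin N) :
    pd i (fun z => s * v (R • z)) = fun x => s * R * pd i v (R • x) := funext fun x => by
  have h : Smooth fun z => v (R • z) := ContDiff.comp hv (contDiff_id.const_smul R)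
  have h1 : fderiv ℝ (fun z => v (R • z)) x = R • fderiv ℝ v (R • x) := by
    rw [fderiv_comp_smul]
  rw [P366Z.pd_const_mul, P366Z.pd_eq (h.diff x), h1, P366Z.pd_eq (hv.diff _), mul_assoc]
  rfl

theorem c2h_scale {v : E N → ℝ} {α A l : ℝ} (hv : Smooth v) (hc : C2H α A v)
    (hα : α ∈ Ioo (0 : ℝ) 1) (hl : 1 ≤ l) : C2H α (l * (l * A)) fun x => l⁻¹ * v (l • x) := by
  have l0 : 0 < l := by linarith
  have A0 : 0 ≤ A := (norm_nonneg _).trans (hc.2.1.1 0)
  have h1 : D1 (fun x => l⁻¹ * v (l • x)) = fun x => D1 v (l • x) := by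
    funext x i
    simp only [D1, pd_sc hv, inv_mul_cancel₀ l0.ne', one_mul]
  have h2 : D2 (fun x => l⁻¹ * v (l • x)) = fun x => l • D2 v (l • x) := by
    funext x i j
    have := congrFun (pd_sc (hv.pd j) 1 l i) x
    simp only [one_mul] at this
    simp only [D2, pd_sc hv, inv_mul_cancel₀ l0.ne', one_mul, this, Pi.smul_apply, smul_eq_mul]
  have h3 : l * A ≤ l * (l * A) := le_mul_of_one_le_left (by positivity) hl
  refine ⟨contDiff_const.mul (hc.1.comp (contDiff_id.const_smul l)), ?_, ?_, ?_⟩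
  · refine Qe.mono (Qe.smul l⁻¹ (ho_scale hc.2.1 hα hl)) (le_trans ?_ h3)
    rw [abs_of_pos (inv_pos.2 l0)]
    exact mul_le_of_le_one_left (by positivity) (inv_le_one_of_one_le₀ hl)
  · rw [h1]; exact Qe.mono (ho_scale hc.2.2.1 hα hl) h3
  · rw [h2]; simpa [abs_of_pos l0] using Qe.smul l (ho_scale hc.2.2.2 hα hl)

theorem white : WHITE := fun m α hα => by
  obtain ⟨σ, σ0, C, C0, hC⟩ := graph_est m hα
  obtain ⟨ε₁, e0, c₁, c0, K, K0, e1, c1, hK⟩ := hold m hα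
  obtain ⟨l₁, l0, hl⟩ := Qe.small hα.1 (show 0 < min (σ / 2) 1 by positivity) K
  obtain ⟨l, l1, l2, l3⟩ : ∃ l > (0 : ℝ), 8 * l ≤ l₁ ∧ 16 * l ≤ c₁ :=
    ⟨min (l₁ / 8) (c₁ / 16), by positivity, by linarith [min_le_left (l₁ / 8) (c₁ / 16)],
      by linarith [min_le_right (l₁ / 8) (c₁ / 16)]⟩
  obtain ⟨c, c2, c3, c4⟩ : ∃ c > (0 : ℝ), 2 * c ≤ l ∧ c ≤ σ / 2 :=
    ⟨min (l / 2) (σ / 2), by positivity, by linarith [min_le_left (l / 2) (σ / 2)],
      min_le_right _ _⟩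
  have l4 : 1 ≤ l⁻¹ := one_le_inv₀ l1 |>.2 (by linarith)
  refine ⟨min ε₁ (c / 2), by positivity, c, c2, l⁻¹ * (l⁻¹ * C), fun S hS hb ht => ?_⟩
  have e2 := min_le_left ε₁ (c / 2)
  have e3 := min_le_right ε₁ (c / 2)
  have ho := hK S hS (hb.mono Subset.rfl e2 e2) (by linarith)
  have key : ∀ p ∈ ball (0 : E (m + 1)) c, S.Φ p = 0 → ∀ e L, Fr e L → ‖S.n p - e‖ ≤ c →
      (∃ v : E m → ℝ, Smooth v ∧ C2H α C v ∧ (∀ y, ‖gradient v y‖ ≤ 1 / 2) ∧
        Gr (S.sc p l) 0 e L 2 v) ∧ ∀ q ∈ ball (0 : E (m + 1)) 1, ∀ q' ∈ ball (0 : E (m + 1)) 1,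
        (S.sc p l).Φ q = 0 → (S.sc p l).Φ q' = 0 →
          ‖(S.sc p l).n q - (S.sc p l).n q'‖ ≤ C * ‖q - q'‖ := fun p hp h0 e L h hn => by
    rw [mem_ball_zero_iff] at hp
    have hm : ∀ x ∈ ball (0 : E (m + 1)) 8, p + l • x ∈ ball (0 : E (m + 1)) c₁ := fun x hx => by
      have a1 := norm_add_le p (l • x)
      rw [norm_smul, Real.norm_of_nonneg l1.le] at a1
      rw [mem_ball_zero_iff] at hx ⊢
      nlinarith
    refine hC _ 0 e L (sc_ok hS p l1) ((scb m S 0 p 4 _ _ l 8 hS hb l1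
      (ball_subset_ball' ?_)).mono Subset.rfl (by linarith) (by nlinarith [hb.Λ0])) h
      (fun x hx hx0 => ?_) (by simpa [sc_Φ] using h0) fun x hx x' hx' h1 h2 => ?_
    · rw [dist_zero_right]; linarith
    · have a1 := ho _ (hm x hx) p (mem_ball_zero_iff.2 (by linarith)) hx0 h0
      rw [add_sub_cancel_left, norm_smul, Real.norm_of_nonneg l1.le] at a1
      have a2 : K * (l * ‖x‖) ^ α ≤ K * l₁ ^ α := by
        gcongr
        exacts [hα.1.le, by nlinarith [mem_ball_zero_iff.1 hx]]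
      rw [sc_n hS p l1]
      linarith [norm_sub_le_norm_sub_add_norm_sub (S.n (p + l • x)) (S.n p) e,
        min_le_left (σ / 2) 1]
    · have a1 := ho _ (hm x hx) _ (hm x' hx') h1 h2
      rw [add_sub_add_left_eq_sub, ← smul_sub, norm_smul, Real.norm_of_nonneg l1.le,
        Real.mul_rpow l1.le (norm_nonneg _), ← mul_assoc] at a1
      rw [sc_n hS p l1, sc_n hS p l1]
      refine a1.trans (mul_le_of_le_one_left (by positivity)
        (le_trans ?_ (hl.trans (min_le_right _ _))))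
      gcongr
      exacts [hα.1.le, by linarith]
  refine ⟨fun p hp q hq h1 h2 => ?_, fun p hp h0 e L h hn => ?_⟩
  · obtain ⟨e, he, hn⟩ := hb.unit hS (by linarith) (ball_subset_ball (by linarith) hp)
    obtain ⟨L, hL⟩ := exists_fr he
    have a2 : p + l • (l⁻¹ • (q - p)) = q := by rw [smul_inv_smul₀ l1.ne', add_sub_cancel]
    have a3 : ‖l⁻¹ • (q - p)‖ = l⁻¹ * ‖p - q‖ := by
      rw [norm_smul, Real.norm_of_nonneg (by linarith), norm_sub_rev]
    have a1 := (key p hp h1 e L hL (by linarith)).2 0 (mem_ball_self one_pos) (l⁻¹ • (q - p))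
      (by
        rw [mem_ball_zero_iff, a3, inv_mul_lt_iff₀ l1]
        linarith [norm_sub_le p q, mem_ball_zero_iff.1 hp, mem_ball_zero_iff.1 hq])
      (by simpa [sc_Φ] using h1) (by rwa [sc_Φ, a2])
    rw [sc_n hS p l1, sc_n hS p l1, a2, smul_zero, add_zero, zero_sub, norm_neg, a3] at a1
    refine a1.trans ?_
    rw [← mul_assoc, mul_comm C]
    gcongr
    exact le_mul_of_one_le_left (by positivity) l4
  · obtain ⟨v, v1, v2, v3, v4⟩ := (key p hp h0 e L h hn).1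
    refine ⟨fun y => l * v (l⁻¹ • y), contDiff_const.mul (v1.comp (contDiff_id.const_smul _)),
      by simpa using c2h_scale v1 v2 hα l4, fun y => ?_, fun y s hy hs => ?_⟩
    · have h5 : Smooth fun z => v (l⁻¹ • z) := ContDiff.comp v1 (contDiff_id.const_smul _)
      rw [norm_gradient, fderiv_const_mul (h5.diff y), fderiv_comp_smul, smul_inv_smul₀ l1.ne',
        ← norm_gradient]
      exact v3 _
    · have a1 := v4 (l⁻¹ • y) (l⁻¹ * s) (by
        rw [norm_smul, Real.norm_of_nonneg (by linarith), inv_mul_lt_iff₀ l1]; linarith) (by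
        rw [abs_mul, abs_of_pos (by linarith), inv_mul_lt_iff₀ l1]; linarith)
      rw [sc_Φ, zero_add, smul_add, map_smul, smul_inv_smul₀ l1.ne', smul_smul,
        mul_inv_cancel_left₀ l1.ne', ← add_assoc, inv_mul_lt_iff₀ l1,
        inv_mul_eq_iff_eq_mul₀ l1.ne'] at a1
      exact a1

theorem cmp_ : CMP := cmp_of abd

theorem stab : STAB := stab_of fv

end Vale.Agent.P366W
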