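import Vale.Agent.P366W.Fv

/-!
# P366W: the area bound and monotonicity
-/

open MeasureTheory Metric Filter Topology Set
open scoped ContDiff ENNReal RealInnerProductSpace
open Vale.Agent.P366.Stmt Vale.Agent.P366Y

noncomputable section

namespace Vale.Agent.P366W

variable {N m : ℕ}

theorem det_ne_of_pos {M : E N →L[ℝ] E N} (h : ∀ v, v ≠ 0 → 0 < ⟪v, M v⟫) : M.det ≠ 0 := by
  intro h0
  obtain ⟨v, hv, h1⟩ := Submodule.exists_mem_ne_zero_of_ne_bot
    ((LinearMap.det_eq_zero_iff_ker_ne_bot (f := (M : E N →ₗ[ℝ] E N))).1 h0)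
  have h2 : M v = 0 := hv
  simpa [h2] using h v h1

theorem det_pos_of_pos {M : E N →L[ℝ] E N} (h : ∀ v, v ≠ 0 → 0 < ⟪v, M v⟫) : 0 < M.det := by
  by_contra h0
  have hc : Continuous fun t : ℝ => ((1 - t) • M + t • ContinuousLinearMap.id ℝ (E N)).det :=
    ContinuousLinearMap.continuous_det.comp (by fun_prop)
  obtain ⟨t, ht, h1⟩ := intermediate_value_Icc zero_le_one hc.continuousOn
    (show (0 : ℝ) ∈ Icc _ _ from ⟨by
      have e : (1 - 0 : ℝ) • M + (0 : ℝ) • ContinuousLinearMap.id ℝ (E N) = M := by ext; simp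
      simp only [e]; exact not_lt.1 h0,
      by simp [ContinuousLinearMap.det]⟩)
  refine det_ne_of_pos (fun v hv => ?_) h1
  have h2 := h v hv
  have h3 : 0 < ⟪v, v⟫ := real_inner_self_pos.2 hv
  simp only [add_apply, smul_apply, ContinuousLinearMap.id_apply, inner_add_right,
    real_inner_smul_right]
  rcases ht.1.eq_or_lt with rfl | h4
  · simpa using h2
  · nlinarith [mul_nonneg (sub_nonneg.2 ht.2) h2.le, mul_pos h4 h3]

theorem det_bounds (N : ℕ) : ∃ d > (0 : ℝ), ∃ D > (0 : ℝ), ∀ M : E N →L[ℝ] E N,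
    ‖M - ContinuousLinearMap.id ℝ (E N)‖ ≤ 1 / 2 → d ≤ √M.det ∧ √M.det ≤ D := by
  have hK := isCompact_closedBall (ContinuousLinearMap.id ℝ (E N)) (1 / 2)
  have hc : Continuous fun M : E N →L[ℝ] E N => √M.det := ContinuousLinearMap.continuous_det.sqrt
  obtain ⟨M₀, h0, h1⟩ := hK.exists_isMinOn ⟨_, mem_closedBall_self (by norm_num)⟩ hc.continuousOn
  obtain ⟨M₁, -, h2⟩ := hK.exists_isMaxOn ⟨_, mem_closedBall_self (by norm_num)⟩ hc.continuousOn
  have h3 : 0 < √M₀.det := by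
    refine Real.sqrt_pos.2 (det_pos_of_pos fun v hv => ?_)
    have h4 := (M₀ - ContinuousLinearMap.id ℝ (E N)).le_of_opNorm_le
      (mem_closedBall_iff_norm.1 h0) v
    have h5 := abs_real_inner_le_norm v ((M₀ - ContinuousLinearMap.id ℝ (E N)) v)
    simp only [sub_apply, ContinuousLinearMap.id_apply, inner_sub_right,
      real_inner_self_eq_norm_sq] at h4 h5
    have h6 := norm_pos_iff.2 hv
    nlinarith [(abs_le.1 h5).1]
  exact ⟨_, h3, √M₁.det, h3.trans_le (h2 h0), fun M hM =>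
    ⟨h1 (mem_closedBall_iff_norm.2 hM), h2 (mem_closedBall_iff_norm.2 hM)⟩⟩

namespace Surf

variable {S : Surf N} {x₀ y : E N} {R η Λ ρ : ℝ}

/-- the square of the distance in the frozen metric -/
def q (S : Surf N) (y x : E N) : ℝ := ⟪S.A y (x - y), x - y⟫

/-- the weighted area of a ball -/
def M (S : Surf N) (y : E N) (ρ : ℝ) : ℝ := ∫ x, ph (S.q y x / ρ ^ 2) ∂S.μ

theorem th_eq (S : Surf (m + 1)) (y : E (m + 1)) (r : ℝ) :
    S.th y r = S.M y r / (cm m * r ^ m * (S.a y * √(S.B y).det)) := rfl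

theorem M_nonneg (S : Surf N) (y : E N) (ρ : ℝ) : 0 ≤ S.M y ρ :=
  integral_nonneg fun _ => ph_nonneg _

theorem Ok.det_pos (h : S.Ok) (y : E N) : 0 < √(S.B y).det :=
  Real.sqrt_pos.2 (det_pos_of_pos (h.pos y))

theorem Ok.th_nonneg {S : Surf (m + 1)} (h : S.Ok) (y : E (m + 1)) {r : ℝ} (hr : 0 ≤ r) :
    0 ≤ S.th y r := by
  have := S.M_nonneg y r
  have := cm_pos m
  have := h.a0 y
  rw [th_eq]; positivity

theorem smq (S : Surf N) (y : E N) {k : WithTop ℕ∞} : ContDiff ℝ k (S.q y) :=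
  ((S.A y).contDiff.comp (contDiff_id.sub contDiff_const)).inner ℝ (contDiff_id.sub contDiff_const)

theorem Ok.q_nonneg (h : S.Ok) (y x : E N) : 0 ≤ S.q y x := h.A_nonneg _ _

theorem Ok.hasFDerivAt_q (h : S.Ok) (y x : E N) :
    HasFDerivAt (S.q y) ((2 : ℝ) • innerSL ℝ (S.A y (x - y))) x := by
  have h1 : HasFDerivAt (fun x : E N => x - y) (ContinuousLinearMap.id ℝ _) x :=
    (hasFDerivAt_id x).sub_const y
  have h2 := ((S.A y).hasFDerivAt.comp x h1).inner ℝ h1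
  refine HasFDerivAt.congr_fderiv h2 ?_
  ext v
  simp only [ContinuousLinearMap.comp_apply, ContinuousLinearMap.prod_apply, fderivInnerCLM_apply,
    Function.comp_apply, ContinuousLinearMap.id_apply, smul_apply, innerSL_apply_apply, smul_eq_mul]
  rw [h.symA y v, real_inner_comm _ v]; ring

theorem Ok.hasFDerivAt_ph (h : S.Ok) (y x : E N) (ρ : ℝ) :
    HasFDerivAt (fun x => ph (S.q y x / ρ ^ 2))
      ((-(2 * dph (S.q y x / ρ ^ 2) / ρ ^ 2)) • innerSL ℝ (S.A y (x - y))) x := by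
  have h1 := (hasDerivAt_ph _).comp_hasFDerivAt x ((h.hasFDerivAt_q y x).mul_const (ρ ^ 2)⁻¹)
  simp only [← div_eq_mul_inv] at h1
  refine HasFDerivAt.congr_fderiv h1 ?_
  rw [smul_smul, smul_smul]; congr 1; ring

theorem sm_ph (S : Surf N) (y : E N) (ρ : ℝ) : ContDiff ℝ 2 fun x => ph (S.q y x / ρ ^ 2) :=
  contDiff_ph.comp ((S.smq y).div_const _)

theorem Bd.far (h : S.Ok) (hb : S.Bd x₀ R η Λ) (hη : η ≤ 1 / 2) (hy : y ∈ ball x₀ R) (hρ : 0 < ρ)
    {x : E N} (hx : 5 / 4 * ρ ≤ ‖x - y‖) : 1 ≤ S.q y x / ρ ^ 2 := by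
  rw [le_div_iff₀ (by positivity)]
  have h1 := hb.Aq_lo h hη hy (x - y)
  have h2 : (5 / 4 * ρ) ^ 2 ≤ ‖x - y‖ ^ 2 := pow_le_pow_left₀ (by positivity) hx 2
  unfold q
  nlinarith

theorem Bd.hcs (h : S.Ok) (hb : S.Bd x₀ R η Λ) (hη : η ≤ 1 / 2) (hy : y ∈ ball x₀ R) (hρ : 0 < ρ)
    {F : Type} [Zero F] [TopologicalSpace F] {f : E N → F}
    (hf : ∀ x, 1 ≤ S.q y x / ρ ^ 2 → f x = 0) : HasCompactSupport f :=
  HasCompactSupport.intro (isCompact_closedBall y (5 / 4 * ρ)) fun x hx =>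
    hf x (hb.far h hη hy hρ (le_of_lt (by simpa [dist_eq_norm] using hx)))

/-- the derivative of the weighted area -/
theorem Bd.hasDerivAt_M (h : S.Ok) (hb : S.Bd x₀ R η Λ) (hη : η ≤ 1 / 2) (hy : y ∈ ball x₀ R)
    (hρ : 0 < ρ) : HasDerivAt (S.M y)
      ((∫ x, dph (S.q y x / ρ ^ 2) * (2 * (S.q y x / ρ ^ 2)) ∂S.μ) / ρ) ρ := by
  have cq : Continuous (S.q y) := (S.smq y (k := 0)).continuous
  have := h.fin
  have h1 := hasDerivAt_integral_of_dominated_loc_of_deriv_le (μ := S.μ) (x₀ := ρ)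
    (F := fun t x => ph (S.q y x / t ^ 2))
    (F' := fun t x => dph (S.q y x / t ^ 2) * (2 * (S.q y x / t ^ 2)) / t)
    (bound := indicator (closedBall y (3 * ρ)) fun _ => 12 / ρ) (s := Ioo (ρ / 2) (2 * ρ))
    (Ioo_mem_nhds (by linarith) (by linarith))
    (Eventually.of_forall fun t => (S.sm_ph y t).continuous.aestronglyMeasurable)
    (h.integrable (S.sm_ph y ρ).continuous (hb.hcs h hη hy hρ fun x => ph_zero))
    (((continuous_dph.comp (cq.div_const _)).mul (by fun_prop)).div_const _).aestronglyMeasurable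
    (Eventually.of_forall fun x t ht => ?_)
    ((integrable_indicator_iff measurableSet_closedBall).2
      (continuousOn_const.integrableOn_compact (isCompact_closedBall _ _)))
    (Eventually.of_forall fun x t ht => ?_)
  · rw [← integral_div]; exact h1.2
  · have ht0 : 0 < t := by linarith [ht.1]
    by_cases h2 : 1 ≤ S.q y x / t ^ 2
    · rw [dph_zero h2, zero_mul, zero_div, norm_zero]
      exact indicator_nonneg (fun _ _ => by positivity) _
    have h3 : x ∈ closedBall y (3 * ρ) := by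
      by_contra h4
      refine h2 (hb.far h hη hy ht0 ?_)
      have : 3 * ρ < ‖x - y‖ := by simpa [dist_eq_norm] using h4
      linarith [ht.2]
    have h5 : 0 ≤ S.q y x / t ^ 2 := div_nonneg (h.q_nonneg y x) (sq_nonneg _)
    have h6 := dph_le h5
    have h7 := dph_nonneg (S.q y x / t ^ 2)
    rw [indicator_of_mem h3, Real.norm_of_nonneg (by positivity), div_le_div_iff₀ ht0 hρ]
    have : dph (S.q y x / t ^ 2) * (2 * (S.q y x / t ^ 2)) ≤ 3 * (2 * 1) := by
      gcongr; exact (not_le.1 h2).le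
    nlinarith [ht.1]
  · have ht0 : 0 < t := by linarith [ht.1]
    have h2 : HasDerivAt (fun t : ℝ => S.q y x / t ^ 2) (-(2 * (S.q y x / t ^ 2)) / t) t := by
      refine HasDerivAt.congr_deriv ((hasDerivAt_const t (S.q y x)).div (hasDerivAt_pow 2 t)
        (by positivity)) ?_
      simp only [Nat.cast_ofNat, Nat.add_one_sub_one, pow_one]
      field_simp; ring
    refine HasDerivAt.congr_deriv ((hasDerivAt_ph _).comp t h2) ?_
    ring

theorem radial_arith {m M X Z F κ : ℝ} (hm : 0 ≤ m) (hM : 0 ≤ M) (hX0 : 0 ≤ X) (hZ0 : 0 ≤ Z)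
    (hκ0 : 0 ≤ κ) (hκ1 : 56 * κ ≤ 1) (h6 : |m * M - X + Z + F| ≤ 10 * (κ * M))
    (h5 : |F| ≤ 14 * (κ * X)) : 2 / 3 * Z - 14 * (2 * m + 3) * (κ * M) ≤ X - m * M := by
  obtain ⟨h7, h8⟩ := abs_le.1 h6
  obtain ⟨h9, h10⟩ := abs_le.1 h5
  have k4 : 56 * (κ * X) ≤ X := by nlinarith
  have k5 : 56 * (κ * M) ≤ M := by nlinarith
  have k6 : 3 * X ≤ 4 * ((m + 1) * M + Z) := by nlinarith
  have k7 : 3 * (κ * X) ≤ 4 * ((m + 1) * (κ * M) + κ * Z) := by nlinarith
  have k8 : 56 * (κ * Z) ≤ Z := by nlinarith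
  nlinarith [mul_nonneg hm (mul_nonneg hκ0 hM), mul_nonneg hκ0 hM]

theorem Ok.radial_pt {S : Surf (m + 1)} (h : S.Ok) (y x : E (m + 1)) (ρ : ℝ) :
    dvg (fun x => ph (S.q y x / ρ ^ 2) • (x - y)) x - ⟪S.n x,
      fderiv ℝ (fun x => ph (S.q y x / ρ ^ 2) • (x - y)) x (S.ν x)⟫ =
    m * ph (S.q y x / ρ ^ 2) - dph (S.q y x / ρ ^ 2) * (2 * (S.q y x / ρ ^ 2)) +
      dph (S.q y x / ρ ^ 2) * (2 * ⟪S.n x, x - y⟫ ^ 2 / ρ ^ 2) + dph (S.q y x / ρ ^ 2) *
    (2 * (⟪S.A y (x - y), S.ν x⟫ - ⟪S.n x, x - y⟫) * ⟪S.n x, x - y⟫ / ρ ^ 2) := by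
  have h3 : HasFDerivAt (fun x => ph (S.q y x / ρ ^ 2) • (x - y)) _ x :=
    (h.hasFDerivAt_ph y x ρ).smul ((hasFDerivAt_id x).sub_const y)
  rw [dvg_eq, h3.fderiv]
  simp only [trc_add, trc_smul, trc_id, trc_smulRight, add_apply, smul_apply,
    ContinuousLinearMap.id_apply, ContinuousLinearMap.smulRight_apply, innerSL_apply_apply,
    smul_eq_mul, inner_add_right, real_inner_smul_right, h.nν]
  rw [show ⟪S.A y (x - y), x - y⟫ = S.q y x from rfl]
  push_cast; ring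

theorem Bd.radial_err (h : S.Ok) (hb : S.Bd x₀ R η Λ) (hη : η ≤ 1 / 2) (hρ : 0 < ρ)
    (hy0 : y ∈ ball x₀ R) {x : E N} (e1 : ‖x - y‖ ≤ 5 / 4 * ρ) (e2 : x ∈ ball x₀ R) :
    ‖dph (S.q y x / ρ ^ 2) *
      (2 * (⟪S.A y (x - y), S.ν x⟫ - ⟪S.n x, x - y⟫) * ⟪S.n x, x - y⟫ / ρ ^ 2)‖ ≤
      14 * (Λ * ρ) * (dph (S.q y x / ρ ^ 2) * (2 * (S.q y x / ρ ^ 2))) := by
  have hΛ := hb.Λ0
  have e3 : ⟪S.A y (x - y), S.ν x⟫ - ⟪S.n x, x - y⟫ =
      ⟪S.A y (x - y), (S.B x - S.B y) (S.n x)⟫ := by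
    rw [sub_apply, inner_sub_right (S.A y (x - y)), ← h.sym y, h.BA, real_inner_comm (S.n x)]
    rfl
  have e4 := (S.B x - S.B y).le_of_opNorm_le (hb.B_lip h e2 hy0) (S.n x)
  have e5 := hb.A_hi h hη hy0 (x - y)
  have e6 := hb.n_le h hη e2
  have e7 : |⟪S.A y (x - y), S.ν x⟫ - ⟪S.n x, x - y⟫| ≤
      2 * ‖x - y‖ * (Λ * ‖x - y‖ * (3 / 2)) := by
    rw [e3]
    refine (abs_real_inner_le_norm _ _).trans ?_
    gcongr
    exact e4.trans (by gcongr)
  have e8 : |⟪S.n x, x - y⟫| ≤ 3 / 2 * (5 / 4 * ρ) :=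
    (abs_real_inner_le_norm _ _).trans (by gcongr)
  have e9 : 2 * ‖x - y‖ ^ 2 ≤ 3 * S.q y x := hb.Aq_lo h hη hy0 (x - y)
  have e10 : |(⟪S.A y (x - y), S.ν x⟫ - ⟪S.n x, x - y⟫) * ⟪S.n x, x - y⟫| ≤
      14 * (Λ * ρ) * S.q y x := by
    rw [abs_mul]
    refine (mul_le_mul e7 e8 (abs_nonneg _) (by positivity)).trans ?_
    nlinarith [mul_nonneg hΛ hρ.le, h.q_nonneg y x]
  have e11 := dph_nonneg (S.q y x / ρ ^ 2)
  rw [Real.norm_eq_abs, abs_mul, abs_of_nonneg e11, abs_div, mul_assoc 2, abs_mul 2,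
    abs_of_pos (pow_pos hρ 2), abs_two]
  calc _ ≤ dph (S.q y x / ρ ^ 2) * (2 * (14 * (Λ * ρ) * S.q y x) / ρ ^ 2) := by gcongr
    _ = _ := by ring

/-- the first variation of the radial field -/
theorem Bd.radial {S : Surf (m + 1)} {x₀ y : E (m + 1)} (h : S.Ok) (hb : S.Bd x₀ R η Λ)
    (hη : η ≤ 1 / 2) (hρ : 0 < ρ) (hy : ball y (2 * ρ) ⊆ ball x₀ R) (hs : 56 * Λ * ρ ≤ 1) :
    2 / 3 * (∫ x, dph (S.q y x / ρ ^ 2) * (2 * ⟪S.n x, x - y⟫ ^ 2 / ρ ^ 2) ∂S.μ) -
      14 * (2 * m + 3) * Λ * ρ * S.M y ρ ≤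
      (∫ x, dph (S.q y x / ρ ^ 2) * (2 * (S.q y x / ρ ^ 2)) ∂S.μ) - m * S.M y ρ := by
  have hy0 : y ∈ ball x₀ R := hy (mem_ball_self (by linarith))
  have cq : Continuous (S.q y) := (S.smq y (k := 0)).continuous
  have cd : Continuous fun x => dph (S.q y x / ρ ^ 2) := continuous_dph.comp (cq.div_const _)
  have cp := (S.sm_ph y ρ).continuous
  have cn := h.smn.continuous
  have cν := h.smν.continuous
  have hΛ := hb.Λ0
  have hin : ∀ x, S.q y x / ρ ^ 2 < 1 → ‖x - y‖ ≤ 5 / 4 * ρ ∧ x ∈ ball x₀ R := fun x hx => by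
    have : ‖x - y‖ ≤ 5 / 4 * ρ := by
      by_contra h1
      linarith [hb.far h hη hy0 hρ (not_le.1 h1).le]
    exact ⟨this, hy (by rw [mem_ball, dist_eq_norm]; linarith)⟩
  have h1 := fvb _ S x₀ R η Λ h hb hη (fun x => ph (S.q y x / ρ ^ 2) • (x - y))
    ((S.sm_ph y ρ).smul (contDiff_id.sub contDiff_const))
    (hb.hcs h hη hy0 hρ fun x hx => by simp [ph_zero hx]) fun x hx => by
      by_contra h2
      exact hx (hin x (not_le.1 fun h3 => h2 (by simp [ph_zero h3]))).2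
  simp only [h.radial_pt] at h1
  have iM : Integrable (fun x => ph (S.q y x / ρ ^ 2)) S.μ :=
    h.integrable cp (hb.hcs h hη hy0 hρ fun x => ph_zero)
  have iX : Integrable (fun x => dph (S.q y x / ρ ^ 2) * (2 * (S.q y x / ρ ^ 2))) S.μ :=
    h.integrable (by fun_prop) (hb.hcs h hη hy0 hρ fun x hx => by simp [dph_zero hx])
  have iZ : Integrable (fun x => dph (S.q y x / ρ ^ 2) * (2 * ⟪S.n x, x - y⟫ ^ 2 / ρ ^ 2)) S.μ :=
    h.integrable (by fun_prop) (hb.hcs h hη hy0 hρ fun x hx => by simp [dph_zero hx])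
  have iF : Integrable (fun x => dph (S.q y x / ρ ^ 2) *
      (2 * (⟪S.A y (x - y), S.ν x⟫ - ⟪S.n x, x - y⟫) * ⟪S.n x, x - y⟫ / ρ ^ 2)) S.μ :=
    h.integrable (by fun_prop) (hb.hcs h hη hy0 hρ fun x hx => by simp [dph_zero hx])
  have i1 : Integrable (fun x => m * ph (S.q y x / ρ ^ 2) -
      dph (S.q y x / ρ ^ 2) * (2 * (S.q y x / ρ ^ 2))) S.μ := (iM.const_mul _).sub iX
  have i2 : Integrable (fun x => m * ph (S.q y x / ρ ^ 2) -
      dph (S.q y x / ρ ^ 2) * (2 * (S.q y x / ρ ^ 2)) +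
      dph (S.q y x / ρ ^ 2) * (2 * ⟪S.n x, x - y⟫ ^ 2 / ρ ^ 2)) S.μ := i1.add iZ
  rw [integral_add i2 iF, integral_add i1 iZ, integral_sub (iM.const_mul _) iX,
    integral_const_mul] at h1
  have h4 : ∫ x, ‖ph (S.q y x / ρ ^ 2) • (x - y)‖ ∂S.μ ≤ 2 * ρ * S.M y ρ := by
    rw [M, ← integral_const_mul]
    refine integral_mono_of_nonneg (Eventually.of_forall fun x => norm_nonneg _) (iM.const_mul _)
      (Eventually.of_forall fun x => ?_)
    simp only [norm_smul, Real.norm_of_nonneg (ph_nonneg _)]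
    by_cases hx : S.q y x / ρ ^ 2 < 1
    · nlinarith [ph_nonneg (S.q y x / ρ ^ 2), (hin x hx).1]
    · simp [ph_zero (not_lt.1 hx)]
  have h5 := norm_integral_le_of_norm_le (f := fun x => dph (S.q y x / ρ ^ 2) *
      (2 * (⟪S.A y (x - y), S.ν x⟫ - ⟪S.n x, x - y⟫) * ⟪S.n x, x - y⟫ / ρ ^ 2))
      (iX.const_mul (14 * (Λ * ρ))) (Eventually.of_forall fun x => by
    by_cases hx : S.q y x / ρ ^ 2 < 1
    · exact hb.radial_err h hη hρ hy0 (hin x hx).1 (hin x hx).2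
    · simp [dph_zero (not_lt.1 hx)])
  rw [integral_const_mul, Real.norm_eq_abs, mul_assoc 14] at h5
  have h6 := h1.trans ((mul_le_mul_of_nonneg_left h4 (by positivity)).trans_eq
    (show _ = 10 * (Λ * ρ * S.M y ρ) by ring))
  have := radial_arith (Nat.cast_nonneg m) (S.M_nonneg y ρ) (integral_nonneg fun x =>
    mul_nonneg (dph_nonneg _) (by have := h.q_nonneg y x; positivity))
    (integral_nonneg fun x => mul_nonneg (dph_nonneg _) (by positivity))
    (by positivity) (by linarith) h6 h5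
  linarith

theorem Bd.grow {S : Surf (m + 1)} {x₀ y : E (m + 1)} {r : ℝ} (h : S.Ok) (hb : S.Bd x₀ R η Λ)
    (hη : η ≤ 1 / 2) (hy : ball y (2 * r) ⊆ ball x₀ R) (hs : 56 * Λ * r ≤ 1) {s I : ℝ}
    (h0 : 0 < s) (hr : s ≤ r) (hI0 : 0 ≤ I) (hI : ∀ ρ ∈ Icc s r,
      I ≤ ∫ x, dph (S.q y x / ρ ^ 2) * (2 * ⟪S.n x, x - y⟫ ^ 2 / ρ ^ 2) ∂S.μ) :
    2 / 3 * I / r ^ (m + 1) * (r - s) ≤
      Real.exp (14 * (2 * m + 3) * Λ * r) * (S.M y r / r ^ m) - S.M y s / s ^ m := by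
  have hy0 : y ∈ ball x₀ R := hy (mem_ball_self (by linarith))
  have hΛ := hb.Λ0
  set C := 14 * (2 * (m : ℝ) + 3) * Λ with hC
  have hC0 : 0 ≤ C := by positivity
  have hd : ∀ ρ ∈ Icc s r, ∃ g', HasDerivAt (fun t => Real.exp (C * t) * (S.M y t / t ^ m)) g' ρ ∧
      2 / 3 * I / r ^ (m + 1) ≤ g' := fun ρ hρ => by
    have hρ0 : 0 < ρ := h0.trans_le hρ.1
    have h1 := ((hasDerivAt_id ρ).const_mul C).exp.mul
      ((hb.hasDerivAt_M h hη hy0 hρ0).div (hasDerivAt_pow m ρ) (by positivity))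
    refine ⟨_, h1, ?_⟩
    have h2 := hb.radial h hη hρ0 ((ball_subset_ball (by linarith [hρ.2])).trans hy)
      (le_trans (by gcongr; exact hρ.2) hs)
    have h3 := hI ρ hρ
    set X := ∫ x, dph (S.q y x / ρ ^ 2) * (2 * (S.q y x / ρ ^ 2)) ∂S.μ
    have h4 : (m : ℝ) * ρ ^ (m - 1) = m * ρ ^ m / ρ := by
      rcases m with _ | m
      · simp
      · rw [Nat.add_sub_cancel, pow_succ]; field_simp
    have h5 : 1 ≤ Real.exp (C * ρ) := Real.one_le_exp (by positivity)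
    calc _ ≤ 2 / 3 * I / ρ ^ (m + 1) := by gcongr; exact hρ.2
      _ ≤ (C * ρ * S.M y ρ + (X - m * S.M y ρ)) / ρ ^ (m + 1) := by gcongr; linarith
      _ ≤ Real.exp (C * ρ) * ((C * ρ * S.M y ρ + (X - m * S.M y ρ)) / ρ ^ (m + 1)) :=
        le_mul_of_one_le_left (div_nonneg (by linarith) (by positivity)) h5
      _ = _ := by simp only [id, h4, Pi.div_apply]; field_simp; ring
  choose! g hg1 hg2 using hd
  have h6 := (convex_Icc s r).mul_sub_le_image_sub_of_le_deriv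
    (fun ρ hρ => (hg1 ρ hρ).continuousAt.continuousWithinAt)
    (fun ρ hρ => (hg1 ρ (interior_subset hρ)).differentiableAt.differentiableWithinAt)
    (fun ρ hρ => by rw [(hg1 ρ (interior_subset hρ)).deriv]; exact hg2 ρ (interior_subset hρ))
    s ⟨le_rfl, hr⟩ r ⟨hr, le_rfl⟩ hr
  have h7 : S.M y s / s ^ m ≤ Real.exp (C * s) * (S.M y s / s ^ m) :=
    le_mul_of_one_le_left (div_nonneg (S.M_nonneg _ _) (by positivity))
      (Real.one_le_exp (by positivity))
  linarith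

end Surf

theorem mono : MONO := by
  intro m
  obtain ⟨d, hd, D, hD, hdD⟩ := det_bounds (m + 1)
  have hc := cm_pos m
  have hm : (0 : ℝ) ≤ m := Nat.cast_nonneg m
  refine ⟨14 * (2 * m + 4) + 3 * cm m * D, by positivity,
    fun S x₀ y R η Λ r h hb hη hy hs => ?_⟩
  have hΛ := hb.Λ0
  have ha := h.a0 y
  have hq := h.det_pos y
  set C := 14 * (2 * (m : ℝ) + 4) + 3 * cm m * D with hC
  have hC1 : 14 * (2 * (m : ℝ) + 4) ≤ C := le_add_of_nonneg_right (by positivity)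
  have key : ∀ s I, 0 < s → s ≤ r → 0 ≤ I → (∀ ρ ∈ Icc s r,
      I ≤ ∫ x, dph (S.q y x / ρ ^ 2) * (2 * ⟪S.n x, x - y⟫ ^ 2 / ρ ^ 2) ∂S.μ) →
      2 / 3 * I / r ^ (m + 1) * (r - s) ≤ (cm m * (S.a y * √(S.B y).det)) *
        (Real.exp (C * Λ * r) * S.th y r - S.th y s) := fun s I h0 hr hI0 hI => by
    have hr0 : 0 < r := h0.trans_le hr
    refine (hb.grow h hη hy (le_trans (by gcongr; linarith) hs) h0 hr hI0 hI).trans ?_
    have h1 : Real.exp (14 * (2 * m + 3) * Λ * r) * (S.M y r / r ^ m) ≤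
        Real.exp (C * Λ * r) * (S.M y r / r ^ m) := by
      have := S.M_nonneg y r
      gcongr; linarith
    refine (sub_le_sub_right h1 _).trans_eq ?_
    rw [S.th_eq, S.th_eq]; field_simp
  refine ⟨fun s h0 hr => ?_, fun hr0 => ?_⟩
  · have := key s 0 h0 hr le_rfl fun ρ _ =>
      integral_nonneg fun x => mul_nonneg (dph_nonneg _) (by positivity)
    simp only [mul_zero, zero_div, zero_mul] at this
    exact sub_nonneg.1 (nonneg_of_mul_nonneg_right this (by positivity))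
  have hy0 : y ∈ ball x₀ R := hy (mem_ball_self (by linarith))
  set I := ∫ x in ball y (r / 4), ⟪S.n x, x - y⟫ ^ 2 ∂S.μ with hI
  have hI0 : 0 ≤ I := integral_nonneg fun x => sq_nonneg _
  have cq : Continuous (S.q y) := (S.smq y (k := 0)).continuous
  have cn := h.smn.continuous
  have h1 := key (r / 2) (3 / 2 / r ^ 2 * I) (by linarith) (by linarith) (by positivity)
    fun ρ hρ => by
      have hρ0 : 0 < ρ := by linarith [hρ.1]
      have cd : Continuous fun x => dph (S.q y x / ρ ^ 2) := continuous_dph.comp (cq.div_const _)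
      rw [hI, ← integral_const_mul, ← integral_indicator measurableSet_ball]
      refine integral_mono_of_nonneg (Eventually.of_forall fun x =>
        indicator_nonneg (fun _ _ => by positivity) _) (h.integrable (by fun_prop)
          (hb.hcs h hη hy0 hρ0 fun x hx => by simp [dph_zero hx]))
          (Eventually.of_forall fun x => ?_)
      by_cases hx : x ∈ ball y (r / 4)
      swap
      · rw [indicator_of_notMem hx]
        exact mul_nonneg (dph_nonneg _) (by positivity)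
      rw [indicator_of_mem hx]
      have e1 : ‖x - y‖ ≤ ρ / 2 := by
        rw [mem_ball, dist_eq_norm] at hx; linarith [hρ.1]
      have e2 : S.q y x / ρ ^ 2 ≤ 1 / 2 := by
        rw [div_le_iff₀ (by positivity)]
        have := hb.Aq_hi h hη hy0 (x - y)
        have e3 := pow_le_pow_left₀ (norm_nonneg _) e1 2
        unfold Surf.q; nlinarith
      have e3 : 3 / 4 ≤ dph (S.q y x / ρ ^ 2) := by
        rw [dph_of_le (by linarith)]; nlinarith
      calc 3 / 2 / r ^ 2 * ⟪S.n x, x - y⟫ ^ 2 = 3 / 4 * (2 * ⟪S.n x, x - y⟫ ^ 2 / r ^ 2) := by ring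
        _ ≤ 3 / 4 * (2 * ⟪S.n x, x - y⟫ ^ 2 / ρ ^ 2) := by gcongr; exact hρ.2
        _ ≤ _ := mul_le_mul_of_nonneg_right e3 (by positivity)
  have h2 : 2 / 3 * (3 / 2 / r ^ 2 * I) / r ^ (m + 1) * (r - r / 2) = I / (2 * r ^ (m + 2)) := by
    field_simp; ring
  rw [h2, div_le_iff₀ (by positivity)] at h1
  set T := Real.exp (C * Λ * r) * S.th y r - S.th y (r / 2)
  have h3 : 0 ≤ T := by
    by_contra h4
    have : cm m * (S.a y * √(S.B y).det) * T * (2 * r ^ (m + 2)) < 0 :=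
      mul_neg_of_neg_of_pos (mul_neg_of_pos_of_neg (by positivity) (not_le.1 h4)) (by positivity)
    linarith
  have h5 := (hdD _ ((hb.B0 y hy0).trans hη)).2
  have h6 := hb.a_hi hη hy0
  calc I ≤ cm m * (3 / 2 * D) * T * (2 * r ^ (m + 2)) := h1.trans (by gcongr)
    _ = 3 * cm m * D * r ^ (m + 2) * T := by ring
    _ ≤ _ := by gcongr; exact le_add_of_nonneg_left (by positivity)

theorem abd : ABD := by
  intro m
  obtain ⟨d, hd, D, hD, hdD⟩ := det_bounds (m + 1)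
  have hc := cm_pos m
  refine ⟨60 * (2 ^ (m + 1) * volume.real (ball (0 : E (m + 1)) 1)) / (cm m * (1 / 2 * d)),
    fun S x₀ y R η Λ r h hb hη hr hy hs => ?_⟩
  have hy0 : y ∈ ball x₀ R := hy (mem_ball_self (by linarith))
  have hΛ := hb.Λ0
  have h1 := h.flux ((S.sm_ph y r).of_le (by norm_num)) (hb.hcs h hη hy0 hr fun x => ph_zero)
  have h2 : S.M y r ≤ 60 / r * volume.real (ball y (2 * r)) := by
    rw [Surf.M, h1, mul_comm (60 / r), ← smul_eq_mul (volume.real _), ← setIntegral_const,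
      ← integral_indicator measurableSet_ball]
    have hi : Integrable (indicator (ball y (2 * r)) fun _ => 60 / r) :=
      (integrable_indicator_iff measurableSet_ball).2 (integrableOn_const measure_ball_lt_top.ne)
    refine le_trans (Real.le_norm_self _) (le_trans (norm_integral_le_of_norm_le hi.restrict
      (Eventually.of_forall fun x => ?_)) (setIntegral_le_integral hi
      (Eventually.of_forall (indicator_nonneg fun _ _ => by positivity))))
    rw [(h.hasFDerivAt_ph y x r).fderiv]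
    by_cases hx : 1 ≤ S.q y x / r ^ 2
    · simp only [dph_zero hx, ph_zero hx]
      simpa using indicator_nonneg (fun _ _ => by positivity) _
    have e1 : ‖x - y‖ ≤ 5 / 4 * r := by
      by_contra h1
      exact hx (hb.far h hη hy0 hr (not_le.1 h1).le)
    have e2 : x ∈ ball y (2 * r) := by rw [mem_ball, dist_eq_norm]; linarith
    have e0 : 0 ≤ S.q y x / r ^ 2 := div_nonneg (h.q_nonneg y x) (sq_nonneg _)
    have e3 := hb.A_hi h hη hy0 (x - y)
    have e4 := hb.ν_le h hη (hy e2)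
    have e5 : |⟪S.A y (x - y), S.ν x⟫| ≤ 2 * (5 / 4 * r) * (9 / 4) :=
      (abs_real_inner_le_norm _ _).trans (by gcongr; linarith)
    have e6 := hb.H0 x (hy e2)
    have e7 := hb.a_hi hη (hy e2)
    have e8 := dph_le e0
    have e9 := dph_nonneg (S.q y x / r ^ 2)
    have e10 := ph_le_one e0
    have e11 := ph_nonneg (S.q y x / r ^ 2)
    have e12 : Λ ≤ 1 / r := by rwa [le_div_iff₀ hr]
    rw [indicator_of_mem e2, norm_mul, Real.norm_of_nonneg (h.a0 x).le]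
    simp only [smul_apply, innerSL_apply_apply, smul_eq_mul]
    calc _ ≤ 3 / 2 * (2 * 3 / r ^ 2 * (2 * (5 / 4 * r) * (9 / 4)) + 1 * (1 / r)) := by
          gcongr
          refine (norm_add_le _ _).trans ?_
          rw [norm_mul, norm_mul, norm_neg, Real.norm_of_nonneg (by positivity),
            Real.norm_of_nonneg e11]
          gcongr
          · exact e5
          · exact e6.trans e12
      _ ≤ 60 / r := by field_simp; norm_num
  rw [measureReal_def, Measure.addHaar_ball_of_pos _ _ (by linarith), ENNReal.toReal_mul,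
    ENNReal.toReal_ofReal (by positivity), finrank_euclideanSpace, Fintype.card_fin,
    ← measureReal_def] at h2
  have h5 := (hdD _ ((hb.B0 y hy0).trans hη)).1
  have h6 := hb.a_lo hη hy0
  have h7 : 0 ≤ volume.real (ball (0 : E (m + 1)) 1) := measureReal_nonneg
  rw [S.th_eq]
  calc _ ≤ 60 / r * ((2 * r) ^ (m + 1) * volume.real (ball (0 : E (m + 1)) 1)) /
        (cm m * r ^ m * (1 / 2 * d)) := by gcongr
    _ = _ := by rw [mul_pow, pow_succ r]; field_simp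

end Vale.Agent.P366W
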