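import Vale.Agent.P366W.Cap
import Mathlib.Analysis.Calculus.FDeriv.Symmetric

/-!
# P366W: the first variation
-/

open MeasureTheory Metric Filter Topology Set
open scoped ContDiff ENNReal RealInnerProductSpace
open Vale.Agent.P366.Stmt Vale.Agent.P366Y

noncomputable section

namespace Vale.Agent.P366W

variable {N m : ℕ}

theorem two_le_inf : (2 : WithTop ℕ∞) ≤ ((⊤ : ℕ∞) : WithTop ℕ∞) :=
  WithTop.coe_le_coe.2 (le_top : (2 : ℕ∞) ≤ ⊤)

/-- the trace as a continuous linear map -/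
def trcL (N : ℕ) : (E N →L[ℝ] E N) →L[ℝ] ℝ :=
  ⟨⟨⟨trc, trc_add⟩, trc_smul⟩, continuous_trc⟩

theorem dvg_fderiv_apply {U Y : E N → E N} {x : E N} (hU : ContDiffAt ℝ 2 U x)
    (hY : DifferentiableAt ℝ Y x) : dvg (fun y => fderiv ℝ U y (Y y)) x =
      trc (fderiv ℝ U x ∘L fderiv ℝ Y x) + fderiv ℝ (dvg U) x (Y x) := by
  have h1 : DifferentiableAt ℝ (fderiv ℝ U) x :=
    (hU.fderiv_right (m := 1) le_rfl).differentiableAt one_ne_zero
  rw [dvg_eq, fderiv_clm_apply h1 hY, trc_add]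
  congr 1
  have h2 : dvg U = trcL N ∘ fderiv ℝ U := rfl
  rw [h2, ((trcL N).hasFDerivAt.comp x h1.hasFDerivAt).fderiv]
  have h3 := hU.isSymmSndFDerivAt (by simp)
  change _ = trc _
  simp only [trc, ContinuousLinearMap.flip_apply]
  exact Finset.sum_congr rfl fun i _ => by rw [h3.eq]; rfl

theorem dvg_curl {U Y : E N → E N} (hU : ContDiff ℝ 2 U) (hY : ContDiff ℝ 2 Y) (x : E N) :
    dvg (fun y => (dvg Y y • U y + fderiv ℝ U y (Y y)) -
      (dvg U y • Y y + fderiv ℝ Y y (U y))) x = 0 := by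
  have dU := hU.differentiable two_ne_zero x
  have dY := hY.differentiable two_ne_zero x
  have d1 := (contDiff_dvg (k := 1) hU).differentiable one_ne_zero x
  have d2 := (contDiff_dvg (k := 1) hY).differentiable one_ne_zero x
  have d3 := ((hU.fderiv_right (m := 1) le_rfl).differentiable one_ne_zero x).clm_apply dY
  have d4 := ((hY.fderiv_right (m := 1) le_rfl).differentiable one_ne_zero x).clm_apply dU
  rw [dvg_sub ((d2.fun_smul dU).fun_add d3) ((d1.fun_smul dY).fun_add d4),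
    dvg_add (d2.fun_smul dU) d3, dvg_add (d1.fun_smul dY) d4, dvg_smul d2 dU, dvg_smul d1 dY,
    dvg_fderiv_apply hU.contDiffAt dY, dvg_fderiv_apply hY.contDiffAt dU, trc_comm]
  ring

theorem fv : FV := by
  intro N S h Y hY hc
  set U : E N → E N := fun y => S.a y • S.ν y with hUd
  have hU : ContDiff ℝ 2 U := (h.sma.smul h.smν).of_le two_le_inf
  set Z : E N → E N := fun y => (dvg Y y • U y + fderiv ℝ U y (Y y)) -
      (dvg U y • Y y + fderiv ℝ Y y (U y)) with hZd
  have hU1 : ContDiff ℝ 1 U := hU.of_le (by norm_num)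
  have hY1 : ContDiff ℝ 1 Y := hY.of_le (by norm_num)
  have hZ : ContDiff ℝ 1 Z :=
    (((contDiff_dvg (k := 1) hY).smul hU1).add ((hU.fderiv_right (m := 1) le_rfl).clm_apply hY1)).sub
      (((contDiff_dvg (k := 1) hU).smul hY1).add ((hY.fderiv_right (m := 1) le_rfl).clm_apply hU1))
  have hZc : HasCompactSupport Z := by
    refine HasCompactSupport.intro hc.isCompact fun x hx => ?_
    have h1 : fderiv ℝ Y x = 0 :=
      image_eq_zero_of_notMem_tsupport fun h' => hx (tsupport_fderiv_subset ℝ h')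
    simp [hZd, dvg_eq_zero hx, h1, image_eq_zero_of_notMem_tsupport hx]
  have h1 := h.div (fun y => (S.a y)⁻¹ • Z y)
    (((h.sma.of_le (by simp)).inv fun x => (h.a0 x).ne').smul hZ) (hcs_l _ hZc)
  have h2 : (fun y => S.a y • (S.a y)⁻¹ • Z y) = Z := by
    funext y; rw [smul_smul, mul_inv_cancel₀ (h.a0 y).ne', one_smul]
  have h3 : ∀ x, dvg Z x = 0 := dvg_curl hU hY
  simp only [h2, h3, integral_zero] at h1
  rw [← h1]
  refine integral_congr_ae (Eventually.of_forall fun x => ?_)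
  have h4 : fderiv ℝ U x (Y x) = S.a x • fderiv ℝ S.ν x (Y x) + fderiv ℝ S.a x (Y x) • S.ν x := by
    rw [hUd, fderiv_fun_smul (h.da x) (h.dν x)]; simp
  have h5 : dvg U x = S.a x * S.H x := h.aH x
  have h6 := (h.a0 x).ne'
  have h7 : U x = S.a x • S.ν x := rfl
  simp only [hZd, h4, h5, h7, inner_smul_right, inner_sub_right, inner_add_right, map_smul, h.nν,
    h.n_dν]
  field_simp
  ring

theorem fvb : FVB := by
  intro N S x₀ R η Λ h hb hη Y hY hc h0
  have h1 := fv N S h Y hY hc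
  have hY1 : ContDiff ℝ 1 Y := hY.of_le (by norm_num)
  have cn := h.smn.continuous
  have cν := h.smν.continuous
  have cH := h.smH.continuous
  have cY := hY.continuous
  have cD := hY1.continuous_fderiv one_ne_zero
  have ca := h.sma.continuous_fderiv (by simp)
  have cB := h.smB.continuous_fderiv (by simp)
  set f : E N → ℝ := fun x => fderiv ℝ S.a x (Y x) / S.a x +
    ⟪S.n x, fderiv ℝ S.B x (Y x) (S.n x)⟫ / 2 - ⟪S.n x, Y x⟫ * S.H x with hf
  have i1 : Integrable (fun x => dvg Y x - ⟪S.n x, fderiv ℝ Y x (S.ν x)⟫) S.μ := by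
    refine h.integrable ((continuous_dvg hY1).sub (by fun_prop)) ?_
    refine HasCompactSupport.intro hc.isCompact fun x hx => ?_
    have h1 : fderiv ℝ Y x = 0 :=
      image_eq_zero_of_notMem_tsupport fun h' => hx (tsupport_fderiv_subset ℝ h')
    simp [dvg_eq_zero hx, h1]
  have i2 : Integrable f S.μ := by
    refine h.integrable ((((ca.clm_apply cY).div h.sma.continuous fun x => (h.a0 x).ne').add
      (by fun_prop)).sub (by fun_prop)) (hc.mono fun x hx h0 => hx (by simp [hf, h0]))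
  have h2 : ∫ x, (dvg Y x - ⟪S.n x, fderiv ℝ Y x (S.ν x)⟫) ∂S.μ = -∫ x, f x ∂S.μ := by
    rw [eq_neg_iff_add_eq_zero, ← integral_add i1 i2, ← h1]
    refine integral_congr_ae (Eventually.of_forall fun x => ?_)
    simp only [hf]; ring
  rw [h2, abs_neg, ← integral_const_mul, ← Real.norm_eq_abs]
  refine norm_integral_le_of_norm_le ((h.integrable cY.norm hc.norm).const_mul _)
    (Eventually.of_forall fun x => ?_)
  by_cases hx : x ∈ ball x₀ R
  swap
  · simp [hf, h0 x hx]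
  have hΛ := hb.Λ0
  have e1 : |fderiv ℝ S.a x (Y x) / S.a x| ≤ 2 * Λ * ‖Y x‖ := by
    rw [abs_div, abs_of_pos (h.a0 x), div_le_iff₀ (h.a0 x)]
    have := (fderiv ℝ S.a x).le_of_opNorm_le (hb.a1 x hx) (Y x)
    have h3 := hb.a_lo hη hx
    rw [Real.norm_eq_abs] at this
    nlinarith [mul_nonneg hΛ (norm_nonneg (Y x))]
  have e2 : |⟪S.n x, fderiv ℝ S.B x (Y x) (S.n x)⟫| ≤ 2 * Λ * ‖Y x‖ := by
    have h3 := (fderiv ℝ S.B x).le_of_opNorm_le (hb.B1 x hx) (Y x)
    have h4 := (fderiv ℝ S.B x (Y x)).le_of_opNorm_le h3 (S.n x)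
    have h5 := hb.n_sq h hη hx
    calc _ ≤ ‖S.n x‖ * (Λ * ‖Y x‖ * ‖S.n x‖) := (abs_real_inner_le_norm _ _).trans (by gcongr)
      _ = ‖S.n x‖ ^ 2 * (Λ * ‖Y x‖) := by ring
      _ ≤ 2 * (Λ * ‖Y x‖) := by gcongr
      _ = _ := by ring
  have e3 : |⟪S.n x, Y x⟫ * S.H x| ≤ 3 / 2 * ‖Y x‖ * Λ := by
    rw [abs_mul]
    have h5 := hb.n_le h hη hx
    have := hb.H0 x hx
    gcongr
    exact (abs_real_inner_le_norm _ _).trans (by gcongr)
  rw [Real.norm_eq_abs, abs_le]
  rw [abs_le] at e1 e2 e3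
  simp only [hf]
  constructor <;> nlinarith [mul_nonneg hΛ (norm_nonneg (Y x))]

end Vale.Agent.P366W
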