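import Vale.Agent.P366W.Brg0

/-!
# P366W: the bounds for capillary graphs
-/

open MeasureTheory Metric Filter Topology Set
open scoped ContDiff ENNReal RealInnerProductSpace
open Vale.Agent.P366.Stmt Vale.Agent.P366Z
open Vale.Agent.P366D (snc ini)
open Vale.Agent.P366P
open Fin (castSucc last)

noncomputable section

namespace Vale.Agent.P366W

variable {k N : ℕ} {G : Field k} {φ u H : E k → ℝ}

theorem jet_bd {V : Type} [NormedAddCommGroup V] [NormedSpace ℝ V] {f : E N → V}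
    (hf : ContDiff ℝ ∞ f) (c : V) (p : E N) (R : ℝ) : ∃ K ≥ (0 : ℝ), ∀ x ∈ ball p R,
      ‖f x - c‖ ≤ K ∧ ‖fderiv ℝ f x‖ ≤ K ∧ ∀ v, ‖fderiv ℝ (fun y => fderiv ℝ f y v) x‖ ≤ K * ‖v‖ := by
  have h1 : ContDiff ℝ ∞ (fderiv ℝ f) := hf.fderiv_right (m := ∞) le_rfl
  obtain ⟨K, hK⟩ := (isCompact_closedBall p R).exists_bound_of_continuousOn
    (f := fun x => (f x - c, fderiv ℝ f x, fderiv ℝ (fderiv ℝ f) x))
    ((hf.continuous.sub continuous_const).prodMk (h1.continuous.prodMk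
      (h1.continuous_fderiv (by simp)))).continuousOn
  refine ⟨|K|, abs_nonneg _, fun x hx => ?_⟩
  have h2 := (hK x (ball_subset_closedBall hx)).trans (le_abs_self K)
  simp only [Prod.norm_def, max_le_iff] at h2
  refine ⟨h2.1, h2.2.1, fun v => ?_⟩
  rw [fderiv_clm_apply (h1.differentiable (by simp) x) (differentiableAt_const v)]
  simp only [fderiv_fun_const, Pi.zero_apply, ContinuousLinearMap.comp_zero, zero_add]
  exact ContinuousLinearMap.le_of_opNorm_le _ (by rw [ContinuousLinearMap.opNorm_flip]; exact h2.2.2) v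

theorem abs_dn (hG : Met G) (u H : E k → ℝ) (y : E k) : |dn G u H y| ≤ 1 + ip G H H y := by
  have h1 : ip G u H y ^ 2 ≤ ip G u u y * ip G H H y := hG.up_cs y _ _
  have h2 := w_sq hG u y
  have h3 := w_pos hG u y
  have h4 := hG.ip_nonneg H y
  rw [dn, abs_div, abs_of_pos h3, div_le_iff₀ h3]
  refine abs_le_of_sq_le_sq' ?_ (by positivity) |> abs_le.2
  rw [mul_pow, h2]
  nlinarith [mul_nonneg (hG.ip_nonneg u y) h4, mul_nonneg (mul_nonneg (hG.ip_nonneg u y) h4) h4,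
    hG.ip_nonneg u y, mul_nonneg h4 h4]

/-- the bounds for the solutions of the capillary equation -/
theorem cs_bd (hG : Met G) (hφ : Smooth φ) (hH : Smooth H) {O : Set (E k)} (hO : IsOpen O)
    (Λ₀ : ℝ) {S : ℝ} {p : E (k + 1)} (hp : ini p ∈ O) (hS : |p (last k)| < S) :
    ∃ R > (0 : ℝ), ∃ η Λ : ℝ, (∀ x ∈ ball p R, ini x ∈ O ∧ |x (last k)| < S) ∧
      ∀ (u : E k → ℝ) (c ε : ℝ), Smooth u → 0 ≤ ε → ε ≤ 1 → (∀ y ∈ O, |hw G φ u y| ≤ Λ₀) →
        (∀ y ∈ O, |u y| < S → hw G φ u y = H y + c + ε * u y) → (cs G φ u).Bd p R η Λ := by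
  have cl : Continuous fun x : E (k + 1) => x (last k) := by fun_prop
  obtain ⟨R, R0, hR⟩ := Metric.eventually_nhds_iff_ball.1
    ((sm_ini.continuous.continuousAt.eventually (hO.mem_nhds hp)).and
      (cl.abs.continuousAt.eventually (gt_mem_nhds hS)))
  obtain ⟨K₁, k1, h1⟩ := jet_bd (sm_B1 hG) (ContinuousLinearMap.id ℝ _) p R
  obtain ⟨K₂, k2, h2⟩ := jet_bd (sm_a1 hG hφ) 1 p R
  obtain ⟨K₃, k3, h3⟩ := jet_bd (hH.comp sm_ini) 0 p R
  obtain ⟨K₄, k4, h4⟩ := jet_bd ((hG.sm_ip hH hH).comp sm_ini) 0 p R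
  obtain ⟨Λ, dΛ⟩ : ∃ Λ, Λ = K₁ + K₂ + K₃ + K₄ + |Λ₀| + 1 := ⟨_, rfl⟩
  have l0 := abs_nonneg Λ₀
  have l1 : Λ ≤ Λ ^ 2 := by nlinarith
  refine ⟨R, R0, K₁ + K₂, Λ, hR, fun u c ε hu e0 e1 a1 a2 => ?_⟩
  have hz : ∀ x, (cs G φ u).Φ x = 0 → u (ini x) = x (last k) := fun x hx => by
    rw [cs_Φ] at hx; linarith
  refine ⟨by linarith, fun x hx => (h1 x hx).1.trans (by linarith),
    fun x hx => (h1 x hx).2.1.trans (by linarith),
    fun x hx v => ((h1 x hx).2.2 v).trans (by gcongr; linarith),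
    fun x hx => (h2 x hx).1.trans (by linarith), fun x hx => (h2 x hx).2.1.trans (by linarith),
    fun x hx v => ((h2 x hx).2.2 v).trans (by gcongr; linarith), fun x hx => ?_,
    fun x hx y hy b1 b2 => ?_, fun x hx b1 => ?_⟩
  · rw [cs_H hG hφ hu, abs_neg]
    linarith [a1 _ (hR x hx).1, le_abs_self Λ₀]
  · rw [cs_H hG hφ hu, cs_H hG hφ hu, a2 _ (hR x hx).1 (hz x b1 ▸ (hR x hx).2),
      a2 _ (hR y hy).1 (hz y b2 ▸ (hR y hy).2), hz x b1, hz y b2]
    have c1 := (convex_ball p R).norm_image_sub_le_of_norm_fderiv_le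
      (fun z _ => (hH.comp sm_ini).differentiable (by simp) z) (fun z hz => (h3 z hz).2.1) hy hx
    have c2 : |x (last k) - y (last k)| ≤ ‖x - y‖ := PiLp.norm_apply_le (x - y) (last k)
    have c3 := abs_add_le (H (ini x) - H (ini y)) (ε * (x (last k) - y (last k)))
    rw [abs_mul, abs_of_nonneg e0] at c3
    rw [← abs_neg, show -(-(H (ini x) + c + ε * x (last k)) - -(H (ini y) + c + ε * y (last k))) =
      H (ini x) - H (ini y) + ε * (x (last k) - y (last k)) by ring]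
    simp only [Function.comp_apply, Real.norm_eq_abs] at c1
    nlinarith [mul_le_mul e1 c2 (abs_nonneg _) zero_le_one, norm_nonneg (x - y),
      mul_le_mul_of_nonneg_right (show K₃ + 1 ≤ Λ ^ 2 by linarith) (norm_nonneg (x - y))]
  · have di : DifferentiableAt ℝ (ini : E (k + 1) → E k) x := sm_ini.differentiable (by simp) x
    have c1 : (cs G φ u).H =ᶠ[𝓝 x] fun y => -(H (ini y) + c + ε * u (ini y)) := by
      filter_upwards [isOpen_ball.mem_nhds hx, ((hu.comp sm_ini).continuous.abs.continuousAt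
        (x := x)).eventually (gt_mem_nhds (show |u (ini x)| < S from hz x b1 ▸ (hR x hx).2))]
        with y c2 c3
      rw [cs_H hG hφ hu, a2 _ (hR y c2).1 c3]
    have c2 : HasFDerivAt (fun y => -(H (ini y) + c + ε * u (ini y)))
        (-(fderiv ℝ (fun y => H (ini y)) x + ε • fderiv ℝ (fun y => u (ini y)) x)) x :=
      ((((hH.diff _).comp x di).hasFDerivAt.add_const c).add
        (((hu.diff _).comp x di).hasFDerivAt.const_mul ε)).neg
    rw [c1.fderiv_eq, c2.fderiv, neg_apply, add_apply, smul_apply, cs_dν hG hu (hH.diff _),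
      cs_dν hG hu (hu.diff _), smul_eq_mul]
    have c3 : 0 ≤ dn G u u (ini x) := div_nonneg (hG.ip_nonneg _ _) (w_pos hG _ _).le
    have c4 := (abs_le.1 (abs_dn hG u H (ini x))).1
    have c5 := (abs_le.1 (h4 x hx).1).2
    simp only [Function.comp_apply, sub_zero] at c5
    nlinarith [mul_nonneg e0 c3]

end Vale.Agent.P366W
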