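import Vale.Agent.P366W.White3
import Vale.Agent.P366W.Ub

/-!
# P366W: small excess gives small tilt; limits of families
-/

open MeasureTheory Metric Filter Topology Set
open scoped ContDiff ENNReal RealInnerProductSpace
open Vale.Agent.P366.Stmt Vale.Agent.P366Y

noncomputable section

namespace Vale.Agent.P366W

variable {N m : ℕ}

/-- the Lipschitz bound of the conormal at the scale `r` -/
theorem white_lip (m : ℕ) : ∃ ε > (0 : ℝ), ∃ c > (0 : ℝ), ∃ C > (0 : ℝ),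
    ∀ (S : Surf (m + 1)) (p : E (m + 1)) (r : ℝ), S.Ok → 0 < r → S.Bd p (4 * r) ε (ε / r) →
      S.th p r ≤ 1 + ε → ∀ x ∈ ball p (c * r), ∀ x' ∈ ball p (c * r), S.Φ x = 0 → S.Φ x' = 0 →
        ‖S.n x - S.n x'‖ ≤ C / r * ‖x - x'‖ := by
  obtain ⟨ε, e0, c, c0, C, h⟩ := white m (1 / 2) ⟨by norm_num, by norm_num⟩
  refine ⟨ε, e0, c, c0, |C| + 1, by positivity, fun S p r hS r0 hb ht x hx x' hx' h1 h2 => ?_⟩
  have a1 : ∀ x, p + r • (r⁻¹ • (x - p)) = x := fun x => by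
    rw [smul_inv_smul₀ r0.ne', add_sub_cancel]
  have a2 : ∀ x ∈ ball p (c * r), r⁻¹ • (x - p) ∈ ball (0 : E (m + 1)) c := fun x hx => by
    rw [mem_ball_zero_iff, norm_smul, norm_inv, Real.norm_of_nonneg r0.le, inv_mul_lt_iff₀' r0]
    exact mem_ball_iff_norm.1 hx
  have a3 := (h (S.sc p r) (sc_ok hS p r0) ((scb m S p p _ _ _ r 4 hS hb r0
    (by rw [mul_comm])).mono Subset.rfl le_rfl (by rw [mul_div_cancel₀ _ r0.ne'])) (by
      rwa [sc_th hS p r0, smul_zero, add_zero, mul_one])).1 _ (a2 x hx) _ (a2 x' hx')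
    (by rwa [sc_Φ, a1]) (by rwa [sc_Φ, a1])
  rw [sc_n hS p r0, sc_n hS p r0, a1, a1, ← smul_sub, sub_sub_sub_cancel_right, norm_smul,
    norm_inv, Real.norm_of_nonneg r0.le, ← mul_assoc, ← div_eq_mul_inv] at a3
  exact a3.trans (by gcongr; linarith [le_abs_self C])

/-- **TILT** -/
theorem tilt (m : ℕ) {σ : ℝ} (hσ : 0 < σ) : ∃ δ > (0 : ℝ), ∀ (S : Surf (m + 1)) (p e : E (m + 1))
    (r : ℝ) (q : E (m + 1) → ℝ), S.Ok → 0 < r → S.Bd p (4 * r) δ (δ / r) → S.th p r ≤ 1 + δ →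
    S.Φ p = 0 → Continuous q → (∀ x ∈ ball p r, S.Φ x = 0 → 0 ≤ q x ∧ ‖S.n x - e‖ ^ 2 ≤ q x + δ) →
    ∫ x, ph (‖x - p‖ ^ 2 / r ^ 2) * q x ∂S.μ ≤ δ * r ^ m → ‖S.n p - e‖ ≤ σ := by
  obtain ⟨ε, e0, c, c0, C, C0, h⟩ := white_lip m
  obtain ⟨K, K0, hK⟩ := low m
  obtain ⟨d, hd, D', -, hdD⟩ := det_bounds (m + 1)
  have hcm := cm_pos m
  obtain ⟨s, s0, s1, s2, s3⟩ : ∃ s > (0 : ℝ), s ≤ 1 / 4 ∧ 2 * s ≤ c ∧ C * (2 * s) ≤ σ / 2 := by
    refine ⟨min (1 / 4) (min (c / 2) (σ / (4 * C))), by positivity, min_le_left _ _, ?_, ?_⟩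
    · linarith [min_le_right (1 / 4) (min (c / 2) (σ / (4 * C))), min_le_left (c / 2) (σ / (4 * C))]
    · have := (le_div_iff₀ (by positivity)).1
        ((min_le_right (1 / 4) _).trans (min_le_right (c / 2) (σ / (4 * C))))
      linarith
  obtain ⟨T, dT⟩ : ∃ T, T = σ ^ 2 / 32 * (Real.exp (-1) * (cm m * s ^ m * (1 / 2 * d))) := ⟨_, rfl⟩
  have T0 : 0 < T := by rw [dT]; positivity
  obtain ⟨δ, d0, d1, d2, d3, d4, d5⟩ : ∃ δ > (0 : ℝ), δ ≤ ε ∧ δ ≤ 1 / 2 ∧ δ ≤ 1 / K ∧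
      δ ≤ σ ^ 2 / 8 ∧ δ ≤ T / 2 := ⟨min ε (min (1 / 2) (min (1 / K) (min (σ ^ 2 / 8) (T / 2)))),
    by positivity, by simp, by simp, by simp, by simp, by simp⟩
  refine ⟨δ, d0, fun S p e r q hS r0 hb ht h0 cq hq hi => not_lt.1 fun h4 => ?_⟩
  have hp : p ∈ ball p (4 * r) := mem_ball_self (by positivity)
  have r1 : s * r ≤ 1 / 4 * r := by gcongr
  have r2 : 2 * s * r ≤ c * r := by gcongr
  have r3 : C * (2 * s) * r ≤ σ / 2 * r := by gcongr
  have r4 : 0 < s * r := by positivity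
  have a1 := h S p r hS r0 (hb.mono Subset.rfl d1 (by gcongr)) (by linarith)
  have a2 : K * (δ / r) * (s * r) ≤ 1 := by
    rw [le_div_iff₀ K0] at d3
    rw [show K * (δ / r) * (s * r) = δ * K * s by field_simp]
    nlinarith [mul_pos d0 K0]
  have a3 := (hK S p p _ _ _ (s * r) hS hb d2 (ball_subset_ball (by linarith)) a2
    (by positivity) h0).1
  have a4 : Real.exp (-1) * (cm m * (s * r) ^ m * (1 / 2 * d)) ≤ S.M p (s * r) := by
    have b1 := (hdD _ ((hb.B0 p hp).trans d2)).1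
    have b2 := hb.a_lo d2 hp
    rw [S.th_eq, le_div_iff₀ (by have := hS.det_pos p; positivity)] at a3
    exact le_trans (by gcongr) a3
  have a5 : σ ^ 2 / 32 * S.M p (s * r) ≤ ∫ x, ph (‖x - p‖ ^ 2 / r ^ 2) * q x ∂S.μ := by
    have b0 : ∀ x, x ∉ ball p r → ph (‖x - p‖ ^ 2 / r ^ 2) = 0 := fun x hx => ph_zero (by
      rw [mem_ball_iff_norm, not_lt] at hx
      rw [one_le_div (by positivity)]; gcongr)
    rw [Surf.M, ← integral_const_mul]
    refine integral_mono_of_nonneg (Eventually.of_forall fun z =>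
      mul_nonneg (by positivity) (ph_nonneg _)) (hS.integrable ((continuous_ph.comp
        (by fun_prop)).mul cq) (HasCompactSupport.intro (isCompact_closedBall p r) fun x hx => by
          rw [b0 x fun a => hx (ball_subset_closedBall a), zero_mul])) ?_
    filter_upwards [hS.sup] with z hz
    by_cases h5 : 2 * (s * r) ≤ ‖z - p‖
    · rw [ph_zero (hb.far hS d2 hp r4 (by linarith)), mul_zero]
      by_cases h6 : z ∈ ball p r
      · exact mul_nonneg (ph_nonneg _) (hq z h6 hz).1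
      · rw [b0 z h6, zero_mul]
    have h6 : ‖z - p‖ < 2 * (s * r) := not_le.1 h5
    have b1 := a1 z (mem_ball_iff_norm.2 (by linarith)) p (mem_ball_self (by positivity)) hz h0
    have b2 : C / r * ‖z - p‖ ≤ σ / 2 := by
      rw [div_mul_eq_mul_div, div_le_iff₀ r0]
      linarith [mul_le_mul_of_nonneg_left h6.le C0.le]
    have b3 : σ / 2 ≤ ‖S.n z - e‖ := by
      linarith [norm_sub_le_norm_sub_add_norm_sub (S.n p) (S.n z) e, norm_sub_rev (S.n p) (S.n z)]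
    have b4 := (hq z (mem_ball_iff_norm.2 (by linarith)) hz).2
    have b5 : σ ^ 2 / 8 ≤ q z := by linarith [pow_le_pow_left₀ (by positivity) b3 2]
    have b6 : 1 / 4 ≤ ph (‖z - p‖ ^ 2 / r ^ 2) := by
      refine le_trans ?_ (ph_anti (t := 1 / 4) ?_)
      · rw [ph_of_le (by norm_num)]; norm_num
      · rw [div_le_iff₀ (by positivity)]
        linarith [pow_le_pow_left₀ (norm_nonneg _) (show ‖z - p‖ ≤ r / 2 by linarith) 2]
    linarith [mul_le_mul_of_nonneg_left (ph_le_one (div_nonneg (hS.q_nonneg p z)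
      (sq_nonneg (s * r)))) (sq_nonneg σ), mul_le_mul b6 b5 (by positivity) (ph_nonneg _)]
  have a6 : T * r ^ m ≤ σ ^ 2 / 32 * S.M p (s * r) := by
    refine le_trans (le_of_eq ?_) (mul_le_mul_of_nonneg_left a4 (by positivity))
    rw [dT, mul_pow]; ring
  linarith [mul_le_mul_of_nonneg_right d5 (pow_pos r0 m).le, mul_pos T0 (pow_pos r0 m)]

section Lim

variable {ι X V : Type} [NormedAddCommGroup X] [NormedSpace ℝ X] [NormedAddCommGroup V]
  [NormedSpace ℝ V] {f : ι → X → V} {f₀ : X → V} {O : Set X} {l : Filter ι} {x : X}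

theorem UB.unif [ProperSpace X] (h : UB l x f)
    (ht : ∀ᶠ y in 𝓝 x, Tendsto (fun i => f i y) l (𝓝 (f₀ y))) [l.NeBot] :
    ∃ s ∈ 𝓝 x, TendstoUniformlyOn f f₀ l s := by
  obtain ⟨-, A, A0, hA⟩ := h.l1 0
  obtain ⟨r₁, r1, h1⟩ := ev_ball2 (P := fun i y z => ‖f i y - f i z‖ ≤ A * ‖y - z‖ ^ (1 : ℝ))
    (hA.mono fun _ a => a.2)
  obtain ⟨r₂, r2, h2⟩ := Metric.eventually_nhds_iff_ball.1 ht
  obtain ⟨r, r0, r3, r4⟩ : ∃ r > (0 : ℝ), closedBall x r ⊆ ball x r₁ ∧ closedBall x r ⊆ ball x r₂ :=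
    ⟨min r₁ r₂ / 2, by positivity,
      closedBall_subset_ball (by linarith [min_le_left r₁ r₂, lt_min r1 r2]),
      closedBall_subset_ball (by linarith [min_le_right r₁ r₂, lt_min r1 r2])⟩
  simp only [Real.rpow_one] at h1
  have h3 : ∀ y ∈ closedBall x r, ∀ z ∈ closedBall x r, ‖f₀ y - f₀ z‖ ≤ A * ‖y - z‖ :=
    fun y hy z hz => le_of_tendsto ((h2 y (r4 hy)).sub (h2 z (r4 hz))).norm
      (h1.mono fun i a => a y (r3 hy) z (r3 hz))
  refine ⟨closedBall x r, closedBall_mem_nhds x r0, Metric.tendstoUniformlyOn_iff.2 fun ε e0 => ?_⟩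
  obtain ⟨t, t1, t2, t3⟩ := finite_cover_balls_of_compact (isCompact_closedBall x r)
    (show 0 < ε / 4 / (A + 1) by positivity)
  filter_upwards [h1, (eventually_all_finite t2).2 fun z hz =>
    Metric.tendsto_nhds.1 (h2 z (r4 (t1 hz))) (ε / 2) (by positivity)] with i a b y hy
  obtain ⟨z, hz, c⟩ := mem_iUnion₂.1 (t3 hy)
  have c1 := (lt_div_iff₀ (by positivity)).1 (mem_ball_iff_norm.1 c)
  have c2 := h3 y hy z (t1 hz)
  have c3 := a y (r3 hy) z (r3 (t1 hz))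
  have c4 := b z hz
  rw [← dist_eq_norm (f₀ y)] at c2
  rw [← dist_eq_norm (f i y)] at c3
  nlinarith [dist_triangle4 (f₀ y) (f₀ z) (f i z) (f i y), dist_comm (f₀ z) (f i z),
    dist_comm (f i z) (f i y), norm_nonneg (y - z)]

/-- the limit of a family with uniform bounds is smooth -/
theorem ub_lim [FiniteDimensional ℝ X] [FiniteDimensional ℝ V] {𝒰 : Ultrafilter ι} (hO : IsOpen O)
    (h : ∀ x ∈ O, UB 𝒰 x f) (ht : ∀ x ∈ O, Tendsto (fun i => f i x) 𝒰 (𝓝 (f₀ x))) :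
    ContDiffOn ℝ ∞ f₀ O := by
  have := FiniteDimensional.proper_real X
  refine contDiffOn_infty.2 fun k => ?_
  induction k generalizing V with
  | zero =>
    refine contDiffOn_zero.2 fun x hx => ContinuousAt.continuousWithinAt ?_
    obtain ⟨s, hs, hu⟩ := (h x hx).unif (mem_of_superset (hO.mem_nhds hx) ht)
    obtain ⟨r, r0, hr⟩ := ev_ball (P := fun i y => DifferentiableAt ℝ (f i) y ∧ y ∈ s)
      ((h x hx).1.diff.and (tendsto_snd.eventually hs))
    exact ((hu.mono fun y hy => (hr.exists.choose_spec y hy).2).continuousOn (hr.mono fun i a y hy =>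
      (a y hy).1.continuousAt.continuousWithinAt).frequently).continuousAt (ball_mem_nhds x r0)
  | succ k ih =>
    have := FiniteDimensional.proper_real (X →L[ℝ] V)
    have h1 : ∀ x, ∃ g, x ∈ O → Tendsto (fun i => fderiv ℝ (f i) x) 𝒰 (𝓝 g) := fun x => by
      by_cases hx : x ∈ O
      · obtain ⟨A, -, hA⟩ := L0.bd ((h x hx).fderiv.l1 0)
        obtain ⟨r, r0, hr⟩ := ev_ball (P := fun i y => ‖fderiv ℝ (f i) y‖ ≤ A) hA
        obtain ⟨g, -, hg⟩ := (isCompact_closedBall (0 : X →L[ℝ] V) A).ultrafilter_le_nhds'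
          (𝒰.map fun i => fderiv ℝ (f i) x)
          (hr.mono fun i a => mem_closedBall_zero_iff.2 (a x (mem_ball_self r0)))
        exact ⟨g, fun _ => hg⟩
      · exact ⟨0, fun a => (hx a).elim⟩
    choose g hg using h1
    have h2 : ∀ x ∈ O, HasFDerivAt f₀ (g x) x := fun x hx => by
      obtain ⟨s, hs, hu⟩ := (h x hx).fderiv.unif (mem_of_superset (hO.mem_nhds hx) hg)
      exact hasFDerivAt_of_tendstoUniformlyOnFilter (f := f) (f' := fun i => fderiv ℝ (f i))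
        (l := (𝒰 : Filter ι)) ((hu.tendstoUniformlyOnFilter).mono_right (le_principal_iff.2 hs))
        ((h x hx).1.diff.mono fun p a => a.hasFDerivAt)
        (mem_of_superset (hO.mem_nhds hx) fun y hy => ht y hy)
    rw [Nat.cast_succ, contDiffOn_succ_iff_fderiv_of_isOpen hO]
    exact ⟨fun x hx => (h2 x hx).differentiableAt.differentiableWithinAt, by simp,
      (ih (fun x hx => (h x hx).fderiv) hg).congr fun x hx => (h2 x hx).fderiv⟩

end Lim

end Vale.Agent.P366W
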