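import Vale.Agent.P366Y.Defs
import Mathlib.Analysis.Calculus.Gradient.Basic

/-!
# P366W: smooth calibrated hypersurfaces in a chart; definitions and statements
-/

open MeasureTheory Metric Filter Topology Set
open scoped ContDiff ENNReal RealInnerProductSpace
open Vale.Agent.P366.Stmt Vale.Agent.P366Y

noncomputable section

namespace Vale.Agent.P366W

variable {N m : ℕ}

/-- the Euclidean divergence of a vector field -/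
def dvg (Y : E N → E N) (x : E N) : ℝ := ∑ i, fderiv ℝ Y x (EuclideanSpace.single i 1) i

/-- the profile of the density ratios -/
def ph (s : ℝ) : ℝ := max (1 - s) 0 ^ 3

/-- the normalising constant of the density ratios -/
def cm (m : ℕ) : ℝ := ∫ y : E m, ph (‖y‖ ^ 2)

/-- the zero set of `Φ` in the space with the inverse metric `B` and the volume `a dx`;
`μ` is the area -/
structure Surf (N : ℕ) where
  Φ : E N → ℝ
  B : E N → E N →L[ℝ] E N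
  a : E N → ℝ
  μ : Measure (E N)

namespace Surf

variable (S : Surf N)

/-- the hypersurface -/
def G : Set (E N) := {x | S.Φ x = 0}

/-- the metric -/
def A (x : E N) : E N →L[ℝ] E N := (S.B x).inverse

/-- the length of the differential of `Φ` -/
def W (x : E N) : ℝ := √⟪gradient S.Φ x, S.B x (gradient S.Φ x)⟫

/-- the unit conormal -/
def n (x : E N) : E N := (S.W x)⁻¹ • gradient S.Φ x

/-- the unit normal -/
def ν (x : E N) : E N := S.B x (S.n x)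

/-- the weighted mean curvature of the level set through `x` -/
def H (x : E N) : ℝ := dvg (fun y => S.a y • S.ν y) x / S.a x

/-- the projection to the tangent space along the normal -/
def P (x : E N) : E N →L[ℝ] E N :=
  ContinuousLinearMap.id ℝ (E N) - (innerSL ℝ (S.n x)).smulRight (S.ν x)

/-- the square of the second fundamental form, up to terms of lower order -/
def A2 (x : E N) : ℝ := ∑ i, fderiv ℝ S.ν x
  (S.P x (fderiv ℝ S.ν x (S.P x (EuclideanSpace.single i 1)))) i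

/-- the standing assumptions; `div` is the divergence theorem, which determines `μ` -/
structure Ok : Prop where
  smΦ : ContDiff ℝ ∞ S.Φ
  smB : ContDiff ℝ ∞ S.B
  sma : ContDiff ℝ ∞ S.a
  reg : ∀ x, gradient S.Φ x ≠ 0
  sym : ∀ x v w, ⟪S.B x v, w⟫ = ⟪v, S.B x w⟫
  pos : ∀ x v, v ≠ 0 → 0 < ⟪v, S.B x v⟫
  a0 : ∀ x, 0 < S.a x
  fin : IsFiniteMeasureOnCompacts S.μ
  sup : ∀ᵐ x ∂S.μ, S.Φ x = 0
  div : ∀ Y : E N → E N, ContDiff ℝ 1 Y → HasCompactSupport Y →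
    ∫ x, ⟪S.n x, Y x⟫ ∂S.μ = ∫ x in {x | S.Φ x < 0}, dvg (fun y => S.a y • Y y) x

/-- the bounds on the ball `B (x₀, R)`: `η` is the distance to the Euclidean structure and
`Λ` has the dimension of a curvature -/
structure Bd (x₀ : E N) (R η Λ : ℝ) : Prop where
  Λ0 : 0 ≤ Λ
  B0 : ∀ x ∈ ball x₀ R, ‖S.B x - ContinuousLinearMap.id ℝ (E N)‖ ≤ η
  B1 : ∀ x ∈ ball x₀ R, ‖fderiv ℝ S.B x‖ ≤ Λ
  B2 : ∀ x ∈ ball x₀ R, ∀ v, ‖fderiv ℝ (fun y => fderiv ℝ S.B y v) x‖ ≤ Λ ^ 2 * ‖v‖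
  a0 : ∀ x ∈ ball x₀ R, |S.a x - 1| ≤ η
  a1 : ∀ x ∈ ball x₀ R, ‖fderiv ℝ S.a x‖ ≤ Λ
  a2 : ∀ x ∈ ball x₀ R, ∀ v, ‖fderiv ℝ (fun y => fderiv ℝ S.a y v) x‖ ≤ Λ ^ 2 * ‖v‖
  H0 : ∀ x ∈ ball x₀ R, |S.H x| ≤ Λ
  H1 : ∀ x ∈ ball x₀ R, ∀ y ∈ ball x₀ R, S.Φ x = 0 → S.Φ y = 0 → |S.H x - S.H y| ≤ Λ ^ 2 * ‖x - y‖
  H2 : ∀ x ∈ ball x₀ R, S.Φ x = 0 → -Λ ^ 2 ≤ fderiv ℝ S.H x (S.ν x)

/-- the density ratio with the centre `y`, the metric frozen at `y`, and the radius `r` -/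
def th (S : Surf (m + 1)) (y : E (m + 1)) (r : ℝ) : ℝ :=
  (∫ x, ph (⟪S.A y (x - y), x - y⟫ / r ^ 2) ∂S.μ) /
    (cm m * r ^ m * (S.a y * √(S.B y).det))

/-- the surface in the coordinates `x'` with `x = b + l T x'`; the weight is multiplied by `κ` -/
def aff (S : Surf (m + 1)) (T : E (m + 1) ≃L[ℝ] E (m + 1)) (b : E (m + 1)) (l κ : ℝ) :
    Surf (m + 1) where
  Φ := fun x => S.Φ (b + l • T x)
  B := fun x => (T.symm : E (m + 1) →L[ℝ] E (m + 1)) ∘L S.B (b + l • T x) ∘L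
    ContinuousLinearMap.adjoint (T.symm : E (m + 1) →L[ℝ] E (m + 1))
  a := fun x => κ * S.a (b + l • T x)
  μ := ENNReal.ofReal (κ / (l ^ m * |(T : E (m + 1) →L[ℝ] E (m + 1)).det|)) •
    S.μ.map fun x => T.symm (l⁻¹ • (x - b))

/-- the surface in the coordinates `x'` with `x = b + l x'` -/
def sc (S : Surf (m + 1)) (b : E (m + 1)) (l : ℝ) : Surf (m + 1) :=
  S.aff (ContinuousLinearEquiv.refl ℝ _) b l 1

end Surf

/-- an orthonormal frame: a unit vector and an isometry onto its orthogonal complement -/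
structure Fr (e : E (m + 1)) (L : E m →ₗᵢ[ℝ] E (m + 1)) : Prop where
  one : ‖e‖ = 1
  ort : ∀ y, ⟪e, L y⟫ = 0

/-- in the cylinder of size `c` about `p` the surface is the graph of `w` -/
def Gr (S : Surf (m + 1)) (p e : E (m + 1)) (L : E m →ₗᵢ[ℝ] E (m + 1)) (c : ℝ) (w : E m → ℝ) :
    Prop := ∀ y s, ‖y‖ < c → |s| < c →
  (S.Φ (p + L y + s • e) < 0 ↔ s < w y) ∧ (S.Φ (p + L y + s • e) = 0 ↔ s = w y)

/-! ### the statements -/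

/-- **GDIV**: the divergence theorem below a graph -/
def GDIV : Prop := ∀ (m : ℕ) (p e : E (m + 1)) (L : E m →ₗᵢ[ℝ] E (m + 1)) (w : E m → ℝ)
  (Y : E (m + 1) → E (m + 1)), Fr e L → ContDiff ℝ 1 w → ContDiff ℝ 1 Y → HasCompactSupport Y →
  ∫ x in {x | ∃ y s, s < w y ∧ x = p + L y + s • e}, dvg Y x =
    ∫ y, ⟪e - L (gradient w y), Y (p + L y + w y • e)⟫

/-- **FV**: the first variation, as an identity -/
def FV : Prop := ∀ (N : ℕ) (S : Surf N), S.Ok → ∀ Y : E N → E N, ContDiff ℝ 2 Y →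
  HasCompactSupport Y → ∫ x, (dvg Y x - ⟪S.n x, fderiv ℝ Y x (S.ν x)⟫ +
    fderiv ℝ S.a x (Y x) / S.a x + ⟪S.n x, fderiv ℝ S.B x (Y x) (S.n x)⟫ / 2 -
    ⟪S.n x, Y x⟫ * S.H x) ∂S.μ = 0

/-- **FVB**: the first variation, as a bound -/
def FVB : Prop := ∀ (N : ℕ) (S : Surf N) (x₀ : E N) (R η Λ : ℝ), S.Ok → S.Bd x₀ R η Λ → η ≤ 1 / 2 →
  ∀ Y : E N → E N, ContDiff ℝ 2 Y → HasCompactSupport Y → (∀ x, x ∉ ball x₀ R → Y x = 0) →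
    |∫ x, (dvg Y x - ⟪S.n x, fderiv ℝ Y x (S.ν x)⟫) ∂S.μ| ≤ 5 * Λ * ∫ x, ‖Y x‖ ∂S.μ

/-- **ABD**: the area bound -/
def ABD : Prop := ∀ m : ℕ, ∃ C : ℝ, ∀ (S : Surf (m + 1)) (x₀ y : E (m + 1)) (R η Λ r : ℝ), S.Ok →
  S.Bd x₀ R η Λ → η ≤ 1 / 2 → 0 < r → ball y (2 * r) ⊆ ball x₀ R → Λ * r ≤ 1 → S.th y r ≤ C

/-- **MONO**: monotonicity, with the error term -/
def MONO : Prop := ∀ m : ℕ, ∃ C > (0 : ℝ), ∀ (S : Surf (m + 1)) (x₀ y : E (m + 1)) (R η Λ r : ℝ),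
  S.Ok → S.Bd x₀ R η Λ → η ≤ 1 / 2 → ball y (2 * r) ⊆ ball x₀ R → C * Λ * r ≤ 1 →
    (∀ s, 0 < s → s ≤ r → S.th y s ≤ Real.exp (C * Λ * r) * S.th y r) ∧
    (0 < r → ∫ x in ball y (r / 4), ⟪S.n x, x - y⟫ ^ 2 ∂S.μ ≤
      C * r ^ (m + 2) * (Real.exp (C * Λ * r) * S.th y r - S.th y (r / 2)))

/-- **DENS**: the density is one at the points of the surface -/
def DENS : Prop := ∀ (m : ℕ) (S : Surf (m + 1)) (y : E (m + 1)), S.Ok → S.Φ y = 0 →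
  Tendsto (S.th y) (𝓝[>] 0) (𝓝 1)

/-- **AFF**: affine invariance -/
def AFF : Prop := ∀ (m : ℕ) (S : Surf (m + 1)) (T : E (m + 1) ≃L[ℝ] E (m + 1)) (b : E (m + 1))
  (l κ : ℝ), S.Ok → 0 < l → 0 < κ → (S.aff T b l κ).Ok ∧
    (∀ x, (S.aff T b l κ).n x =
      ContinuousLinearMap.adjoint (T : E (m + 1) →L[ℝ] E (m + 1)) (S.n (b + l • T x))) ∧
    (∀ x, (S.aff T b l κ).ν x = T.symm (S.ν (b + l • T x))) ∧
    (∀ x, (S.aff T b l κ).H x = l * S.H (b + l • T x)) ∧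
    ∀ y r, (S.aff T b l κ).th y r = S.th (b + l • T y) (l * r)

/-- **SCB**: the bounds after rescaling -/
def SCB : Prop := ∀ (m : ℕ) (S : Surf (m + 1)) (x₀ b : E (m + 1)) (R η Λ l R' : ℝ), S.Ok →
  S.Bd x₀ R η Λ → 0 < l → ball b (l * R') ⊆ ball x₀ R → (S.sc b l).Bd 0 R' η (l * Λ)

/-- **NRM**: normal coordinates at a point `b` -/
def NRM : Prop := ∀ m : ℕ, ∃ C > (0 : ℝ), ∀ (S : Surf (m + 1)) (x₀ b : E (m + 1)) (R η Λ : ℝ),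
  S.Ok → S.Bd x₀ R η Λ → η ≤ 1 / 2 → b ∈ ball x₀ R → ∃ T : E (m + 1) ≃L[ℝ] E (m + 1),
    ‖(T : E (m + 1) →L[ℝ] E (m + 1)) - ContinuousLinearMap.id ℝ _‖ ≤ η ∧
    ‖(T.symm : E (m + 1) →L[ℝ] E (m + 1)) - ContinuousLinearMap.id ℝ _‖ ≤ 2 * η ∧
    ∀ l R', 0 < l → ball b (2 * l * R') ⊆ ball x₀ R →
      (S.aff T b l (S.a b)⁻¹).Bd 0 R' (C * l * Λ * R') (C * l * Λ)

/-- **CMP**: comparison with the Euclidean density ratio -/
def CMP : Prop := ∀ (m : ℕ) (e : ℝ), 0 < e → ∃ η₀ > (0 : ℝ), ∀ (S : Surf (m + 1))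
  (x₀ y : E (m + 1)) (R η Λ r : ℝ), S.Ok → S.Bd x₀ R η Λ → η ≤ η₀ → 0 < r →
  ball y (4 * r) ⊆ ball x₀ R → Λ * r ≤ 1 / 2 →
  |S.th y r - (∫ x, ph (‖x - y‖ ^ 2 / r ^ 2) ∂S.μ) / (cm m * r ^ m)| ≤ e

/-- **WHITE**: small density ratio gives a graph with uniform bounds -/
def WHITE : Prop := ∀ (m : ℕ), ∀ α ∈ Ioo (0 : ℝ) 1, ∃ ε > (0 : ℝ), ∃ c > (0 : ℝ), ∃ C : ℝ,
  ∀ S : Surf (m + 1), S.Ok → S.Bd 0 4 ε ε → S.th 0 1 ≤ 1 + ε →
    (∀ p ∈ ball (0 : E (m + 1)) c, ∀ q ∈ ball (0 : E (m + 1)) c, S.Φ p = 0 → S.Φ q = 0 →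
      ‖S.n p - S.n q‖ ≤ C * ‖p - q‖) ∧
    ∀ p ∈ ball (0 : E (m + 1)) c, S.Φ p = 0 → ∀ e L, Fr e L → ‖S.n p - e‖ ≤ c →
      ∃ w : E m → ℝ, Smooth w ∧ C2H α C w ∧ (∀ y, ‖gradient w y‖ ≤ 1 / 2) ∧ Gr S p e L c w

/-- **AREA**: the area and the conormal of a graph -/
def AREA : Prop := ∀ (m : ℕ) (S : Surf (m + 1)) (p e : E (m + 1)) (L : E m →ₗᵢ[ℝ] E (m + 1))
  (c : ℝ) (w : E m → ℝ), S.Ok → Fr e L → ContDiff ℝ 2 w → Gr S p e L c w →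
    (∀ y, ‖y‖ < c → |w y| < c → S.n (p + L y + w y • e) =
      (√⟪e - L (gradient w y), S.B (p + L y + w y • e) (e - L (gradient w y))⟫)⁻¹ •
        (e - L (gradient w y))) ∧
    ∀ ψ : E (m + 1) → ℝ, Continuous ψ →
      tsupport ψ ⊆ {x | ∃ y s, ‖y‖ < c ∧ |s| < c ∧ x = p + L y + s • e} →
      ∫ x, ψ x ∂S.μ = ∫ y, ψ (p + L y + w y • e) * (S.a (p + L y + w y • e) *
        √⟪e - L (gradient w y), S.B (p + L y + w y • e) (e - L (gradient w y))⟫)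

/-- **STAB**: stability, up to small errors -/
def STAB : Prop := ∀ (N : ℕ) (δ : ℝ), 0 < δ → ∃ C : ℝ, ∀ (S : Surf N) (x₀ : E N) (R η Λ : ℝ),
  S.Ok → S.Bd x₀ R η Λ → η ≤ 1 / 2 → ∀ φ : E N → ℝ, ContDiff ℝ 2 φ → HasCompactSupport φ →
    (∀ x, x ∉ ball x₀ R → φ x = 0) → ∫ x, S.A2 x * φ x ^ 2 ∂S.μ ≤
      (1 + δ) * (∫ x, (⟪gradient φ x, S.B x (gradient φ x)⟫ - ⟪gradient φ x, S.ν x⟫ ^ 2) ∂S.μ) +
        C * Λ ^ 2 * ∫ x, φ x ^ 2 ∂S.μ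

/-- the surface of a graph over the hyperplane `L` -/
def gsurf (e : E (m + 1)) (L : E m →ₗᵢ[ℝ] E (m + 1)) (u : E m → ℝ)
    (B : E (m + 1) → E (m + 1) →L[ℝ] E (m + 1)) (a : E (m + 1) → ℝ) : Surf (m + 1) where
  Φ := fun x => ⟪e, x⟫ - u (ContinuousLinearMap.adjoint L.toContinuousLinearMap x)
  B := B
  a := a
  μ := (volume.withDensity fun y => ENNReal.ofReal (a (L y + u y • e) *
    √⟪e - L (gradient u y), B (L y + u y • e) (e - L (gradient u y))⟫)).map fun y => L y + u y • e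

/-- **CAP**: graphs of smooth functions are admissible -/
def CAP : Prop := ∀ (m : ℕ) (e : E (m + 1)) (L : E m →ₗᵢ[ℝ] E (m + 1)) (u : E m → ℝ)
  (B : E (m + 1) → E (m + 1) →L[ℝ] E (m + 1)) (a : E (m + 1) → ℝ), Fr e L → Smooth u →
  ContDiff ℝ ∞ B → ContDiff ℝ ∞ a → (∀ x v w, ⟪B x v, w⟫ = ⟪v, B x w⟫) →
  (∀ x v, v ≠ 0 → 0 < ⟪v, B x v⟫) → (∀ x, 0 < a x) → (gsurf e L u B a).Ok

end Vale.Agent.P366W
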