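import Vale.Agent.P366W.Defs
import Mathlib.Analysis.InnerProductSpace.Trace
import Mathlib.MeasureTheory.Function.Jacobian

/-!
# P366W: affine invariance
-/

open MeasureTheory Metric Filter Topology Set
open scoped ContDiff ENNReal RealInnerProductSpace
open Vale.Agent.P366.Stmt Vale.Agent.P366Y

noncomputable section

namespace Vale.Agent.P366W.Af

variable {N m : ℕ}

theorem dvg_eq_trace (Y : E N → E N) (x : E N) :
    dvg Y x = LinearMap.trace ℝ (E N) (fderiv ℝ Y x : E N →ₗ[ℝ] E N) := by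
  rw [LinearMap.trace_eq_sum_inner _ (EuclideanSpace.basisFun (Fin N) ℝ)]
  simp [dvg, EuclideanSpace.inner_single_left]

theorem fderiv_af {V : Type} [NormedAddCommGroup V] [NormedSpace ℝ V] (f : E N → V)
    (T : E N ≃L[ℝ] E N) (b : E N) (l : ℝ) (x : E N) :
    fderiv ℝ (fun x => f (b + l • T x)) x =
      l • (fderiv ℝ f (b + l • T x)).comp (T : E N →L[ℝ] E N) := by
  have h1 : (fun x => f (b + l • T x)) = (fun z => f (b + l • z)) ∘ T := rfl
  rw [h1, ContinuousLinearEquiv.comp_right_fderiv, fderiv_comp_smul (f := fun z => f (b + z)),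
    fderiv_comp_add_left, ContinuousLinearMap.smul_comp]

theorem adj_symm (T : E N ≃L[ℝ] E N) (v : E N) :
    ContinuousLinearMap.adjoint (T.symm : E N →L[ℝ] E N)
      (ContinuousLinearMap.adjoint (T : E N →L[ℝ] E N) v) = v := by
  refine ext_inner_right ℝ fun w => ?_
  simp [ContinuousLinearMap.adjoint_inner_left]

theorem adj_symm' (T : E N ≃L[ℝ] E N) (v : E N) :
    ContinuousLinearMap.adjoint (T : E N →L[ℝ] E N)
      (ContinuousLinearMap.adjoint (T.symm : E N →L[ℝ] E N) v) = v := adj_symm T.symm v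

theorem grad_af (f : E N → ℝ) (T : E N ≃L[ℝ] E N) (b : E N) (l : ℝ) (x : E N) :
    gradient (fun x => f (b + l • T x)) x =
      l • ContinuousLinearMap.adjoint (T : E N →L[ℝ] E N) (gradient f (b + l • T x)) := by
  refine ext_inner_right ℝ fun w => ?_
  rw [inner_gradient_left, fderiv_af, inner_smul_left, ContinuousLinearMap.adjoint_inner_left,
    inner_gradient_left]
  simp

theorem dvg_af (Y : E N → E N) (T : E N ≃L[ℝ] E N) (b : E N) (l : ℝ) (x : E N) :
    dvg (fun x => T.symm (Y (b + l • T x))) x = l * dvg Y (b + l • T x) := by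
  have h1 : (fun x => T.symm (Y (b + l • T x))) = T.symm ∘ fun x => Y (b + l • T x) := rfl
  rw [dvg_eq_trace, dvg_eq_trace, h1, ContinuousLinearEquiv.comp_fderiv, fderiv_af]
  have h2 := LinearMap.trace_conj' (fderiv ℝ Y (b + l • T x) : E N →ₗ[ℝ] E N) T.symm.toLinearEquiv
  rw [← h2, ← smul_eq_mul, ← (LinearMap.trace ℝ (E N)).map_smul]
  refine congrArg _ ?_
  ext v i
  simp [LinearEquiv.conj_apply]

theorem dvg_smul (Y : E N → E N) (c : ℝ) (x : E N) : dvg (fun y => c • Y y) x = c * dvg Y x := by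
  have h1 : (fun y => c • Y y) = c • Y := rfl
  simp only [dvg, h1, fderiv_const_smul_field, Finset.mul_sum]
  simp

theorem det_adj (T : E N →L[ℝ] E N) : (ContinuousLinearMap.adjoint T).det = T.det := by
  have h : ((ContinuousLinearMap.adjoint T : E N →L[ℝ] E N) : E N →ₗ[ℝ] E N) =
      LinearMap.adjoint (T : E N →ₗ[ℝ] E N) := rfl
  let b := EuclideanSpace.basisFun (Fin N) ℝ
  rw [ContinuousLinearMap.det, ContinuousLinearMap.det, h, ← LinearMap.det_toMatrix b.toBasis,
    ← LinearMap.det_toMatrix b.toBasis, LinearMap.toMatrix_adjoint, Matrix.det_conjTranspose]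
  simp

/-- the affine homeomorphism -/
def hm (T : E N ≃L[ℝ] E N) (b : E N) {l : ℝ} (hl : 0 < l) : E N ≃ₜ E N where
  toFun x := T.symm (l⁻¹ • (x - b))
  invFun x := b + l • T x
  left_inv x := by simp [smul_smul, hl.ne']
  right_inv x := by simp [smul_smul, hl.ne']
  continuous_toFun := by fun_prop
  continuous_invFun := by fun_prop

theorem det_ne (T : E N ≃L[ℝ] E N) : (T : E N →L[ℝ] E N).det ≠ 0 := by
  have := T.toLinearEquiv.isUnit_det'
  exact this.ne_zero

theorem det_symm (T : E N ≃L[ℝ] E N) :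
    (T.symm : E N →L[ℝ] E N).det = ((T : E N →L[ℝ] E N).det)⁻¹ := by
  simp

variable (S : Surf (m + 1)) (T : E (m + 1) ≃L[ℝ] E (m + 1)) (b : E (m + 1)) {l κ : ℝ}

theorem integral_aff (hl : 0 < l) (hκ : 0 < κ) (f : E (m + 1) → ℝ) :
    ∫ x, f x ∂(S.aff T b l κ).μ = κ / (l ^ m * |(T : E (m + 1) →L[ℝ] E (m + 1)).det|) *
      ∫ x, f (T.symm (l⁻¹ • (x - b))) ∂S.μ := by
  have h := (hm T b hl).measurableEmbedding.integral_map (μ := S.μ) f
  simp only [Surf.aff]
  rw [integral_smul_measure, ENNReal.toReal_ofReal (by positivity), smul_eq_mul]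
  congr 1

theorem W_aff (hl : 0 < l) (x : E (m + 1)) : (S.aff T b l κ).W x = l * S.W (b + l • T x) := by
  simp only [Surf.W, Surf.aff, grad_af, ContinuousLinearMap.comp_apply, map_smul, adj_symm,
    inner_smul_left, inner_smul_right, ContinuousLinearMap.adjoint_inner_left]
  simp only [ContinuousLinearEquiv.coe_coe, ContinuousLinearEquiv.apply_symm_apply, conj_trivial]
  rw [← mul_assoc, Real.sqrt_mul (by positivity), Real.sqrt_mul_self hl.le]

theorem n_aff (hl : 0 < l) (x : E (m + 1)) : (S.aff T b l κ).n x =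
    ContinuousLinearMap.adjoint (T : E (m + 1) →L[ℝ] E (m + 1)) (S.n (b + l • T x)) := by
  rw [Surf.n, W_aff S T b hl, Surf.n]
  simp only [Surf.aff, grad_af, map_smul, smul_smul]
  congr 1
  field_simp

theorem ν_aff (hl : 0 < l) (x : E (m + 1)) : (S.aff T b l κ).ν x = T.symm (S.ν (b + l • T x)) := by
  rw [Surf.ν, n_aff S T b hl, Surf.ν]
  simp [Surf.aff, adj_symm]

theorem H_aff (hS : S.Ok) (hl : 0 < l) (hκ : 0 < κ) (x : E (m + 1)) :
    (S.aff T b l κ).H x = l * S.H (b + l • T x) := by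
  have h1 : (fun y => (S.aff T b l κ).a y • (S.aff T b l κ).ν y) =
      fun y => κ • T.symm ((fun z => S.a z • S.ν z) (b + l • T y)) := by
    funext y
    rw [ν_aff S T b hl]
    simp [Surf.aff, smul_smul]
  rw [Surf.H, h1, dvg_smul, dvg_af (fun z => S.a z • S.ν z), Surf.H]
  have := hS.a0 (b + l • T x)
  simp only [Surf.aff]
  field_simp

theorem A_aff (y v : E (m + 1)) :
    ⟪(S.aff T b l κ).A y v, v⟫ = ⟪S.A (b + l • T y) (T v), T v⟫ := by
  have h : (ContinuousLinearMap.adjoint (T.symm : E (m + 1) →L[ℝ] E (m + 1))).inverse =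
      ContinuousLinearMap.adjoint (T : E (m + 1) →L[ℝ] E (m + 1)) :=
    ContinuousLinearMap.inverse_eq (by ext1 v; simp [adj_symm]) (by ext1 v; simp [adj_symm'])
  have hi : (ContinuousLinearMap.adjoint (T.symm : E (m + 1) →L[ℝ] E (m + 1))).IsInvertible :=
    .of_inverse (g := ContinuousLinearMap.adjoint (T : E (m + 1) →L[ℝ] E (m + 1)))
      (by ext1 v; simp [adj_symm]) (by ext1 v; simp [adj_symm'])
  simp only [Surf.A, Surf.aff]
  rw [ContinuousLinearMap.inverse_equiv_comp, hi.inverse_comp_of_right, h]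
  simp [ContinuousLinearMap.adjoint_inner_left]

theorem th_aff (hl : 0 < l) (hκ : 0 < κ) (y : E (m + 1)) (r : ℝ) :
    (S.aff T b l κ).th y r = S.th (b + l • T y) (l * r) := by
  have hd := abs_pos.2 (det_ne T)
  rw [Surf.th, Surf.th, integral_aff S T b hl hκ]
  have h1 : ∀ x, ⟪(S.aff T b l κ).A y (T.symm (l⁻¹ • (x - b)) - y), T.symm (l⁻¹ • (x - b)) - y⟫ /
      r ^ 2 = ⟪S.A (b + l • T y) (x - (b + l • T y)), x - (b + l • T y)⟫ / (l * r) ^ 2 := by
    intro x
    have h2 : T (T.symm (l⁻¹ • (x - b)) - y) = l⁻¹ • (x - (b + l • T y)) := by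
      simp [smul_sub, smul_smul, hl.ne', sub_sub]
    rw [A_aff, h2, map_smul, inner_smul_left, inner_smul_right]
    simp only [conj_trivial]
    field_simp
  have h2 : √((S.aff T b l κ).B y).det =
      √(S.B (b + l • T y)).det / |(T : E (m + 1) →L[ℝ] E (m + 1)).det| := by
    have h3 : ((S.aff T b l κ).B y).det =
        (S.B (b + l • T y)).det / ((T : E (m + 1) →L[ℝ] E (m + 1)).det) ^ 2 := by
      have h4 := det_adj (T.symm : E (m + 1) →L[ℝ] E (m + 1))
      have h5 := det_symm T
      simp only [Surf.aff, ContinuousLinearMap.det, ContinuousLinearMap.toLinearMap_comp,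
        LinearMap.det_comp] at h4 h5 ⊢
      rw [h4, h5]
      field_simp
    rw [h3, Real.sqrt_div' _ (sq_nonneg _), Real.sqrt_sq_eq_abs]
  simp only [h1, h2]
  simp only [Surf.aff, mul_pow]
  field_simp

theorem ok_aff (hS : S.Ok) (hl : 0 < l) (hκ : 0 < κ) : (S.aff T b l κ).Ok := by
  have hc : ContDiff ℝ ∞ fun x : E (m + 1) => b + l • T x :=
    contDiff_const.add (T.contDiff.const_smul l)
  have hd := abs_pos.2 (det_ne T)
  have := hS.fin
  refine ⟨hS.smΦ.comp hc, contDiff_const.clm_comp ((hS.smB.comp hc).clm_comp contDiff_const),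
    contDiff_const.mul (hS.sma.comp hc), fun x h => ?_, fun x v w => ?_, fun x v hv => ?_,
    fun x => mul_pos hκ (hS.a0 _), ?_, ?_, fun Y hY hY' => ?_⟩
  · simp only [Surf.aff, grad_af, smul_eq_zero, hl.ne', false_or] at h
    refine hS.reg (b + l • T x) ?_
    rw [← adj_symm T (gradient S.Φ (b + l • T x)), h, map_zero]
  · simp only [Surf.aff, ContinuousLinearMap.comp_apply]
    rw [← ContinuousLinearMap.adjoint_inner_right, hS.sym, ContinuousLinearMap.adjoint_inner_left]
  · simp only [Surf.aff, ContinuousLinearMap.comp_apply]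
    rw [← ContinuousLinearMap.adjoint_inner_left]
    refine hS.pos _ _ fun h => hv ?_
    rw [← adj_symm' T v, h, map_zero]
  · have : IsFiniteMeasureOnCompacts (S.μ.map fun x => T.symm (l⁻¹ • (x - b))) :=
      Measure.IsFiniteMeasureOnCompacts.map _ (hm T b hl)
    exact IsFiniteMeasureOnCompacts.smul _ ENNReal.ofReal_ne_top
  · refine Measure.ae_smul_measure ?_ _
    refine ((hm T b hl).measurableEmbedding.ae_map_iff).2 ?_
    filter_upwards [hS.sup] with x hx
    simpa [Surf.aff, hm, smul_smul, hl.ne'] using hx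
  · rw [integral_aff S T b hl hκ]
    have hψ : ContDiff ℝ 1 fun x : E (m + 1) => T.symm (l⁻¹ • (x - b)) :=
      T.symm.contDiff.comp ((contDiff_id.sub contDiff_const).const_smul _)
    have h1 := hS.div (fun x => T (Y (T.symm (l⁻¹ • (x - b))))) (T.contDiff.comp (hY.comp hψ))
      ((hY'.comp_homeomorph (hm T b hl)).comp_left (g := T) (map_zero _))
    have h2 : ∀ x, ⟪(S.aff T b l κ).n (T.symm (l⁻¹ • (x - b))), Y (T.symm (l⁻¹ • (x - b)))⟫ =
        ⟪S.n x, T (Y (T.symm (l⁻¹ • (x - b))))⟫ := by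
      intro x
      rw [n_aff S T b hl, ContinuousLinearMap.adjoint_inner_left]
      simp [smul_smul, hl.ne']
    have h3 : {x | S.Φ x < 0} = (fun x => b + l • T x) '' {x | (S.aff T b l κ).Φ x < 0} := by
      ext x
      constructor
      · intro hx
        exact ⟨T.symm (l⁻¹ • (x - b)), by simpa [Surf.aff, smul_smul, hl.ne'] using hx,
          by simp [smul_smul, hl.ne']⟩
      · rintro ⟨y, hy, rfl⟩
        exact hy
    have h4 : MeasurableSet {x | (S.aff T b l κ).Φ x < 0} :=
      (isOpen_lt (hS.smΦ.comp hc).continuous continuous_const).measurableSet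
    have h5 : ∀ x, HasFDerivAt (fun x => b + l • T x) (l • (T : E (m + 1) →L[ℝ] E (m + 1))) x :=
      fun x => (T.hasFDerivAt.const_smul l).const_add b
    simp only [h2]
    rw [h1, h3, integral_image_eq_integral_abs_det_fderiv_smul volume h4
      (fun x _ => (h5 x).hasFDerivWithinAt) (hm T b hl).symm.injective.injOn, ← integral_const_mul]
    refine integral_congr_ae (Eventually.of_forall fun x => ?_)
    have h6 := dvg_af (fun y => S.a y • T (Y (T.symm (l⁻¹ • (y - b))))) T b l x
    have h7 : (fun y => (S.aff T b l κ).a y • Y y) = fun x => κ • T.symm (S.a (b + l • T x) •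
        T (Y (T.symm (l⁻¹ • (b + l • T x - b))))) := by
      funext y
      simp [Surf.aff, smul_smul, hl.ne']
    have h8 : (l • (T : E (m + 1) →L[ℝ] E (m + 1))).det =
        l ^ (m + 1) * (T : E (m + 1) →L[ℝ] E (m + 1)).det := by
      simp [ContinuousLinearMap.det]
    simp only [h7, dvg_smul, h6, h8, abs_mul, abs_of_pos (pow_pos hl (m + 1)), smul_eq_mul]
    field_simp
    ring

end Vale.Agent.P366W.Af

namespace Vale.Agent.P366W

theorem aff : AFF := fun _ S T b _ _ hS hl hκ =>
  ⟨Af.ok_aff S T b hS hl hκ, Af.n_aff S T b hl, Af.ν_aff S T b hl, Af.H_aff S T b hS hl hκ,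
    Af.th_aff S T b hl hκ⟩

end Vale.Agent.P366W
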