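import Vale.Agent.P366W.Gdiv
import Mathlib.Geometry.Manifold.SmoothApprox

/-!
# P366W: graphs are admissible; the area of a graph
-/

open MeasureTheory Metric Filter Topology Set
open scoped ContDiff ENNReal RealInnerProductSpace
open Vale.Agent.P366.Stmt Vale.Agent.P366Y

noncomputable section

namespace Vale.Agent.P366W

variable {N m : ℕ} {e : E (m + 1)} {L : E m →ₗᵢ[ℝ] E (m + 1)}

theorem hcs_l (f : E N → ℝ) {Y : E N → E N} (hc : HasCompactSupport Y) :
    HasCompactSupport fun y => f y • Y y := hc.mono fun x hx h0 => hx (by simp [h0])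

theorem hcs_r {f : E N → ℝ} (Y : E N → E N) (hc : HasCompactSupport f) :
    HasCompactSupport fun y => f y • Y y := hc.smul_right

theorem gradient_gsurf {u : E m → ℝ} (B : E (m + 1) → E (m + 1) →L[ℝ] E (m + 1))
    (a : E (m + 1) → ℝ) {x : E (m + 1)} (hu : DifferentiableAt ℝ u (adj L x)) :
    gradient (gsurf e L u B a).Φ x = e - L (gradient u (adj L x)) := by
  refine ext_inner_right ℝ fun v => ?_
  have h1 : HasFDerivAt (gsurf e L u B a).Φ (innerSL ℝ e - fderiv ℝ u (adj L x) ∘L adj L) x :=
    (innerSL ℝ e).hasFDerivAt.sub (hu.hasFDerivAt.comp x (adj L).hasFDerivAt)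
  rw [inner_grad, h1.fderiv, inner_sub_left, ← inner_adj, inner_grad]
  simp

theorem Fr.ne (h : Fr e L) (y : E m) : e - L y ≠ 0 := fun h0 => by
  have : ⟪e, e - L y⟫ = 1 := by rw [inner_sub_right, h.ee, h.ort, sub_zero]
  rw [h0, inner_zero_right] at this
  exact zero_ne_one this

theorem Fr.Φ_pt (h : Fr e L) (u : E m → ℝ) (B : E (m + 1) → E (m + 1) →L[ℝ] E (m + 1))
    (a : E (m + 1) → ℝ) (y : E m) (s : ℝ) : (gsurf e L u B a).Φ (L y + s • e) = s - u y := by
  simp only [gsurf, h.e_pt, h.adj_pt]

/-- the integral over a graph -/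
theorem integral_gsurf {u : E m → ℝ} {B : E (m + 1) → E (m + 1) →L[ℝ] E (m + 1)}
    {a : E (m + 1) → ℝ} (hu : ContDiff ℝ 1 u) (hB : Continuous B) (ha : Continuous a)
    (h0 : ∀ x, 0 ≤ a x) {ψ : E (m + 1) → ℝ} (hψ : Measurable ψ) :
    ∫ x, ψ x ∂(gsurf e L u B a).μ = ∫ y, ψ (L y + u y • e) * (a (L y + u y • e) *
      √⟪e - L (gradient u y), B (L y + u y • e) (e - L (gradient u y))⟫) := by
  have hg : Continuous (gradient u) := (contDiff_gradient (k := 0) (by simpa using hu)).continuous
  have huc := hu.continuous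
  have hX : Continuous fun y => L y + u y • e := by fun_prop
  simp only [gsurf]
  rw [integral_map hX.aemeasurable hψ.aestronglyMeasurable,
    integral_withDensity_eq_integral_toReal_smul (by fun_prop) (by simp)]
  refine integral_congr_ae (Eventually.of_forall fun y => ?_)
  simp only
  rw [ENNReal.toReal_ofReal (mul_nonneg (h0 _) (Real.sqrt_nonneg _)), smul_eq_mul, mul_comm]

theorem cap : CAP := by
  intro m e L u B a h hu hB ha hs hp h0
  have hu1 : ContDiff ℝ 1 u := hu.of_le (by simp)
  have hg : Continuous (gradient u) := (smooth_gradient hu).continuous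
  have huc := hu.continuous
  have hBc := hB.continuous
  have hac := ha.continuous
  have hX : Continuous fun y => L y + u y • e := by fun_prop
  have hgr : ∀ x, gradient (gsurf e L u B a).Φ x = e - L (gradient u (adj L x)) := fun x =>
    gradient_gsurf B a (hu1.differentiable one_ne_zero _)
  have hΦ : ContDiff ℝ ∞ (gsurf e L u B a).Φ :=
    (contDiff_const.inner ℝ contDiff_id).sub (ContDiff.comp hu (adj L).contDiff)
  refine ⟨hΦ, hB, ha, fun x => hgr x ▸ h.ne _, hs, hp, h0, ⟨fun K hK => ?_⟩, ?_, fun Y hY hc => ?_⟩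
  · simp only [gsurf]
    rw [Measure.map_apply hX.measurable hK.measurableSet]
    have := IsLocallyFiniteMeasure.withDensity_ofReal (μ := (volume : Measure (E m)))
      (f := fun y => a (L y + u y • e) *
        √⟪e - L (gradient u y), B (L y + u y • e) (e - L (gradient u y))⟫) (by fun_prop)
    refine lt_of_le_of_lt (measure_mono fun y hy => ?_)
      (hK.image (adj L).continuous).measure_lt_top
    exact ⟨_, hy, h.adj_pt _ _⟩
  · refine (ae_map_iff hX.aemeasurable (isClosed_eq hΦ.continuous continuous_const).measurableSet).2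
      (Eventually.of_forall fun y => ?_)
    rw [h.Φ_pt, sub_self]
  · have hn : Continuous (gsurf e L u B a).n := by
      refine Continuous.smul (Continuous.inv₀ (f := (gsurf e L u B a).W) ?_ fun x => ?_)
        (smooth_gradient hΦ).continuous
      · have := (smooth_gradient hΦ).continuous
        exact (this.inner (hBc.clm_apply this)).sqrt
      · exact (Real.sqrt_pos.2 (hp x _ (hgr x ▸ h.ne _))).ne'
    rw [integral_gsurf hu1 hBc hac (fun x => (h0 x).le) (hn.inner hY.continuous).measurable]
    have hset : {x | (gsurf e L u B a).Φ x < 0} = {x | ∃ y s, s < u y ∧ x = 0 + L y + s • e} := by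
      ext x
      constructor
      · intro hx
        exact ⟨adj L x, ⟪e, x⟫, sub_neg.1 hx, by rw [zero_add, h.dec]⟩
      · rintro ⟨y, s, hs, rfl⟩
        rw [zero_add, mem_ofPred_eq, h.Φ_pt]; linarith
    rw [hset, gdiv m 0 e L u (fun y => (gsurf e L u B a).a y • Y y) h hu1
      ((ha.of_le (by simp)).smul hY) (hcs_l _ hc)]
    refine integral_congr_ae (Eventually.of_forall fun y => ?_)
    have h1 := (Real.sqrt_pos.2 (hp (L y + u y • e) _ (h.ne (gradient u y)))).ne'
    simp only [Surf.n, Surf.W, hgr, h.adj_pt, zero_add, real_inner_smul_left,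
      real_inner_smul_right]
    simp only [gsurf]
    field_simp

/-- the open cylinder -/
def cyl (p e : E (m + 1)) (L : E m →ₗᵢ[ℝ] E (m + 1)) (c : ℝ) : Set (E (m + 1)) :=
  {x | ∃ y s, ‖y‖ < c ∧ |s| < c ∧ x = p + L y + s • e}

theorem Gr.n_eq {S : Surf (m + 1)} {p : E (m + 1)} {c : ℝ} {w : E m → ℝ} (hG : Gr S p e L c w)
    (hS : S.Ok) (h : Fr e L) {y : E m} (hw : DifferentiableAt ℝ w y) (hy : ‖y‖ < c)
    (hwy : |w y| < c) : S.n (p + L y + w y • e) =
      (√⟪e - L (gradient w y), S.B (p + L y + w y • e) (e - L (gradient w y))⟫)⁻¹ •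
        (e - L (gradient w y)) := by
  set x := p + L y + w y • e with hx
  have h4 : HasFDerivAt (fun y : E m => p + L y + w y • e)
      (L.toContinuousLinearMap + (fderiv ℝ w y).smulRight e) y :=
    (L.toContinuousLinearMap.hasFDerivAt.const_add p).add (hw.hasFDerivAt.smul_const e)
  have h1 : (fun y' => S.Φ (p + L y' + w y' • e)) =ᶠ[𝓝 y] fun _ => 0 := by
    filter_upwards [continuous_norm.continuousAt.eventually (gt_mem_nhds hy),
      hw.continuousAt.abs.eventually (gt_mem_nhds hwy)] with z h1 h2
    exact (hG z _ h1 h2).2.2 rfl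
  have h2 := ((hS.dΦ x).hasFDerivAt.comp y h4).unique
    ((hasFDerivAt_const (0 : ℝ) y).congr_of_eventuallyEq h1)
  set l := ⟪gradient S.Φ x, e⟫ with hl
  have h3 : gradient S.Φ x = l • (e - L (gradient w y)) := by
    refine ext_inner_right ℝ fun v => ?_
    have h5 := congrArg (fun M => M (adj L v)) h2
    simp only [ContinuousLinearMap.comp_apply, add_apply, ContinuousLinearMap.smulRight_apply,
      map_add, map_smul, zero_apply, ← inner_grad, smul_eq_mul,
      LinearIsometry.coe_toContinuousLinearMap] at h5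
    conv_lhs => rw [← h.dec v]
    rw [inner_add_right, real_inner_smul_right, real_inner_smul_left, inner_sub_left, ← inner_adj]
    rw [← hl] at h5 ⊢
    linarith
  have hl0 : 0 < l := by
    have h5 : HasDerivAt (fun s : ℝ => S.Φ (p + L y + s • e)) l (w y) := by
      have h6 : HasDerivAt (fun s : ℝ => p + L y + s • e) e (w y) := by
        simpa using ((hasDerivAt_id (w y)).smul_const e).const_add (p + L y)
      rw [hl, inner_grad]
      exact (hS.dΦ x).hasFDerivAt.comp_hasDerivAt (w y) h6
    have h7 : l ≠ 0 := fun h0 => hS.reg x (by rw [h3, h0, zero_smul])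
    refine lt_of_le_of_ne ?_ h7.symm
    refine ge_of_tendsto (h5.tendsto_slope.mono_left (nhdsLT_le_nhdsNE _)) ?_
    filter_upwards [self_mem_nhdsWithin, nhdsWithin_le_nhds
      (continuous_abs.continuousAt.eventually (gt_mem_nhds hwy))] with s hs1 hs2
    rw [slope_def_field, (hG y _ hy hwy).2.2 rfl, sub_zero]
    exact div_nonneg_of_nonpos ((hG y s hy hs2).1.2 hs1).le (sub_neg.2 hs1).le
  simp only [Surf.n, Surf.W, h3, map_smul, real_inner_smul_left, real_inner_smul_right, smul_smul]
  congr 1
  rw [← mul_assoc, Real.sqrt_mul (mul_self_nonneg l), Real.sqrt_mul_self hl0.le]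
  have h1 := (Real.sqrt_pos.2 (hS.pos x _ (h.ne (gradient w y)))).ne'
  field_simp

theorem Fr.mem_cyl (h : Fr e L) {p : E (m + 1)} {c : ℝ} {y : E m} {s : ℝ} :
    p + L y + s • e ∈ cyl p e L c ↔ ‖y‖ < c ∧ |s| < c := by
  constructor
  · rintro ⟨y', s', h1, h2, h3⟩
    rw [add_assoc, add_assoc, add_right_inj] at h3
    have h4 := congrArg (adj L) h3
    have h5 := congrArg (fun v => ⟪e, v⟫) h3
    simp only [h.adj_pt, h.e_pt] at h4 h5
    exact ⟨h4 ▸ h1, h5 ▸ h2⟩
  · rintro ⟨h1, h2⟩
    exact ⟨y, s, h1, h2, rfl⟩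

theorem Gr.area1 {S : Surf (m + 1)} {p : E (m + 1)} {c : ℝ} {w : E m → ℝ} (hG : Gr S p e L c w)
    (hS : S.Ok) (h : Fr e L) (hw : ContDiff ℝ 1 w) {ψ : E (m + 1) → ℝ} (hψ : ContDiff ℝ 1 ψ)
    (hc : HasCompactSupport ψ) (hs : tsupport ψ ⊆ cyl p e L c) :
    ∫ x, ψ x ∂S.μ = ∫ y, ψ (p + L y + w y • e) * (S.a (p + L y + w y • e) *
        √⟪e - L (gradient w y), S.B (p + L y + w y • e) (e - L (gradient w y))⟫) := by
  have hY : ContDiff ℝ 1 fun x => ψ x • S.ν x := hψ.smul (hS.smν.of_le (by simp))
  have hY' : ContDiff ℝ 1 fun x => S.a x • ψ x • S.ν x := (hS.sma.of_le (by simp)).smul hY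
  have h1 := hS.div _ hY (hcs_r _ hc)
  simp only [inner_smul_right, hS.nν, mul_one] at h1
  have h2 := gdiv m p e L w (fun x => S.a x • ψ x • S.ν x) h hw hY' (hcs_l _ (hcs_r _ hc))
  have hΦ := hS.smΦ.continuous
  have hwc := hw.continuous
  have hm : MeasurableSet {x | ∃ y s, s < w y ∧ x = p + L y + s • e} := by
    have : {x | ∃ y s, s < w y ∧ x = p + L y + s • e} = {x | ⟪e, x - p⟫ < w (adj L (x - p))} := by
      ext x
      constructor
      · rintro ⟨y, s, hs, rfl⟩
        simpa only [add_assoc, add_sub_cancel_left, mem_ofPred_eq, h.adj_pt, h.e_pt] using hs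
      · intro hx
        exact ⟨_, _, hx, by rw [add_assoc, h.dec, add_sub_cancel]⟩
    rw [this]
    exact (isOpen_lt (by fun_prop) (by fun_prop)).measurableSet
  rw [h1, ← integral_indicator (isOpen_lt hΦ continuous_const).measurableSet]
  rw [← integral_indicator hm] at h2
  have h3 : ∀ x, indicator {x | S.Φ x < 0} (dvg fun x => S.a x • ψ x • S.ν x) x =
      indicator {x | ∃ y s, s < w y ∧ x = p + L y + s • e}
        (dvg fun x => S.a x • ψ x • S.ν x) x := fun x => by
    by_cases hx : x ∈ tsupport ψ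
    · obtain ⟨y, s, hy, hs', rfl⟩ := hs hx
      have : p + L y + s • e ∈ {x | S.Φ x < 0} ↔
          p + L y + s • e ∈ {x | ∃ y s, s < w y ∧ x = p + L y + s • e} := by
        rw [mem_ofPred_eq, (hG y s hy hs').1]
        constructor
        · exact fun h1 => ⟨y, s, h1, rfl⟩
        · rintro ⟨y', s', h1, h3⟩
          rw [add_assoc, add_assoc, add_right_inj] at h3
          have h4 := congrArg (adj L) h3
          have h5 := congrArg (fun v => ⟪e, v⟫) h3
          simp only [h.adj_pt, h.e_pt] at h4 h5
          rw [h4, h5]; exact h1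
      by_cases h9 : p + L y + s • e ∈ {x | S.Φ x < 0}
      · rw [indicator_of_mem h9, indicator_of_mem (this.1 h9)]
      · rw [indicator_of_notMem h9, indicator_of_notMem fun h8 => h9 (this.2 h8)]
    · have : dvg (fun x => S.a x • ψ x • S.ν x) x = 0 := dvg_eq_zero fun h' =>
        hx (tsupport_smul_subset_left _ _ (tsupport_smul_subset_right _ _ h'))
      simp [indicator, this]
  refine (integral_congr_ae (Eventually.of_forall h3)).trans (h2.trans ?_)
  refine integral_congr_ae (Eventually.of_forall fun y => ?_)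
  by_cases h0 : ψ (p + L y + w y • e) = 0
  · simp [h0]
  · obtain ⟨h4, h5⟩ := h.mem_cyl.1 (hs (subset_tsupport _ h0))
    have h6 := (Real.sqrt_pos.2 (hS.pos (p + L y + w y • e) _ (h.ne (gradient w y))))
    have h7 := Real.sq_sqrt (hS.pos (p + L y + w y • e) _ (h.ne (gradient w y))).le
    simp only [Surf.ν, hG.n_eq hS h (hw.differentiable one_ne_zero y) h4 h5, map_smul,
      real_inner_smul_right]
    set q := √⟪e - L (gradient w y), S.B (p + L y + w y • e) (e - L (gradient w y))⟫
    rw [← h7]
    field_simp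

theorem area : AREA := by
  intro m S p e L c w hS h hw hG
  have hw1 : ContDiff ℝ 1 w := hw.of_le (by norm_num)
  refine ⟨fun y h1 h2 => hG.n_eq hS h (hw1.differentiable one_ne_zero y) h1 h2, fun ψ hψ hs => ?_⟩
  have hg : Continuous (gradient w) := (contDiff_gradient (k := 0) (by simpa using hw1)).continuous
  have hwc := hw.continuous
  have hB := hS.smB.continuous
  have ha := hS.sma.continuous
  have hc : HasCompactSupport ψ := by
    refine (isCompact_closedBall p (2 * c)).of_isClosed_subset (isClosed_tsupport _) fun x hx => ?_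
    obtain ⟨y, s, h1, h2, rfl⟩ := hs hx
    rw [mem_closedBall, dist_eq_norm, add_assoc, add_sub_cancel_left]
    refine (norm_add_le _ _).trans ?_
    rw [norm_smul, h.one, L.norm_map, Real.norm_eq_abs]
    linarith
  set J : E m → ℝ := fun y => S.a (p + L y + w y • e) *
    √⟪e - L (gradient w y), S.B (p + L y + w y • e) (e - L (gradient w y))⟫ with hJ
  have hJc : Continuous J := by rw [hJ]; fun_prop
  have hX : Continuous fun y => p + L y + w y • e := by fun_prop
  choose g hg1 hg2 hg3 using fun k : ℕ => hψ.exists_contDiff_approx 1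
    (ε := fun _ => 1 / ((k : ℝ) + 1)) continuous_const fun _ => Nat.one_div_pos_of_nat
  obtain ⟨M, hM⟩ := hψ.bounded_above_of_compact_support hc
  have hb : ∀ k x, ‖g k x‖ ≤ indicator (tsupport ψ) (fun _ => M + 1) x := fun k x => by
    by_cases hx : x ∈ tsupport ψ
    · rw [indicator_of_mem hx]
      have h1 := hg2 k x
      have h2 : 1 / ((k : ℝ) + 1) ≤ 1 := by
        rw [div_le_one (by positivity)]; linarith [Nat.cast_nonneg (α := ℝ) k]
      have := norm_le_norm_sub_add (g k x) (ψ x)
      rw [dist_eq_norm] at h1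
      linarith [hM x]
    · rw [indicator_of_notMem hx, norm_le_zero_iff]
      by_contra h0
      exact hx (subset_tsupport _ (hg3 k h0))
  have ht : ∀ x, Tendsto (fun k => g k x) atTop (𝓝 (ψ x)) := fun x =>
    tendsto_iff_dist_tendsto_zero.2 (squeeze_zero (fun _ => dist_nonneg) (fun k => (hg2 k x).le)
      tendsto_one_div_add_atTop_nhds_zero_nat)
  have := hS.fin
  have h1 : Tendsto (fun k => ∫ x, g k x ∂S.μ) atTop (𝓝 (∫ x, ψ x ∂S.μ)) :=
    tendsto_integral_of_dominated_convergence _ (fun k => (hg1 k).continuous.aestronglyMeasurable)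
      ((integrable_indicator_iff (isClosed_tsupport _).measurableSet).2
        (continuousOn_const.integrableOn_compact hc)) (fun k => Eventually.of_forall (hb k))
      (Eventually.of_forall ht)
  have h2 : Tendsto (fun k => ∫ y, g k (p + L y + w y • e) * J y) atTop
      (𝓝 (∫ y, ψ (p + L y + w y • e) * J y)) := by
    refine tendsto_integral_of_dominated_convergence
      (indicator (closedBall 0 c) fun y => (M + 1) * ‖J y‖)
      (fun k => (((hg1 k).continuous.comp hX).mul hJc).aestronglyMeasurable)
      ((integrable_indicator_iff measurableSet_closedBall).2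
        ((continuous_const.mul hJc.norm).continuousOn.integrableOn_compact
          (isCompact_closedBall _ _))) (fun k => Eventually.of_forall fun y => ?_)
      (Eventually.of_forall fun y => (ht _).mul_const _)
    have h3 := hb k (p + L y + w y • e)
    rw [norm_mul]
    by_cases hx : p + L y + w y • e ∈ tsupport ψ
    · rw [indicator_of_mem hx] at h3
      rw [indicator_of_mem (by simpa using (h.mem_cyl.1 (hs hx)).1.le)]
      gcongr
    · rw [indicator_of_notMem hx, norm_le_zero_iff] at h3
      rw [h3, norm_zero, zero_mul]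
      refine indicator_nonneg (fun y _ => ?_) _
      have := (norm_nonneg _).trans (hM 0)
      positivity
  refine tendsto_nhds_unique h1 (h2.congr fun k => ?_)
  have h4 : tsupport (g k) ⊆ tsupport ψ := closure_mono (hg3 k)
  exact (hG.area1 hS h hw1 (hg1 k) (hc.isCompact.of_isClosed_subset (isClosed_tsupport _) h4)
    (h4.trans hs)).symm

end Vale.Agent.P366W
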