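import Vale.Agent.P366W.Graph1
import Vale.Agent.P366Z.Calc

/-!
# P366W: the equation of a graph
-/

open MeasureTheory Metric Filter Topology Set
open scoped ContDiff ENNReal RealInnerProductSpace
open Vale.Agent.P366.Stmt Vale.Agent.P366Y

noncomputable section

namespace Vale.Agent.P366W

variable {N m : ℕ}

/-- the coefficients of the equation -/
def Surf.gam (S : Surf (m + 1)) (L : E m →ₗᵢ[ℝ] E (m + 1)) (x : E (m + 1)) : Mx m := fun i j =>
  ⟪L (EuclideanSpace.single i 1), S.B x (L (EuclideanSpace.single j 1))⟫ -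
    ⟪S.ν x, L (EuclideanSpace.single i 1)⟫ * ⟪S.ν x, L (EuclideanSpace.single j 1)⟫

/-- the right hand side of the equation -/
def Surf.rhs (S : Surf N) (x : E N) : ℝ :=
  trc ((fderiv ℝ S.B x).flip (S.n x) ∘L S.P x) + ⟪S.n x, fderiv ℝ S.B x (S.ν x) (S.n x)⟫ / 2 +
    (S.a x)⁻¹ * fderiv ℝ S.a x (S.ν x) - S.H x

theorem Surf.Ok.PB {S : Surf N} (h : S.Ok) (x v : E N) :
    S.P x (S.B x v) = S.B x v - ⟪S.ν x, v⟫ • S.ν x := by
  rw [Surf.P_apply, ← h.sym]; rfl

theorem Surf.Ok.trc_dn {S : Surf N} (h : S.Ok) (x : E N) :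
    trc (fderiv ℝ S.n x ∘L S.P x ∘L S.B x) = -S.rhs x := by
  have h1 := h.aH x
  rw [dvg_smul (h.da x) (h.dν x), dvg_eq] at h1
  have h2 : fderiv ℝ S.ν x = (fderiv ℝ S.B x).flip (S.n x) ∘L S.P x +
      S.B x ∘L (fderiv ℝ S.n x ∘L S.P x) + (innerSL ℝ (S.n x)).smulRight (fderiv ℝ S.ν x (S.ν x)) := by
    ext1 v
    have := h.fderiv_ν x (S.P x v)
    simp only [add_apply, ContinuousLinearMap.comp_apply, ContinuousLinearMap.flip_apply, ← this,
      ContinuousLinearMap.smulRight_apply, innerSL_apply_apply]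
    rw [Surf.P_apply, map_sub, map_smul, sub_add_cancel]
  rw [h2, trc_add, trc_add, trc_smulRight, trc_comm (S.B x), innerSL_apply_apply, h.n_dν,
    ContinuousLinearMap.comp_assoc] at h1
  have h3 := (h.a0 x).ne'
  rw [Surf.rhs]
  field_simp
  linarith

variable {S : Surf (m + 1)} {p e : E (m + 1)} {L : E m →ₗᵢ[ℝ] E (m + 1)} {r : ℝ} {w : E m → ℝ}
  {y : E m}

theorem Gr.tangent (hG : Gr S p e L r w) (hS : S.Ok) (h : Fr e L) (hw : DifferentiableAt ℝ w y)
    (hy : ‖y‖ < r) (hwy : |w y| < r) (ξ : E m) :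
    ⟪S.n (p + L y + w y • e), L ξ + fderiv ℝ w y ξ • e⟫ = 0 := by
  rw [hG.n_eq hS h hw hy hwy, real_inner_smul_left]
  refine mul_eq_zero_of_right _ ?_
  rw [inner_sub_left, h.e_pt, ← inner_adj, h.adj_pt, inner_grad, sub_self]

theorem Gr.dec (hG : Gr S p e L r w) (hS : S.Ok) (h : Fr e L) (hw : DifferentiableAt ℝ w y)
    (hy : ‖y‖ < r) (hwy : |w y| < r) {v : E (m + 1)} (hv : ⟪S.n (p + L y + w y • e), v⟫ = 0) :
    v = ∑ i, ⟪L (EuclideanSpace.single i 1), v⟫ •
      (L (EuclideanSpace.single i 1) + pd i w y • e) := by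
  rw [hG.n_eq hS h hw hy hwy, real_inner_smul_left, mul_eq_zero] at hv
  have h1 := hv.resolve_left
    (inv_ne_zero (Real.sqrt_pos.2 (hS.pos _ _ (h.ne (gradient w y)))).ne')
  rw [inner_sub_left, ← inner_adj, inner_grad, sub_eq_zero] at h1
  have h2 : ∀ i, ⟪L (EuclideanSpace.single i 1), v⟫ = adj L v i := fun i => by
    rw [← inner_adj, EuclideanSpace.inner_single_left]; simp
  conv_lhs => rw [← h.dec v, h1, map_eq_sum (fderiv ℝ w y)]
  simp only [h2, Finset.sum_smul, smul_add, Finset.sum_add_distrib,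
    P366Z.pd_eq hw, smul_smul, smul_eq_mul]
  congr 1
  exact map_eq_sum L.toContinuousLinearMap _

theorem Gr.second (hG : Gr S p e L r w) (hS : S.Ok) (h : Fr e L) (hw : ContDiffAt ℝ 2 w y)
    (hy : ‖y‖ < r) (hwy : |w y| < r) (i j : Fin m) :
    ⟪L (EuclideanSpace.single j 1) + pd j w y • e, fderiv ℝ S.n (p + L y + w y • e)
      (L (EuclideanSpace.single i 1) + pd i w y • e)⟫ =
      -(⟪S.n (p + L y + w y • e), e⟫ * pd i (pd j w) y) := by
  have hd := P366Z.diff2 hw
  have h4 : HasFDerivAt (fun y : E m => p + L y + w y • e)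
      (L.toContinuousLinearMap + (fderiv ℝ w y).smulRight e) y :=
    (L.toContinuousLinearMap.hasFDerivAt.const_add p).add (hd.hasFDerivAt.smul_const e)
  have h5 := ((hS.dn _).hasFDerivAt.comp y h4).inner ℝ
    (((P366Z.diffAt_pd hw j).hasFDerivAt.smul_const e).const_add (L (EuclideanSpace.single j 1)))
  have h1 : (fun z => ⟪(S.n ∘ fun y : E m => p + L y + w y • e) z,
      L (EuclideanSpace.single j 1) + pd j w z • e⟫) =ᶠ[𝓝 y] fun _ => 0 := by
    filter_upwards [continuous_norm.continuousAt.eventually (gt_mem_nhds hy),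
      hd.continuousAt.abs.eventually (gt_mem_nhds hwy), P366Z.ev_diff hw] with z h1 h2 h3
    rw [P366Z.pd_eq h3]
    exact hG.tangent hS h h3 h1 h2 _
  have h2 := congrArg (fun M => M (EuclideanSpace.single i 1))
    (h5.unique ((hasFDerivAt_const (0 : ℝ) y).congr_of_eventuallyEq h1))
  simp only [ContinuousLinearMap.comp_apply, ContinuousLinearMap.prod_apply, fderivInnerCLM_apply,
    Function.comp_apply, add_apply, ContinuousLinearMap.smulRight_apply, zero_apply,
    LinearIsometry.coe_toContinuousLinearMap, real_inner_smul_right, ← P366Z.pd_eq hd,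
    ← P366Z.pd_eq (P366Z.diffAt_pd hw j)] at h2
  rw [real_inner_comm]
  linarith

theorem Gr.eqn (hG : Gr S p e L r w) (hS : S.Ok) (h : Fr e L) (hw : ContDiffAt ℝ 2 w y)
    (hy : ‖y‖ < r) (hwy : |w y| < r) : ⟪S.n (p + L y + w y • e), e⟫ *
      pr2 (S.gam L (p + L y + w y • e)) (D2 w y) = S.rhs (p + L y + w y • e) := by
  have hd := P366Z.diff2 hw
  have h1 := hS.trc_dn (p + L y + w y • e)
  have h2 := hG.second hS h hw hy hwy
  have h3 := fun v => hG.dec hS h hd hy hwy (v := v)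
  set x := p + L y + w y • e
  set τ : Fin m → E (m + 1) := fun i => L (EuclideanSpace.single i 1) + pd i w y • e with hτ
  have h4 : ∀ v, S.P x (S.B x v) = ∑ i, ⟪L (EuclideanSpace.single i 1), S.P x (S.B x v)⟫ • τ i :=
    fun v => h3 _ (by rw [Surf.P_apply, inner_sub_right, real_inner_smul_right, hS.nν]; ring)
  have h5 : ∀ v v', ⟪v, S.P x (S.B x v')⟫ = ⟪S.P x (S.B x v), v'⟫ := fun v v' => by
    simp only [hS.PB, inner_sub_left, inner_sub_right, real_inner_smul_left, real_inner_smul_right,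
      hS.sym, real_inner_comm v (S.ν x)]
    ring
  have h6 : ∀ i j, ⟪L (EuclideanSpace.single i 1), S.P x (S.B x (L (EuclideanSpace.single j 1)))⟫
      = S.gam L x i j := fun i j => by
    rw [hS.PB, inner_sub_right, real_inner_smul_right, Surf.gam, real_inner_comm (S.ν x), mul_comm]
  have h7 : fderiv ℝ S.n x ∘L S.P x ∘L S.B x = ∑ i, ∑ j, S.gam L x j i •
      (innerSL ℝ (τ j)).smulRight (fderiv ℝ S.n x (τ i)) := by
    ext1 v
    simp only [ContinuousLinearMap.comp_apply, _root_.sum_apply, smul_apply,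
      ContinuousLinearMap.smulRight_apply, innerSL_apply_apply, smul_smul]
    rw [h4, map_sum]
    refine Finset.sum_congr rfl fun i _ => ?_
    rw [h5, h4, sum_inner, map_smul, Finset.sum_smul]
    simp only [h6, real_inner_smul_left]
  have h8 : ∀ M, trc M = trcL (m + 1) M := fun _ => rfl
  rw [h7, h8] at h1
  simp only [map_sum, map_smul] at h1
  simp only [← h8, trc_smulRight, innerSL_apply_apply, hτ, h2, smul_eq_mul] at h1
  rw [← neg_inj, ← h1, pr2, Finset.mul_sum, ← Finset.sum_neg_distrib]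
  refine Finset.sum_congr rfl fun i _ => ?_
  rw [Finset.mul_sum, ← Finset.sum_neg_distrib]
  refine Finset.sum_congr rfl fun j _ => ?_
  have : S.gam L x j i = S.gam L x i j := by
    simp only [Surf.gam]
    rw [← hS.sym, real_inner_comm, mul_comm]
  rw [this, D2]; ring

theorem Gr.grad_eq (hG : Gr S p e L r w) (hS : S.Ok) (h : Fr e L) (hw : DifferentiableAt ℝ w y)
    (hy : ‖y‖ < r) (hwy : |w y| < r) (i : Fin m) : ⟪S.n (p + L y + w y • e), e⟫ * pd i w y =
      -⟪S.n (p + L y + w y • e), L (EuclideanSpace.single i 1)⟫ := by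
  have := hG.tangent hS h hw hy hwy (EuclideanSpace.single i 1)
  rw [inner_add_right, real_inner_smul_right, ← P366Z.pd_eq hw] at this
  linarith

/-- ellipticity -/
theorem Surf.Bd.el {x₀ x : E (m + 1)} {R Λ : ℝ} (hb : S.Bd x₀ R (1 / 8) Λ) (hS : S.Ok)
    (h : Fr e L) (hx : x ∈ ball x₀ R) (hn : ‖S.n x - e‖ ≤ 1 / 8) : El 8 (S.gam L x) := by
  have h1 := hb.ν_le hS (by norm_num) hx
  have h2 : ∀ i, ‖L (EuclideanSpace.single i 1)‖ = 1 := fun i => by simp
  refine ⟨fun i j => ?_, fun i j => ?_, fun ξ => ?_⟩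
  · simp only [Surf.gam]
    rw [← hS.sym, real_inner_comm, mul_comm]
  · have e1 := abs_real_inner_le_norm (L (EuclideanSpace.single i 1))
      (S.B x (L (EuclideanSpace.single j 1)))
    have e2 := hb.B_hi hx (L (EuclideanSpace.single j 1))
    have e3 := abs_real_inner_le_norm (S.ν x) (L (EuclideanSpace.single i 1))
    have e4 := abs_real_inner_le_norm (S.ν x) (L (EuclideanSpace.single j 1))
    rw [h2] at e1 e2 e3 e4
    refine (abs_sub _ _).trans ?_
    rw [abs_mul]
    rw [mul_one] at e3 e4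
    nlinarith [mul_le_mul (e3.trans h1) (e4.trans h1) (abs_nonneg _) (by norm_num)]
  · set z : E m := WithLp.toLp 2 ξ with hz
    have e1 : L z = ∑ i, ξ i • L (EuclideanSpace.single i 1) := by
      conv_lhs => rw [← sum_single z]
      simp [hz]
    have e8 : ∑ i, ∑ j, S.gam L x i j * ξ i * ξ j = ⟪L z, S.B x (L z)⟫ - ⟪S.ν x, L z⟫ ^ 2 := by
      simp only [e1, map_sum, map_smul, sum_inner, inner_sum, real_inner_smul_left,
        real_inner_smul_right, _root_.sq, Finset.sum_mul, Finset.mul_sum, Surf.gam,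
        ← Finset.sum_sub_distrib]
      rw [Finset.sum_comm]
      exact Finset.sum_congr rfl fun i _ => Finset.sum_congr rfl fun j _ => by ring
    have e3 : e2 ξ = ‖z‖ ^ 2 := by rw [EuclideanSpace.real_norm_sq_eq]; rfl
    have e4 := hb.B_lo hx (L z)
    have e5 : ‖S.ν x - e‖ ≤ 1 / 2 := by
      have a1 : ‖S.ν x - S.n x‖ ≤ 1 / 8 * ‖S.n x‖ := hb.Bsub hx _
      have a2 := hb.n_le hS (by norm_num) hx
      have a3 := norm_sub_le_norm_sub_add_norm_sub (S.ν x) (S.n x) e
      linarith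
    have e6 := h.tilt e5 z 0
    simp only [zero_smul, add_zero, sub_zero, abs_zero] at e6
    have e7 : ⟪S.ν x, L z⟫ ^ 2 ≤ (1 / 2 * ‖z‖) ^ 2 := sq_le_sq' (abs_le.1 e6).1 (abs_le.1 e6).2
    rw [L.norm_map] at e4
    rw [e8, e3]
    nlinarith [sq_nonneg ‖z‖]

end Vale.Agent.P366W
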