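import Vale.Agent.P366W.Graph2
import Vale.Agent.P366Y.T.QeA
import Vale.Agent.P366Y.T.UschA

/-!
# P366W: the estimate of Schauder for a graph
-/

open MeasureTheory Metric Filter Topology Set
open scoped ContDiff ENNReal RealInnerProductSpace
open Vale.Agent.P366.Stmt Vale.Agent.P366Y

noncomputable section

namespace Vale.Agent.P366W

variable {N m : ℕ}

/-- uniformly Hölder families -/
def UH {ι V : Type} [NormedAddCommGroup V] (α : ℝ) (f : ι → E m → V) : Prop :=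
  ∃ A, ∀ i, Ho α A (f i)

namespace UH

variable {ι V V' V'' : Type} [NormedAddCommGroup V] [NormedAddCommGroup V'] [NormedAddCommGroup V'']
  {α : ℝ} {f g : ι → E m → V}

theorem add (hf : UH α f) (hg : UH α g) : UH α fun i x => f i x + g i x :=
  let ⟨_, h⟩ := hf; let ⟨_, k⟩ := hg; ⟨_, fun i => Qe.add (h i) (k i)⟩

theorem sub (hf : UH α f) (hg : UH α g) : UH α fun i x => f i x - g i x :=
  let ⟨_, h⟩ := hf; let ⟨_, k⟩ := hg; ⟨_, fun i => Qe.sub (h i) (k i)⟩

theorem const {c : ι → V} {K : ℝ} (h : ∀ i, ‖c i‖ ≤ K) : UH (m := m) α fun i _ => c i :=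
  ⟨K, fun i => ⟨fun _ => h i, fun x y => by
    simpa using mul_nonneg ((norm_nonneg _).trans (h i)) (Qe.rp x y α)⟩⟩

theorem neg (hf : UH α f) : UH α fun i x => -f i x := by
  simpa using (const (c := fun _ => (0 : V)) (K := 0) (by simp)).sub hf

theorem congr (hf : UH α f) (h : ∀ i x, g i x = f i x) : UH α g := by
  rwa [show g = f from funext fun i => funext (h i)]

theorem sum {κ : Type} (s : Finset κ) {F : κ → ι → E m → V} (h : ∀ k, UH α (F k)) :
    UH α fun i x => ∑ k ∈ s, F k i x := by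
  classical
  induction s using Finset.induction_on with
  | empty => simpa using const (c := fun _ => (0 : V)) (K := 0) (by simp)
  | insert a s ha ih => simpa only [Finset.sum_insert ha] using (h a).add ih

theorem pi {k : ℕ} {F : ι → E m → Fin k → V} (h : ∀ j, UH α fun i x => F i x j) : UH α F := by
  choose A hA using h
  refine ⟨∑ j, |A j|, fun i => ⟨fun x => ?_, fun x y => ?_⟩⟩
  · refine (pi_norm_le_iff_of_nonneg (by positivity)).2 fun j => ((hA j i).1 x).trans ?_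
    exact (le_abs_self _).trans
      (Finset.single_le_sum (f := fun j => |A j|) (fun _ _ => abs_nonneg _) (Finset.mem_univ j))
  · have := Qe.rp x y α
    refine (pi_norm_le_iff_of_nonneg (by positivity)).2 fun j => ((hA j i).2 x y).trans ?_
    gcongr
    exact (le_abs_self _).trans
      (Finset.single_le_sum (f := fun j => |A j|) (fun _ _ => abs_nonneg _) (Finset.mem_univ j))

variable [NormedSpace ℝ V] [NormedSpace ℝ V'] [NormedSpace ℝ V'']

theorem app {F : ι → E m → V →L[ℝ] V'} (hF : UH α F) (hf : UH α f) :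
    UH α fun i x => F i x (f i x) := by
  obtain ⟨A, h⟩ := hF
  obtain ⟨B, k⟩ := hf
  refine ⟨2 * A * B, fun i => ?_⟩
  have hA := Qe.nn (h i)
  have hB := Qe.nn (k i)
  refine ⟨fun x => ?_, fun x y => ?_⟩
  · nlinarith [(F i x).le_of_opNorm_le_of_le ((h i).1 x) ((k i).1 x)]
  · have e : F i x (f i x) - F i y (f i y) = F i x (f i x - f i y) + (F i x - F i y) (f i y) := by
      rw [map_sub, sub_apply]; abel
    rw [e]
    refine (norm_add_le _ _).trans ?_
    linarith [(F i x).le_of_opNorm_le_of_le ((h i).1 x) ((k i).2 x y),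
      (F i x - F i y).le_of_opNorm_le_of_le ((h i).2 x y) ((k i).1 y)]

theorem lin (l : V →L[ℝ] V') (hf : UH α f) : UH α fun i x => l (f i x) :=
  (const (c := fun _ => l) fun _ => le_rfl).app hf

theorem smul {φ : ι → E m → ℝ} (hφ : UH α φ) (hf : UH α f) : UH α fun i x => φ i x • f i x :=
  let ⟨_, h⟩ := hφ; let ⟨_, k⟩ := hf; ⟨_, fun i => Qe.mul (h i) (k i)⟩

theorem mul {φ ψ : ι → E m → ℝ} (hφ : UH α φ) (hψ : UH α ψ) : UH α fun i x => φ i x * ψ i x :=
  hφ.smul hψ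

theorem inner {f g : ι → E m → E N} (hf : UH α f) (hg : UH α g) :
    UH α fun i x => ⟪f i x, g i x⟫ := (hf.lin (innerSL ℝ)).app hg

theorem inv {φ : ι → E m → ℝ} (hφ : UH α φ) (h : ∀ i x, 1 / 2 ≤ φ i x) :
    UH α fun i x => (φ i x)⁻¹ := by
  obtain ⟨A, k⟩ := hφ
  refine ⟨2 + 4 * A, fun i => ⟨fun x => ?_, fun x y => ?_⟩⟩
  · have h1 := h i x
    have h2 : (φ i x)⁻¹ ≤ 2 := inv_le_of_inv_le₀ two_pos (by linarith)
    rw [Real.norm_of_nonneg (inv_nonneg.2 (by linarith))]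
    linarith [Qe.nn (k i)]
  · have h1 := h i x
    have h2 := h i y
    have h3 := (k i).2 x y
    have h4 := Qe.rp x y α
    rw [inv_sub_inv (by linarith) (by linarith), norm_div, norm_sub_rev,
      Real.norm_of_nonneg (by positivity : 0 ≤ φ i x * φ i y), div_le_iff₀ (by positivity)]
    have h5 : 1 / 2 * (1 / 2) ≤ φ i x * φ i y := by gcongr
    nlinarith [mul_le_mul_of_nonneg_left h5 (mul_nonneg (by linarith [Qe.nn (k i)]) h4 :
      0 ≤ (2 + 4 * A) * ‖x - y‖ ^ α)]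

theorem smooth (hα : α ∈ Ioo (0 : ℝ) 1) {χ : E m → V} (h1 : ContDiff ℝ 1 χ)
    (h2 : HasCompactSupport χ) : UH α fun (_ : ι) x => χ x := by
  obtain ⟨K, hK⟩ := h1.lipschitzWith_of_hasCompactSupport h2 one_ne_zero
  obtain ⟨A, hA⟩ := h1.continuous.bounded_above_of_compact_support h2
  exact ⟨_, fun _ => Qe.of_lip hα K.2 hA fun x y => by
    simpa [dist_eq_norm] using hK.dist_le_mul x y⟩

end UH

/-- the data of a graph at the unit scale -/
structure Gd (m : ℕ) (α : ℝ) where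
  S : Surf (m + 1)
  p : E (m + 1)
  e : E (m + 1)
  L : E m →ₗᵢ[ℝ] E (m + 1)
  w : E m → ℝ
  ok : S.Ok
  bd : S.Bd p 8 (1 / 8) 1
  fr : Fr e L
  tl : Tl S p e 8 (1 / 8)
  ho : ∀ q ∈ ball p 8, ∀ q' ∈ ball p 8, S.Φ q = 0 → S.Φ q' = 0 → ‖S.n q - S.n q'‖ ≤ ‖q - q'‖ ^ α
  gr : Gr S p e L 4 w
  w0 : ∀ y, ‖y‖ < 4 → |w y| ≤ 1 ∧ ContDiffAt ℝ ∞ w y
  w1 : ∀ y y', ‖y‖ < 4 → ‖y'‖ < 4 → |w y - w y'| ≤ ‖y - y'‖

/-- the cutoff -/
def chi (m : ℕ) : ContDiffBump (0 : E m) := ⟨2, 3, by norm_num, by norm_num⟩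

/-- the retraction -/
def ret (y : E m) : E m := (⟨3, 7 / 2, by norm_num, by norm_num⟩ : ContDiffBump (0 : E m)) y • y

theorem ret_eq {y : E m} (hy : ‖y‖ ≤ 3) : ret y = y := by
  rw [ret, ContDiffBump.one_of_mem_closedBall _ (by simpa using hy), one_smul]

theorem ret_lt (y : E m) : ‖ret y‖ < 4 := by
  set b : ContDiffBump (0 : E m) := ⟨3, 7 / 2, by norm_num, by norm_num⟩ with hb
  rcases le_total (7 / 2) ‖y‖ with h | h
  · rw [ret, ← hb, b.zero_of_le_dist (by simpa using h)]; simp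
  · rw [ret, ← hb, norm_smul, Real.norm_of_nonneg b.nonneg]
    nlinarith [b.le_one (x := y), norm_nonneg y]

theorem ret_lip (m : ℕ) : ∃ K ≥ (0 : ℝ), ∀ y y' : E m, ‖ret y - ret y'‖ ≤ K * ‖y - y'‖ := by
  set b : ContDiffBump (0 : E m) := ⟨3, 7 / 2, by norm_num, by norm_num⟩ with hb
  obtain ⟨K, hK⟩ := ContDiff.lipschitzWith_of_hasCompactSupport (f := fun y : E m => b y • y)
    (hcs_r _ b.hasCompactSupport) (b.contDiff.smul contDiff_id) one_ne_zero
  exact ⟨K, K.2, fun x y => by simpa [dist_eq_norm, ret] using hK.dist_le_mul x y⟩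

namespace Gd

variable {α : ℝ} (d : Gd m α)

/-- the parametrisation -/
def X (y : E m) : E (m + 1) := d.p + d.L (ret y) + d.w (ret y) • d.e

theorem w_lt {y : E m} (hy : ‖y‖ < 4) : |d.w y| < 4 := (d.w0 y hy).1.trans_lt (by norm_num)

theorem X_mem (y : E m) : d.X y ∈ ball d.p 8 := by
  have := d.fr.mem_ball (p := d.p) (ret_lt y) (d.w_lt (ret_lt y)).le
  rwa [show (2 * 4 : ℝ) = 8 by norm_num] at this

theorem X_zero (y : E m) : d.S.Φ (d.X y) = 0 := (d.gr _ _ (ret_lt y) (d.w_lt (ret_lt y))).2.2 rfl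

theorem X_lip (m : ℕ) (α : ℝ) :
    ∃ K ≥ (0 : ℝ), ∀ (d : Gd m α) y y', ‖d.X y - d.X y'‖ ≤ K * ‖y - y'‖ := by
  obtain ⟨K, h0, hK⟩ := ret_lip m
  refine ⟨2 * K, by positivity, fun d y y' => ?_⟩
  have e1 : d.X y - d.X y' = d.L (ret y - ret y') + (d.w (ret y) - d.w (ret y')) • d.e := by
    rw [X, X, map_sub, sub_smul]; abel
  rw [e1]
  linarith [d.fr.norm_le (ret y - ret y') (d.w (ret y) - d.w (ret y')), hK y y',
    d.w1 _ _ (ret_lt y) (ret_lt y')]

theorem uh_lip {V : Type} [NormedAddCommGroup V] (hα : α ∈ Ioo (0 : ℝ) 1)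
    {F : Gd m α → E (m + 1) → V} (h1 : ∀ d, ∀ x ∈ ball d.p 8, ‖F d x‖ ≤ 2)
    (h2 : ∀ d, ∀ x ∈ ball d.p 8, ∀ x' ∈ ball d.p 8, d.S.Φ x = 0 → d.S.Φ x' = 0 →
      ‖F d x - F d x'‖ ≤ 1 * ‖x - x'‖) : UH α fun d y => F d (d.X y) := by
  obtain ⟨K, h0, hK⟩ := X_lip m α
  exact ⟨_, fun d => Qe.of_lip hα h0 (fun y => h1 d _ (d.X_mem y)) fun y y' =>
    (h2 d _ (d.X_mem y) _ (d.X_mem y') (d.X_zero y) (d.X_zero y')).trans
      (by rw [one_mul]; exact hK d y y')⟩

theorem uh_n (hα : α ∈ Ioo (0 : ℝ) 1) : UH α fun (d : Gd m α) y => d.S.n (d.X y) := by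
  obtain ⟨K, h0, hK⟩ := X_lip m α
  have h1 : 0 ≤ K ^ α := Real.rpow_nonneg h0 _
  refine ⟨2 + K ^ α, fun d => ⟨fun y => ?_, fun y y' => ?_⟩⟩
  · linarith [d.bd.n_le d.ok (by norm_num) (d.X_mem y)]
  · refine (d.ho _ (d.X_mem y) _ (d.X_mem y') (d.X_zero y) (d.X_zero y')).trans
      ((Real.rpow_le_rpow (norm_nonneg _) (hK d y y') hα.1.le).trans ?_)
    rw [Real.mul_rpow h0 (norm_nonneg _)]
    nlinarith [Qe.rp y y' α]

theorem ne_lo (y : E m) : 1 / 2 ≤ ⟪d.S.n (d.X y), d.e⟫ := by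
  have h1 := (abs_le.1 (d.fr.tilt (d.tl _ (d.X_mem y) (d.X_zero y)) 0 1)).1
  simp only [map_zero, one_smul, zero_add, norm_zero, abs_one, mul_one] at h1
  linarith

theorem uh_all (hα : α ∈ Ioo (0 : ℝ) 1) : (UH α fun (d : Gd m α) y => d.S.gam d.L (d.X y)) ∧
    (UH α fun (d : Gd m α) y => (⟪d.S.n (d.X y), d.e⟫)⁻¹ * d.S.rhs (d.X y)) ∧
    (UH α fun (d : Gd m α) y => d.w (ret y)) ∧
    ∀ i, UH α fun (d : Gd m α) y => pd i d.w (ret y) := by
  have hn := uh_n (m := m) hα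
  have hB : UH α fun (d : Gd m α) y => d.S.B (d.X y) := uh_lip hα (F := fun d => d.S.B)
    (fun d x hx => ContinuousLinearMap.opNorm_le_bound _ zero_le_two fun v =>
      (d.bd.B_hi hx v).trans (by gcongr; norm_num)) fun d x hx x' hx' _ _ => d.bd.B_lip d.ok hx hx'
  have hB1 : UH α fun (d : Gd m α) y => fderiv ℝ d.S.B (d.X y) :=
    uh_lip hα (F := fun d => fderiv ℝ d.S.B) (fun d x hx => (d.bd.B1 x hx).trans one_le_two)
      fun d x hx x' hx' _ _ => ContinuousLinearMap.opNorm_le_bound _ (by positivity) fun v => by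
        have := (convex_ball d.p 8).norm_image_sub_le_of_norm_fderiv_le (fun z _ =>
          (((d.ok.smB.fderiv_right (m := 1) two_le_inf).differentiable one_ne_zero z).clm_apply
            (differentiableAt_const v))) (fun z hz => d.bd.B2 z hz v) hx' hx
        rw [sub_apply]; linarith
  have ha : UH α fun (d : Gd m α) y => d.S.a (d.X y) := uh_lip hα (F := fun d => d.S.a)
    (fun d x hx => by
      rw [Real.norm_of_nonneg (d.ok.a0 x).le]; linarith [d.bd.a_hi (by norm_num) hx])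
    fun d x hx x' hx' _ _ => d.bd.a_lip d.ok hx hx'
  have ha1 : UH α fun (d : Gd m α) y => fderiv ℝ d.S.a (d.X y) :=
    uh_lip hα (F := fun d => fderiv ℝ d.S.a) (fun d x hx => (d.bd.a1 x hx).trans one_le_two)
      fun d x hx x' hx' _ _ => ContinuousLinearMap.opNorm_le_bound _ (by positivity) fun v => by
        have := (convex_ball d.p 8).norm_image_sub_le_of_norm_fderiv_le (fun z _ =>
          (((d.ok.sma.fderiv_right (m := 1) two_le_inf).differentiable one_ne_zero z).clm_apply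
            (differentiableAt_const v))) (fun z hz => d.bd.a2 z hz v) hx' hx
        rw [sub_apply]; linarith
  have hH : UH α fun (d : Gd m α) y => d.S.H (d.X y) := uh_lip hα (F := fun d => d.S.H)
    (fun d x hx => (d.bd.H0 x hx).trans one_le_two) fun d x hx x' hx' h1 h2 => by
      simpa using d.bd.H1 x hx x' hx' h1 h2
  have hν : UH α fun (d : Gd m α) y => d.S.ν (d.X y) := hB.app hn
  have he : UH (m := m) α fun (d : Gd m α) _ => d.e := UH.const fun d => d.fr.one.le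
  have hL : ∀ i, UH (m := m) α fun (d : Gd m α) _ => d.L (EuclideanSpace.single i 1) := fun i =>
    UH.const (K := 1) fun d => by simp
  have hi := (hn.inner he).inv ne_lo
  have hk : ∀ k, UH (m := m) α fun (_ : Gd m α) _ => (EuclideanSpace.single k 1 : E (m + 1)) :=
    fun k => UH.const fun d => le_rfl
  refine ⟨UH.pi fun i => UH.pi fun j => ((hL i).inner (hB.app (hL j))).sub
    ((hν.inner (hL i)).mul (hν.inner (hL j))), hi.mul ?_, ?_, fun i => ?_⟩
  · refine ((((UH.sum Finset.univ fun k => ((hB1.app ((hk k).sub ((hn.inner (hk k)).smul hν))).app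
      hn).lin (EuclideanSpace.proj k)).add ((hn.inner ((hB1.app hν).app hn)).mul
        (UH.const (c := fun _ => (2 : ℝ)⁻¹) fun _ => le_rfl))).add
      ((ha.inv fun d y => d.bd.a_lo (by norm_num) (d.X_mem y)).mul (ha1.app hν))).sub hH).congr
      fun d y => ?_
    simp [Surf.rhs, trc, Surf.P_apply, div_eq_mul_inv]
  · obtain ⟨K, h0, hK⟩ := ret_lip m
    exact ⟨_, fun d => Qe.of_lip hα h0 (fun y => (d.w0 _ (ret_lt y)).1) fun y y' =>
      (d.w1 _ _ (ret_lt y) (ret_lt y')).trans (hK y y')⟩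
  · refine (hi.mul (hn.inner (hL i)).neg).congr fun d y => ?_
    have h1 := d.gr.grad_eq d.ok d.fr ((d.w0 _ (ret_lt y)).2.differentiableAt (by simp))
      (ret_lt y) (d.w_lt (ret_lt y)) i
    have h2 := d.ne_lo y
    rw [X, ← h1, ← mul_assoc, inv_mul_cancel₀ (by rw [X] at h2; linarith), one_mul]

/-- the graph function after the cutoff -/
def v (y : E m) : ℝ := chi m y * d.w y

theorem chi_ev {y : E m} (hy : 3 < ‖y‖) : (chi m : E m → ℝ) =ᶠ[𝓝 y] fun _ => 0 :=
  (continuous_norm.continuousAt.eventually (lt_mem_nhds hy)).mono fun z hz =>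
    (chi m).zero_of_le_dist (by simpa [chi] using hz.le)

theorem v_ev {y : E m} (hy : 3 < ‖y‖) : d.v =ᶠ[𝓝 y] fun _ => 0 :=
  (chi_ev hy).mono fun z hz => by simp only [v, hz, zero_mul]

theorem sm_v : Smooth d.v := contDiff_iff_contDiffAt.2 fun y => by
  rcases lt_or_ge 3 ‖y‖ with h | h
  · exact contDiffAt_const.congr_of_eventuallyEq (d.v_ev h)
  · exact (chi m).contDiffAt.mul (d.w0 y (by linarith)).2

theorem pd_v (i : Fin m) (y : E m) (hy : ‖y‖ < 4) :
    pd i d.v y = chi m y * pd i d.w y + pd i (chi m) y * d.w y := by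
  rw [show d.v = fun y => chi m y * d.w y from rfl, P366Z.pd_mul
    (((chi m).contDiff (n := 1)).differentiable (by simp) y)
    ((d.w0 y hy).2.differentiableAt (by simp))]
  ring

theorem D1_v (i : Fin m) (y : E m) :
    pd i d.v y = chi m y * pd i d.w (ret y) + pd i (chi m) y * d.w (ret y) := by
  rcases lt_or_ge 3 ‖y‖ with h | h
  · rw [P366Z.pd_congr (d.v_ev h), P366Z.pd_congr (chi_ev h), (chi_ev h).eq_of_nhds,
      P366Z.pd_const]
    ring
  · rw [ret_eq h, d.pd_v i y (by linarith)]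

theorem eq_v (y : E m) : pr2 (d.S.gam d.L (d.X y)) (D2 d.v y) =
    chi m y * ((⟪d.S.n (d.X y), d.e⟫)⁻¹ * d.S.rhs (d.X y)) + ∑ i, ∑ j, d.S.gam d.L (d.X y) i j *
      (pd i (chi m) y * pd j d.w (ret y) + pd j (chi m) y * pd i d.w (ret y) +
        pd i (pd j (chi m)) y * d.w (ret y)) := by
  rcases lt_or_ge 3 ‖y‖ with h | h
  · have h1 : ∀ {f : E m → ℝ}, (f =ᶠ[𝓝 y] fun _ => 0) → ∀ i j, pd i (pd j f) y = 0 :=
      fun hf i j => by
        rw [P366Z.pd_congr (P366Z.pd_congr_ev hf j),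
          show pd j (fun _ : E m => (0 : ℝ)) = fun _ => 0 from funext (P366Z.pd_const 0 j),
          P366Z.pd_const]
    simp [pr2, D2, h1 (d.v_ev h), h1 (chi_ev h), P366Z.pd_congr (chi_ev h), P366Z.pd_const,
      (chi_ev h).eq_of_nhds]
  have hy : ‖y‖ < 4 := by linarith
  have hw : ContDiffAt ℝ 2 d.w y := (d.w0 y hy).2.of_le two_le_inf
  have hc : ContDiffAt ℝ 2 (chi m) y := (chi m).contDiffAt (n := 2)
  have h2 := d.ne_lo y
  have h3 := d.gr.eqn d.ok d.fr hw hy (d.w_lt hy)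
  rw [X, ret_eq h] at h2 ⊢
  rw [← h3, ← mul_assoc _ _ (pr2 _ _), inv_mul_cancel₀ (by linarith), one_mul]
  simp only [pr2, Finset.mul_sum, ← Finset.sum_add_distrib]
  refine Finset.sum_congr rfl fun i _ => Finset.sum_congr rfl fun j _ => ?_
  have h4 : pd j d.v =ᶠ[𝓝 y] fun z => chi m z * pd j d.w z + pd j (chi m) z * d.w z :=
    (continuous_norm.continuousAt.eventually (gt_mem_nhds hy)).mono fun z hz => d.pd_v j z hz
  rw [D2, D2, P366Z.pd_congr h4, P366Z.pd_add ((P366Z.diff2 hc).fun_mul (P366Z.diffAt_pd hw j))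
    ((P366Z.diffAt_pd hc j).fun_mul (P366Z.diff2 hw)), P366Z.pd_mul (P366Z.diff2 hc)
    (P366Z.diffAt_pd hw j), P366Z.pd_mul (P366Z.diffAt_pd hc j) (P366Z.diff2 hw)]
  ring

theorem est (m : ℕ) (hα : α ∈ Ioo (0 : ℝ) 1) : ∃ C, ∀ d : Gd m α, C2H α C d.v := by
  obtain ⟨h1, h2, h3, h4⟩ := uh_all (m := m) hα
  have hs : Smooth (chi m : E m → ℝ) := (chi m).contDiff
  have hcs : ∀ {f : E m → ℝ} (i : Fin m), HasCompactSupport f → Smooth f →
      HasCompactSupport (pd i f) := fun i hf hs => by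
    rw [show pd i _ = _ from funext fun x => P366Z.pd_eq (hs.diff x) i]
    exact hf.fderiv_apply ℝ _
  have c0 : UH α fun (_ : Gd m α) y => chi m y :=
    UH.smooth hα (hs.of_le (by simp)) (chi m).hasCompactSupport
  have c1 : ∀ i, UH α fun (_ : Gd m α) y => pd i (chi m) y := fun i =>
    UH.smooth hα ((hs.pd i).of_le (by simp)) (hcs i (chi m).hasCompactSupport hs)
  have c2 : ∀ i j, UH α fun (_ : Gd m α) y => pd i (pd j (chi m)) y := fun i j =>
    UH.smooth hα (((hs.pd j).pd i).of_le (by simp))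
      (hcs i (hcs j (chi m).hasCompactSupport hs) (hs.pd j))
  have hg : ∀ i j, UH α fun (d : Gd m α) y => d.S.gam d.L (d.X y) i j := fun i j =>
    (h1.lin (ContinuousLinearMap.proj i)).lin (ContinuousLinearMap.proj j)
  obtain ⟨A₀, k0⟩ : UH α fun (d : Gd m α) => d.v := (c0.mul h3).congr fun d y => by
    rcases lt_or_ge 3 ‖y‖ with h | h
    · simp [v, (chi_ev h).eq_of_nhds]
    · rw [ret_eq h, v]
  obtain ⟨A₁, k1⟩ : UH α fun (d : Gd m α) => D1 d.v :=
    UH.pi fun i => ((c0.mul (h4 i)).add ((c1 i).mul h3)).congr fun d y => d.D1_v i y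
  obtain ⟨A₂, k2⟩ := ((c0.mul h2).add (UH.sum Finset.univ fun i => UH.sum Finset.univ fun j =>
    (hg i j).mul ((((c1 i).mul (h4 j)).add ((c1 j).mul (h4 i))).add ((c2 i j).mul h3)))).congr
    fun d y => d.eq_v y
  obtain ⟨A₃, k3⟩ := h1
  obtain ⟨C, -, hC⟩ := usch m α (max 8 A₃) hα
  refine ⟨max A₀ (max A₁ (C * (A₁ + A₂))), fun d => ⟨d.sm_v.two, Qe.mono (k0 d) (le_max_left _ _),
    Qe.mono (k1 d) ((le_max_left _ _).trans (le_max_right _ _)), Qe.mono (hC _ d.v A₁ A₂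
      (fun y => ?_) (Qe.mono (k3 d) (le_max_right _ _)) d.sm_v.two ?_ (k1 d).1 (k2 d))
      ((le_max_right _ _).trans (le_max_right _ _))⟩⟩
  · obtain ⟨e1, e2, e3⟩ := d.bd.el d.ok d.fr (d.X_mem y) (d.tl _ (d.X_mem y) (d.X_zero y))
    refine ⟨e1, fun i j => (e2 i j).trans (le_max_left _ _), fun ξ => (e3 ξ).trans ?_⟩
    have : 0 ≤ P366Y.e2 ξ := Finset.sum_nonneg fun _ _ => sq_nonneg _
    exact mul_le_mul_of_nonneg_right (le_max_left _ _) (by linarith [e3 ξ])
  · have hv : HasCompactSupport d.v := (chi m).hasCompactSupport.mul_right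
    obtain ⟨K, hK⟩ : UH α fun (_ : Unit) => D2 d.v := UH.pi fun i => UH.pi fun j =>
      UH.smooth hα (((d.sm_v.pd j).pd i).of_le (by simp)) (hcs i (hcs j hv d.sm_v) (d.sm_v.pd j))
    exact ⟨K, hK ()⟩

end Gd

end Vale.Agent.P366W
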