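import Vale.Agent.P366W.White1

/-!
# P366W: density ratios close to one give flatness
-/

open MeasureTheory Metric Filter Topology Set
open scoped ContDiff ENNReal RealInnerProductSpace
open Vale.Agent.P366.Stmt Vale.Agent.P366Y

noncomputable section

namespace Vale.Agent.P366W

variable {N m : ℕ}

/-- the lower density bound and the excess at a point of the surface -/
theorem low (m : ℕ) : ∃ C > (0 : ℝ), ∀ (S : Surf (m + 1)) (x₀ y : E (m + 1)) (R η Λ r : ℝ),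
    S.Ok → S.Bd x₀ R η Λ → η ≤ 1 / 2 → ball y (2 * r) ⊆ ball x₀ R → C * Λ * r ≤ 1 → 0 < r →
    S.Φ y = 0 → Real.exp (-(C * Λ * r)) ≤ S.th y r ∧
      ∫ x in ball y (r / 4), ⟪S.n x, x - y⟫ ^ 2 ∂S.μ ≤
        C * r ^ (m + 2) * (Real.exp (C * Λ * r) * S.th y r - Real.exp (-(C * Λ * r))) := by
  obtain ⟨C, hC0, hC⟩ := mono m
  have key : ∀ (S : Surf (m + 1)) (x₀ y : E (m + 1)) (R η Λ r : ℝ),
      S.Ok → S.Bd x₀ R η Λ → η ≤ 1 / 2 → ball y (2 * r) ⊆ ball x₀ R → C * Λ * r ≤ 1 → 0 < r →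
      S.Φ y = 0 → Real.exp (-(C * Λ * r)) ≤ S.th y r := fun S x₀ y R η Λ r h hb hη hy hs hr h0 => by
    have h1 : 1 ≤ Real.exp (C * Λ * r) * S.th y r := by
      refine le_of_tendsto (dens m S y h h0) ?_
      filter_upwards [Ioo_mem_nhdsGT hr] with s hs'
      exact (hC S x₀ y R η Λ r h hb hη hy hs).1 s hs'.1 hs'.2.le
    rw [Real.exp_neg, inv_le_iff_one_le_mul₀' (Real.exp_pos _)]
    exact h1
  refine ⟨C, hC0, fun S x₀ y R η Λ r h hb hη hy hs hr h0 => ⟨key S x₀ y R η Λ r h hb hη hy hs hr h0,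
    ((hC S x₀ y R η Λ r h hb hη hy hs).2 hr).trans ?_⟩⟩
  have h1 : 0 ≤ C * Λ * r := by have := hb.Λ0; positivity
  have h2 := key S x₀ y R η Λ (r / 2) h hb hη ((ball_subset_ball (by linarith)).trans hy)
    (by linarith) (by linarith) h0
  gcongr
  exact le_trans (Real.exp_le_exp.2 (by linarith)) h2

theorem height (m : ℕ) {α D κ : ℝ} (hα : α ∈ Ioo (0 : ℝ) 1) (hD : 0 < D) (hκ : 0 < κ) :
    ∃ ε > (0 : ℝ), ∀ S : Surf (m + 1), S.Ok → S.Bd 0 (17 * D + 8) ε ε →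
      (∀ y ∈ ball (0 : E (m + 1)) D, S.Φ y = 0 → S.th y (8 * D + 4) ≤ 1 + ε) →
      (∀ q ∈ ball (0 : E (m + 1)) (17 * D + 8), ∀ q' ∈ ball (0 : E (m + 1)) (17 * D + 8),
        S.Φ q = 0 → S.Φ q' = 0 → ‖S.n q - S.n q'‖ ≤ ‖q - q'‖ ^ α) →
      ∀ x ∈ ball (0 : E (m + 1)) D, ∀ y ∈ ball (0 : E (m + 1)) D, S.Φ x = 0 → S.Φ y = 0 →
        |⟪S.n x, x - y⟫| ≤ κ := by
  obtain ⟨C, hC0, hC⟩ := low m
  obtain ⟨d, hd, D', -, hdD⟩ := det_bounds (m + 1)
  obtain ⟨s₁, s0, hs₁⟩ := Qe.small hα.1 (show 0 < κ / 4 by linarith) (2 * D + 1)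
  set s := min s₁ (min 1 (κ / 8)) with hs
  have hs0 : 0 < s := by positivity
  have hs1 : s ≤ 1 := (min_le_right _ _).trans (min_le_left _ _)
  have hs2 : s ≤ κ / 8 := (min_le_right _ _).trans (min_le_right _ _)
  have hs3 : (2 * D + 1) * s ^ α ≤ κ / 4 :=
    le_trans (by gcongr; exacts [hα.1.le, min_le_left _ _]) hs₁
  have hcm := cm_pos m
  set r := 8 * D + 4 with hr
  have hc : ContinuousAt (fun t : ℝ => C * r ^ (m + 2) *
      (Real.exp (C * t * r) * (1 + t) - Real.exp (-(C * t * r)))) 0 := by fun_prop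
  obtain ⟨t, t0, ht⟩ := Metric.eventually_nhds_iff.1 (hc.eventually (gt_mem_nhds
    (show _ < κ ^ 2 / 4 * (Real.exp (-1) * (cm m * (s / 2) ^ m * (1 / 2 * d))) by
      simp only [mul_zero, zero_mul, Real.exp_zero, neg_zero, add_zero, mul_one, sub_self]
      positivity)))
  have hr0 : 0 < r := by linarith
  set ε := min (t / 2) (min (1 / 2) (1 / (C * r))) with hε
  have e0 : 0 < ε := by positivity
  have e1 : ε ≤ 1 / 2 := (min_le_right _ _).trans (min_le_left _ _)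
  have e2 : C * ε * r ≤ 1 := by
    rw [mul_right_comm, mul_comm, ← le_div_iff₀ (by positivity)]
    exact (min_le_right _ _).trans (min_le_right _ _)
  have e3 := ht (y := ε) (by
    rw [dist_zero_right, Real.norm_of_nonneg e0.le]
    linarith [min_le_left (t / 2) (min (1 / 2) (1 / (C * r)))])
  refine ⟨ε, e0, fun S h hb h1 ho x hx y hy h2 h3 => not_lt.1 fun h4 => ?_⟩
  have hx' := mem_ball_zero_iff.1 hx
  have hy' := mem_ball_zero_iff.1 hy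
  have hxR : x ∈ ball (0 : E (m + 1)) (17 * D + 8) := ball_subset_ball (by linarith) hx
  have a1 := (hC S 0 y _ ε ε r h hb e1 (ball_subset_ball' (by rw [dist_zero_right]; linarith))
    e2 hr0 h3).2
  have a2 : C * ε * (s / 2) ≤ 1 := le_trans (by gcongr; linarith) e2
  have a3 := (hC S 0 x _ ε ε (s / 2) h hb e1
    (ball_subset_ball' (by rw [dist_zero_right]; linarith)) a2 (by linarith) h2).1
  have a4 : Real.exp (-1) * (cm m * (s / 2) ^ m * (1 / 2 * d)) ≤ S.M x (s / 2) := by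
    have b1 := (hdD _ ((hb.B0 x hxR).trans e1)).1
    have b2 := hb.a_lo e1 hxR
    rw [S.th_eq, le_div_iff₀ (by have := h.det_pos x; positivity)] at a3
    exact le_trans (by gcongr) a3
  have := h.fin
  have cn := h.smn.continuous
  have a5 : κ ^ 2 / 4 * S.M x (s / 2) ≤ ∫ z in ball y (r / 4), ⟪S.n z, z - y⟫ ^ 2 ∂S.μ := by
    rw [Surf.M, ← integral_const_mul, ← integral_indicator measurableSet_ball]
    refine integral_mono_of_nonneg (Eventually.of_forall fun z =>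
      mul_nonneg (by positivity) (ph_nonneg _)) ((integrable_indicator_iff measurableSet_ball).2
        (((by fun_prop : Continuous fun z => ⟪S.n z, z - y⟫ ^ 2).continuousOn.integrableOn_compact
          (isCompact_closedBall y (r / 4))).mono_set ball_subset_closedBall)) ?_
    filter_upwards [h.sup] with z hz
    by_cases h5 : s ≤ ‖z - x‖
    · rw [ph_zero (hb.far h e1 hxR (by linarith) (by linarith)), mul_zero]
      exact indicator_nonneg (fun _ _ => sq_nonneg _) _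
    have h6 : ‖z - x‖ < s := not_le.1 h5
    have h7 : ‖z - y‖ < 2 * D + 1 := by
      linarith [norm_sub_le_norm_sub_add_norm_sub z x y, norm_sub_le x y]
    have h8 : z ∈ ball (0 : E (m + 1)) (17 * D + 8) := by
      rw [mem_ball_zero_iff]; linarith [norm_le_norm_sub_add z x]
    rw [indicator_of_mem (by rw [mem_ball_iff_norm]; linarith)]
    have b1 : |⟪S.n z - S.n x, z - y⟫| ≤ s ^ α * (2 * D + 1) := by
      refine (abs_real_inner_le_norm _ _).trans ?_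
      gcongr
      exact (ho z h8 x hxR hz h2).trans (Real.rpow_le_rpow (norm_nonneg _) h6.le hα.1.le)
    have b2 : |⟪S.n x, z - x⟫| ≤ 3 / 2 * s :=
      (abs_real_inner_le_norm _ _).trans (by gcongr; exact hb.n_le h e1 hxR)
    have b3 : ⟪S.n x, x - y⟫ = ⟪S.n z, z - y⟫ - ⟪S.n z - S.n x, z - y⟫ - ⟪S.n x, z - x⟫ := by
      simp only [inner_sub_left, inner_sub_right]; ring
    have b4 : κ / 2 ≤ |⟪S.n z, z - y⟫| := by
      rw [b3] at h4
      linarith [abs_sub (⟪S.n z, z - y⟫ - ⟪S.n z - S.n x, z - y⟫) ⟪S.n x, z - x⟫,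
        abs_sub ⟪S.n z, z - y⟫ ⟪S.n z - S.n x, z - y⟫]
    have b5 := pow_le_pow_left₀ (by positivity) b4 2
    rw [sq_abs] at b5
    nlinarith [ph_le_one (div_nonneg (h.q_nonneg x z) (sq_nonneg (s / 2))), sq_nonneg κ]
  have a6 : C * r ^ (m + 2) * (Real.exp (C * ε * r) * S.th y r - Real.exp (-(C * ε * r))) ≤
      C * r ^ (m + 2) * (Real.exp (C * ε * r) * (1 + ε) - Real.exp (-(C * ε * r))) := by
    gcongr; exact h1 y hy h3
  nlinarith [mul_le_mul_of_nonneg_left a4 (show 0 ≤ κ ^ 2 / 4 by positivity)]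

theorem Surf.Bd.unit {S : Surf N} {x₀ x : E N} {R η Λ : ℝ} (h : S.Ok) (hb : S.Bd x₀ R η Λ)
    (hη : η ≤ 1 / 2) (hx : x ∈ ball x₀ R) : ∃ e : E N, ‖e‖ = 1 ∧ ‖S.n x - e‖ ≤ 2 * η := by
  have h1 := abs_real_inner_le_norm (S.n x) (S.B x (S.n x) - S.n x)
  have h2 := hb.Bsub hx (S.n x)
  have h3 := hb.n_sq h hη hx
  have h4 : ⟪S.n x, S.B x (S.n x)⟫ = 1 := h.nν x
  have h5 := hb.η0 hx
  rw [inner_sub_right, h4, real_inner_self_eq_norm_sq] at h1
  have h6 : |1 - ‖S.n x‖ ^ 2| ≤ 2 * η := by nlinarith [norm_nonneg (S.n x)]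
  have h7 : S.n x ≠ 0 := fun h0 => by simp [h0] at h4
  have h8 := norm_pos_iff.2 h7
  refine ⟨‖S.n x‖⁻¹ • S.n x, norm_smul_inv_norm h7, le_trans ?_ h6⟩
  rw [show S.n x - ‖S.n x‖⁻¹ • S.n x = (1 - ‖S.n x‖⁻¹) • S.n x by rw [sub_smul, one_smul],
    norm_smul, Real.norm_eq_abs, ← abs_of_pos h8, ← abs_mul, abs_of_pos h8, sub_mul,
    inv_mul_cancel₀ h8.ne', one_mul, abs_sub_comm, show 1 - ‖S.n x‖ ^ 2 =
      (1 - ‖S.n x‖) * (1 + ‖S.n x‖) by ring, abs_mul]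
  exact le_mul_of_one_le_right (abs_nonneg _) (by rw [abs_of_pos (by linarith)]; linarith)

theorem slab {S : Surf (m + 1)} {x e e₀ : E (m + 1)} {D σ ρ : ℝ} (h : S.Ok) (σ0 : 0 < σ)
    (σ1 : σ ≤ 1 / 16) (ρ0 : 0 < ρ) (ρ1 : ρ ≤ 1) (hx' : ‖x‖ < D) (h0 : S.Φ 0 = 0) (h2 : S.Φ x = 0)
    (a1 : ‖e₀‖ = 1) (b1 : ‖e‖ = 1) (a3 : Tl S 0 e₀ (2 * ρ) σ) (b3 : Tl S x e (2 * ρ) σ)
    (sl : ∀ z : E (m + 1), ‖z‖ < D + 2 → S.Φ z = 0 → |⟪e₀, z⟫| ≤ σ * ρ / 4) :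
    ‖e - e₀‖ ≤ 5 * σ := by
  obtain ⟨L₀, f₀⟩ := exists_fr a1
  obtain ⟨L, f⟩ := exists_fr b1
  have σρ : σ * ρ ≤ 1 / 16 * ρ := by gcongr
  have c1 : ‖adj L e₀‖ ≤ 3 * σ := by
    rcases (norm_nonneg (adj L e₀)).eq_or_lt with c2 | c2
    · linarith
    have c3 : ‖(ρ / 2 / ‖adj L e₀‖) • adj L e₀‖ = ρ / 2 := by
      rw [norm_smul, Real.norm_of_nonneg (by positivity)]; field_simp
    obtain ⟨s, c4, c5⟩ := b3.cross h f (by linarith) h2
      (y := (ρ / 2 / ‖adj L e₀‖) • adj L e₀) (by linarith)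
    have c6 := f.norm_le ((ρ / 2 / ‖adj L e₀‖) • adj L e₀) s
    rw [c3] at c4 c6
    have c7 := sl _ (by
      rw [add_assoc]
      linarith [norm_add_le x (L ((ρ / 2 / ‖adj L e₀‖) • adj L e₀) + s • e)]) c5
    have c8 := sl x (by linarith) h2
    have c9 : ⟪e₀, L ((ρ / 2 / ‖adj L e₀‖) • adj L e₀)⟫ = ρ / 2 * ‖adj L e₀‖ := by
      rw [real_inner_comm, ← inner_adj, real_inner_smul_left, real_inner_self_eq_norm_sq]
      field_simp
    have c10 : |s * ⟪e₀, e⟫| ≤ |s| := by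
      rw [abs_mul]
      exact mul_le_of_le_one_right (abs_nonneg _)
        ((abs_real_inner_le_norm _ _).trans (by rw [a1, b1, one_mul]))
    rw [inner_add_right, inner_add_right, c9, real_inner_smul_right] at c7
    refine le_of_mul_le_mul_left ?_ (half_pos ρ0)
    linarith [(abs_le.1 c7).2, (abs_le.1 c8).1, (abs_le.1 c10).1]
  have c2 := f.norm_sq (adj L e₀) ⟪e, e₀⟫
  rw [f.dec, a1] at c2
  have c3 : ‖adj L e₀‖ ^ 2 ≤ (3 * σ) ^ 2 := pow_le_pow_left₀ (norm_nonneg _) c1 2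
  rcases le_or_gt 0 ⟪e, e₀⟫ with c4 | c4
  · have c5 := norm_sub_sq_real e e₀
    rw [a1, b1] at c5
    have c6 : ⟪e, e₀⟫ ≤ 1 := by nlinarith [sq_nonneg ‖adj L e₀‖]
    exact abs_le_of_sq_le_sq' (by nlinarith) (by positivity) |>.2
  exfalso
  have d0 : ‖ρ • e₀‖ < 2 * ρ := by
    rw [norm_smul, a1, mul_one, Real.norm_of_nonneg ρ0.le]; linarith
  have d1 := a3.up h f₀ (by linarith) (mem_ball_self (by linarith)) h0 (y := 0) (s := ρ)
    (by simpa only [map_zero, zero_add, mem_ball_zero_iff] using d0) (by simpa using ρ0)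
  have d2 : S.Φ (x + ρ • e₀) < 0 := by
    refine h.cone_neg (convex_ball x (2 * ρ)) (mem_ball_self (by linarith))
      (by rwa [mem_ball_iff_norm, add_sub_cancel_left]) h2 fun q hq h5 => ?_
    have d3 : ⟪S.n q - e, e₀⟫ ≤ σ * 1 :=
      (real_inner_le_norm _ _).trans (by rw [a1]; gcongr; exact b3 q hq h5)
    rw [inner_sub_left] at d3
    rw [real_inner_smul_right]
    refine mul_neg_of_pos_of_neg ρ0 ?_
    nlinarith
  have d3 : Continuous fun t : ℝ => S.Φ (t • x + ρ • e₀) := h.smΦ.continuous.comp (by fun_prop)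
  obtain ⟨t, d4, d5⟩ := intermediate_value_Icc' zero_le_one d3.continuousOn
    (show (0 : ℝ) ∈ Icc _ _ from ⟨by simpa using d2.le, by simpa using d1.le⟩)
  have d6 : ‖t • x‖ ≤ ‖x‖ := by
    rw [norm_smul, Real.norm_of_nonneg d4.1]
    exact mul_le_of_le_one_left (norm_nonneg _) d4.2
  have d7 := sl _ (by linarith [norm_add_le (t • x) (ρ • e₀)]) d5
  have d8 := abs_le.1 (sl x (by linarith) h2)
  rw [inner_add_right, real_inner_smul_right, real_inner_smul_right, f₀.ee] at d7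
  nlinarith [(abs_le.1 d7).2, mul_nonneg d4.1 (show 0 ≤ ⟪e₀, x⟫ + σ * ρ / 4 by linarith),
    mul_le_mul_of_nonneg_right d4.2 (show 0 ≤ σ * ρ / 4 by positivity)]

theorem flat (m : ℕ) {α D τ : ℝ} (hα : α ∈ Ioo (0 : ℝ) 1) (hD : 0 < D) (hτ : 0 < τ) :
    ∃ ε > (0 : ℝ), ∀ S : Surf (m + 1), S.Ok → S.Bd 0 (17 * (D + 2) + 8) ε ε →
      (∀ y ∈ ball (0 : E (m + 1)) (D + 2), S.Φ y = 0 → S.th y (8 * (D + 2) + 4) ≤ 1 + ε) →
      (∀ q ∈ ball (0 : E (m + 1)) (17 * (D + 2) + 8),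
        ∀ q' ∈ ball (0 : E (m + 1)) (17 * (D + 2) + 8),
        S.Φ q = 0 → S.Φ q' = 0 → ‖S.n q - S.n q'‖ ≤ ‖q - q'‖ ^ α) → S.Φ 0 = 0 →
      ∀ x ∈ ball (0 : E (m + 1)) D, S.Φ x = 0 → ‖S.n x - S.n 0‖ ≤ τ := by
  obtain ⟨σ, σ0, σ1, σ2⟩ : ∃ σ > (0 : ℝ), σ ≤ 1 / 16 ∧ σ ≤ τ / 16 :=
    ⟨min (1 / 16) (τ / 16), by positivity, min_le_left _ _, min_le_right _ _⟩
  obtain ⟨s₁, s0, hs₁⟩ := Qe.small hα.1 (half_pos σ0) 1
  obtain ⟨ρ, ρ0, ρ1, ρ2⟩ : ∃ ρ > (0 : ℝ), ρ ≤ 1 ∧ (2 * ρ) ^ α ≤ σ / 2 :=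
    ⟨min 1 (s₁ / 2), by positivity, min_le_left _ _, le_trans (Real.rpow_le_rpow (y := s₁)
      (by positivity) (by linarith [min_le_right 1 (s₁ / 2)]) hα.1.le) (by linarith)⟩
  obtain ⟨ε₁, ε0, hε⟩ := height m hα (show 0 < D + 2 by linarith)
    (show 0 < σ * ρ / 8 by positivity)
  obtain ⟨ε, e0, e1, e2, e3⟩ : ∃ ε > (0 : ℝ), ε ≤ ε₁ ∧ ε ≤ σ / 4 ∧ ε * (16 * (D + 2)) ≤ σ * ρ := by
    refine ⟨min ε₁ (min (σ / 4) (σ * ρ / (16 * (D + 2)))), by positivity, min_le_left _ _,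
      (min_le_right _ _).trans (min_le_left _ _), ?_⟩
    rw [← le_div_iff₀ (by positivity)]; exact (min_le_right _ _).trans (min_le_right _ _)
  refine ⟨ε, e0, fun S h hb h1 ho h0 x hx h2 => ?_⟩
  have hx' := mem_ball_zero_iff.1 hx
  have h3 := hε S h (hb.mono Subset.rfl e1 e1) (fun y hy h3 => (h1 y hy h3).trans (by linarith)) ho
    0 (mem_ball_self (by linarith))
  have tl : ∀ p : E (m + 1), ‖p‖ < D → S.Φ p = 0 →
      ∃ e : E (m + 1), ‖e‖ = 1 ∧ ‖S.n p - e‖ ≤ 2 * ε ∧ Tl S p e (2 * ρ) σ := fun p hp h4 => by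
    have hp' : p ∈ ball (0 : E (m + 1)) (17 * (D + 2) + 8) := by
      rw [mem_ball_zero_iff]; linarith
    obtain ⟨e, a1, a2⟩ := hb.unit h (by linarith) hp'
    refine ⟨e, a1, a2, fun q hq h5 => ?_⟩
    rw [mem_ball_iff_norm] at hq
    have a3 := (ho q (by rw [mem_ball_zero_iff]; linarith [norm_le_norm_sub_add q p]) p hp' h5
      h4).trans (Real.rpow_le_rpow (norm_nonneg _) hq.le hα.1.le)
    linarith [norm_sub_le_norm_sub_add_norm_sub (S.n q) (S.n p) e]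
  obtain ⟨e₀, a1, a2, a3⟩ := tl 0 (by simpa using hD) h0
  obtain ⟨e, b1, b2, b3⟩ := tl x hx' h2
  have c7 := slab h σ0 σ1 ρ0 ρ1 hx' h0 h2 a1 b1 a3 b3 fun z hz h4 => by
    have c1 := h3 z (mem_ball_zero_iff.2 hz) h0 h4
    rw [zero_sub, inner_neg_right, abs_neg] at c1
    have c2 : |⟪S.n 0 - e₀, z⟫| ≤ 2 * ε * (D + 2) :=
      (abs_real_inner_le_norm _ _).trans (by gcongr)
    rw [inner_sub_left] at c2
    linarith [abs_sub_abs_le_abs_sub ⟪e₀, z⟫ ⟪S.n 0, z⟫, abs_sub_comm ⟪e₀, z⟫ ⟪S.n 0, z⟫]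
  linarith [norm_sub_le_norm_sub_add_norm_sub (S.n x) e (S.n 0),
    norm_sub_le_norm_sub_add_norm_sub e e₀ (S.n 0), norm_sub_rev e₀ (S.n 0)]

end Vale.Agent.P366W
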